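/-
Row 324 (S0582), PDE core, module NT = the TERM CALCULUS of the nonlinearity `NN` (shared by NL N0, CL N0T, HI H4).   Architect: helper762.
Blueprint: origin/helper232:docs/R324_blueprint.md 7.5 ("Pointwise calculus"), design note origin/helper762:docs/R324_NT.md.
File Basic: the pointwise quantities   `[[μ]](y) = |μ y| + |tt μ y|` (`ntBk`)   and   `A² + (tt A)²` (`ntS2`),   `tt f = -(1-y²) f'`.
Rules for `tt`: Core/W/TtCalc.lean.
-/
import Claimed.Agent.R324.Core.W.TtCalc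

set_option autoImplicit false

namespace Claimed.Agent.R324.Core

open Set Filter Topology

noncomputable section

/-- `[[μ]](y) = |μ y| + |tt μ y|`. -/
def ntBk (μ : ℝ → ℝ) (y : ℝ) : ℝ := |μ y| + |tt μ y|

/-- `A² + (tt A)²`. -/
def ntS2 (A : ℝ → ℝ) (y : ℝ) : ℝ := (A y) ^ 2 + (tt A y) ^ 2

variable {f g μ A p p' : ℝ → ℝ} {y : ℝ}

theorem ntBk_nonneg (μ : ℝ → ℝ) (y : ℝ) : 0 ≤ ntBk μ y := add_nonneg (abs_nonneg _) (abs_nonneg _)

theorem ntS2_nonneg (A : ℝ → ℝ) (y : ℝ) : 0 ≤ ntS2 A y := add_nonneg (sq_nonneg _) (sq_nonneg _)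

theorem ntBk_abs_le (μ : ℝ → ℝ) (y : ℝ) : |μ y| ≤ ntBk μ y := le_add_of_nonneg_right (abs_nonneg _)

theorem ntBk_tt_le (μ : ℝ → ℝ) (y : ℝ) : |tt μ y| ≤ ntBk μ y := le_add_of_nonneg_left (abs_nonneg _)

theorem ntBk_congr (h : g =ᶠ[𝓝 y] f) : ntBk g y = ntBk f y := by
  unfold ntBk
  rw [tt_congr h, h.eq_of_nhds]

theorem ntS2_congr (h : g =ᶠ[𝓝 y] f) : ntS2 g y = ntS2 f y := by
  unfold ntS2
  rw [tt_congr h, h.eq_of_nhds]

theorem ntBk_const (c : ℝ) (y : ℝ) : ntBk (fun _ => c) y = |c| := by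
  unfold ntBk
  rw [tt_const]
  simp

theorem ntBk_zero (y : ℝ) : ntBk (fun _ => 0) y = 0 := by
  rw [ntBk_const]
  simp

theorem ntS2_zero (y : ℝ) : ntS2 (fun _ => 0) y = 0 := by
  unfold ntS2
  rw [tt_const]
  simp

theorem ntBk_add (hf : DifferentiableAt ℝ f y) (hg : DifferentiableAt ℝ g y) :
    ntBk (fun z => f z + g z) y ≤ ntBk f y + ntBk g y := by
  unfold ntBk
  rw [tt_add hf hg]
  have h1 := abs_add_le (f y) (g y)
  have h2 := abs_add_le (tt f y) (tt g y)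
  linarith

theorem ntBk_neg (f : ℝ → ℝ) (y : ℝ) : ntBk (fun z => -f z) y = ntBk f y := by
  unfold ntBk
  rw [tt_neg, abs_neg, abs_neg]

theorem ntBk_sub (hf : DifferentiableAt ℝ f y) (hg : DifferentiableAt ℝ g y) :
    ntBk (fun z => f z - g z) y ≤ ntBk f y + ntBk g y := by
  unfold ntBk
  rw [tt_sub hf hg]
  have h1 := abs_sub (f y) (g y)
  have h2 := abs_sub (tt f y) (tt g y)
  linarith

theorem ntBk_mul (hf : DifferentiableAt ℝ f y) (hg : DifferentiableAt ℝ g y) :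
    ntBk (fun z => f z * g z) y ≤ ntBk f y * ntBk g y := by
  unfold ntBk
  rw [tt_mul hf hg, abs_mul]
  have h2 := abs_add_le (tt f y * g y) (f y * tt g y)
  rw [abs_mul, abs_mul] at h2
  have h3 : 0 ≤ |tt f y| * |tt g y| := mul_nonneg (abs_nonneg _) (abs_nonneg _)
  nlinarith

theorem ntBk_const_mul (c : ℝ) (hf : DifferentiableAt ℝ f y) :
    ntBk (fun z => c * f z) y = |c| * ntBk f y := by
  unfold ntBk
  rw [tt_const_mul c hf, abs_mul, abs_mul]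
  ring

theorem ntBk_sum {ι : Type} (s : Finset ι) {F : ι → ℝ → ℝ} (h : ∀ i ∈ s, DifferentiableAt ℝ (F i) y) :
    ntBk (fun z => ∑ i ∈ s, F i z) y ≤ ∑ i ∈ s, ntBk (F i) y := by
  classical
  induction s using Finset.induction_on with
  | empty => simp [ntBk_zero]
  | insert a s ha ih =>
    have h1 : DifferentiableAt ℝ (F a) y := h a (Finset.mem_insert_self a s)
    have h2 : ∀ i ∈ s, DifferentiableAt ℝ (F i) y := fun i hi => h i (Finset.mem_insert_of_mem hi)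
    have h3 : DifferentiableAt ℝ (fun z => ∑ i ∈ s, F i z) y := DifferentiableAt.fun_sum h2
    have h4 : (fun z => ∑ i ∈ insert a s, F i z) = fun z => F a z + ∑ i ∈ s, F i z := by
      funext z
      rw [Finset.sum_insert ha]
    rw [h4, Finset.sum_insert ha]
    exact (ntBk_add h1 h3).trans (by linarith [ih h2])

/-- `|y| ≤ 1`:  `[[y]] ≤ 2`. -/
theorem ntBk_id (hy : y ∈ Icc (-1 : ℝ) 1) : ntBk (fun z => z) y ≤ 2 := by
  unfold ntBk
  rw [tt_id, abs_neg]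
  have h1 : |y| ≤ 1 := abs_le.2 hy
  have h2 : |Xf y| ≤ 1 := by
    unfold Xf
    rw [abs_le]
    constructor <;> nlinarith [hy.1, hy.2]
  linarith

theorem ntS2_le_bk_sq (A : ℝ → ℝ) (y : ℝ) : ntS2 A y ≤ (ntBk A y) ^ 2 := by
  unfold ntS2 ntBk
  have h3 : 0 ≤ |A y| * |tt A y| := mul_nonneg (abs_nonneg _) (abs_nonneg _)
  nlinarith [sq_abs (A y), sq_abs (tt A y)]

theorem ntBk_sq_le (A : ℝ → ℝ) (y : ℝ) : (ntBk A y) ^ 2 ≤ 2 * ntS2 A y := by
  unfold ntS2 ntBk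
  nlinarith [sq_abs (A y), sq_abs (tt A y), sq_nonneg (|A y| - |tt A y|)]

theorem ntS2_neg (f : ℝ → ℝ) (y : ℝ) : ntS2 (fun z => -f z) y = ntS2 f y := by
  unfold ntS2
  rw [tt_neg]
  ring

/-- `(μ A)² + (tt (μ A))² ≤ 2 [[μ]]² (A² + (tt A)²)`. -/
theorem ntS2_mul (hμ : DifferentiableAt ℝ μ y) (hA : DifferentiableAt ℝ A y) :
    ntS2 (fun z => μ z * A z) y ≤ 2 * (ntBk μ y) ^ 2 * ntS2 A y := by
  unfold ntS2 ntBk
  rw [tt_mul hμ hA]
  have h3 : 0 ≤ |μ y| * |tt μ y| := mul_nonneg (abs_nonneg _) (abs_nonneg _)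
  have e1 : (|μ y| + |tt μ y|) ^ 2 = μ y ^ 2 + tt μ y ^ 2 + 2 * (|μ y| * |tt μ y|) := by
    nlinarith [sq_abs (μ y), sq_abs (tt μ y)]
  rw [e1]
  have h4 : 0 ≤ (|μ y| * |tt μ y|) * (A y ^ 2 + tt A y ^ 2) :=
    mul_nonneg h3 (add_nonneg (sq_nonneg _) (sq_nonneg _))
  nlinarith [sq_nonneg (tt μ y * A y - μ y * tt A y), sq_nonneg (μ y * A y), sq_nonneg (tt μ y * tt A y)]

theorem ntS2_add (hf : DifferentiableAt ℝ f y) (hg : DifferentiableAt ℝ g y) :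
    ntS2 (fun z => f z + g z) y ≤ 2 * (ntS2 f y + ntS2 g y) := by
  unfold ntS2
  rw [tt_add hf hg]
  nlinarith [sq_nonneg (f y - g y), sq_nonneg (tt f y - tt g y)]

theorem ntS2_sub (hf : DifferentiableAt ℝ f y) (hg : DifferentiableAt ℝ g y) :
    ntS2 (fun z => f z - g z) y ≤ 2 * (ntS2 f y + ntS2 g y) := by
  unfold ntS2
  rw [tt_sub hf hg]
  nlinarith [sq_nonneg (f y + g y), sq_nonneg (tt f y + tt g y)]

theorem tt_sum {ι : Type} (s : Finset ι) {F : ι → ℝ → ℝ} (h : ∀ i ∈ s, DifferentiableAt ℝ (F i) y) :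
    tt (fun z => ∑ i ∈ s, F i z) y = ∑ i ∈ s, tt (F i) y := by
  rw [tt_apply, deriv_fun_sum h, Finset.mul_sum]
  rfl

/-- `ntS2 (Σ_{i ∈ s} F i) ≤ |s| Σ ntS2 (F i)`. -/
theorem ntS2_sum {ι : Type} (s : Finset ι) {F : ι → ℝ → ℝ} (h : ∀ i ∈ s, DifferentiableAt ℝ (F i) y) :
    ntS2 (fun z => ∑ i ∈ s, F i z) y ≤ s.card * ∑ i ∈ s, ntS2 (F i) y := by
  unfold ntS2
  rw [tt_sum s h, Finset.sum_add_distrib, mul_add]
  exact add_le_add sq_sum_le_card_mul_sum_sq sq_sum_le_card_mul_sum_sq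

/-- the quadratic atoms `X p p'`. -/
theorem ntS2_Xpp (hy : y ∈ Icc (-1 : ℝ) 1) (hp : DifferentiableAt ℝ p y) (hp' : DifferentiableAt ℝ p' y) :
    ntS2 (fun z => (1 - z ^ 2) * p z * p' z) y
      ≤ 13 * ((1 - y ^ 2) * p y) ^ 2 * ntS2 p' y + 3 * ((1 - y ^ 2) * p' y) ^ 2 * ntS2 p y := by
  have hX : DifferentiableAt ℝ (fun z : ℝ => 1 - z ^ 2) y := by fun_prop
  have e0 : tt (fun z : ℝ => 1 - z ^ 2) y = 2 * y * (1 - y ^ 2) := tt_Xf y
  have e1 : tt (fun z => (1 - z ^ 2) * p z * p' z) y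
      = 2 * y * ((1 - y ^ 2) * p y) * p' y + ((1 - y ^ 2) * p' y) * tt p y + ((1 - y ^ 2) * p y) * tt p' y := by
    have hXp : DifferentiableAt ℝ (fun z => (1 - z ^ 2) * p z) y := hX.mul hp
    rw [tt_mul (f := fun z => (1 - z ^ 2) * p z) hXp hp', tt_mul (f := fun z : ℝ => 1 - z ^ 2) hX hp, e0]
    ring
  unfold ntS2
  rw [e1]
  beta_reduce
  have hy2 : y ^ 2 ≤ 1 := by nlinarith [hy.1, hy.2]
  obtain ⟨a, ha⟩ : ∃ a, a = (1 - y ^ 2) * p y := ⟨_, rfl⟩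
  obtain ⟨b, hb⟩ : ∃ b, b = (1 - y ^ 2) * p' y := ⟨_, rfl⟩
  have e2 : (1 - y ^ 2) * p y * p' y = a * p' y := by rw [ha]
  rw [e2, ← ha, ← hb]
  have h1 : (2 * y * a * p' y + b * tt p y + a * tt p' y) ^ 2
      ≤ 3 * ((2 * y * a * p' y) ^ 2 + (b * tt p y) ^ 2 + (a * tt p' y) ^ 2) := by
    nlinarith [sq_nonneg (2 * y * a * p' y - b * tt p y), sq_nonneg (2 * y * a * p' y - a * tt p' y),
      sq_nonneg (b * tt p y - a * tt p' y)]
  have h2 : (2 * y * a * p' y) ^ 2 ≤ 4 * (a * p' y) ^ 2 := by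
    have : (2 * y * a * p' y) ^ 2 = 4 * y ^ 2 * (a * p' y) ^ 2 := by ring
    rw [this]
    nlinarith [sq_nonneg (a * p' y)]
  nlinarith [sq_nonneg (b * p y), sq_nonneg (a * tt p' y)]

/-- hygiene. -/
theorem core_nt_basic_hygiene : True := by
  have := @ntBk.eq_1
  have := @ntS2.eq_1
  trivial

end

end Claimed.Agent.R324.Core
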