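/-
Row 324 (S0582), PDE core, module NT (term calculus of `NN`; architect helper762).   Design note: origin/helper762:docs/R324_NT.md.
File Forms: the three MULTILINEAR FORMS.   Everything is static: functions of `y` only.
   coefficients  `c : NTc`   (arbitrary functions of `y`),
   multipliers   `Ps : Fin 7 → ℝ → ℝ`   (in the application `e₁-1, e₂-1, e₃-1, 1-Φ₁(h₁), 1-Φ₁(h₂), 1-Φ₁(h₃), e₂ Φ₁(β) - 1`),   `e` (`= e₁`),
   atoms         `a : NTa`:   `a.A = (u₀,u₁,u₂, tt u₀, tt u₁, tt u₂)`,  `a.v = ` u-form of `L̃ U`,  `a.p = PP(U) = (σ', h₃', b, X b')`.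
   `ntB1 c Ps a j   = Σ c1 j m k · Ps m · A k + Σ c2 j m l · Ps m · p l + c3 j · Ps 0 · v j`          (types T1-T4 of blueprint 7.5)
   `ntB5 c e p p' j = Σ c5 j k l · e · (X p k p' l)`                                                   (type T5)
   `ntB0 c a j      = Σ c0 j k · A k + c0v j · v j`                                                    (type T0: small linear terms)
   `ntF = ntB1 + ntB5 + ntB0`:   in u-form  `NN(U) = ntF (coefficients of (g, bgR q g)) ..`   (Core/NT/Struct.lean).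
Atom density  `ntAa ρ a = Σ ntS2 (v j) + ρ⁻² Σ ntS2 (A k) + Σ ntS2 (p l)`,   `ρ = r̂²`.
-/
import Claimed.Agent.R324.Core.NT.Basic

set_option autoImplicit false

namespace Claimed.Agent.R324.Core

open Set Filter Topology

noncomputable section

/-- coefficient arrays (functions of `y`). -/
structure NTc where
  c1 : Fin 3 → Fin 7 → Fin 6 → ℝ → ℝ
  c2 : Fin 3 → Fin 7 → Fin 4 → ℝ → ℝ
  c3 : Fin 3 → ℝ → ℝ
  c5 : Fin 3 → Fin 4 → Fin 4 → ℝ → ℝ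
  c0 : Fin 3 → Fin 6 → ℝ → ℝ
  c0v : Fin 3 → ℝ → ℝ

/-- atoms (functions of `y`). -/
structure NTa where
  A : Fin 6 → ℝ → ℝ
  v : Fin 3 → ℝ → ℝ
  p : Fin 4 → ℝ → ℝ

/-- all coefficients are differentiable. -/
structure NTc.Df (c : NTc) : Prop where
  d1 : ∀ j m k, Differentiable ℝ (c.c1 j m k)
  d2 : ∀ j m l, Differentiable ℝ (c.c2 j m l)
  d3 : ∀ j, Differentiable ℝ (c.c3 j)
  d5 : ∀ j k l, Differentiable ℝ (c.c5 j k l)
  d0 : ∀ j k, Differentiable ℝ (c.c0 j k)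
  d0v : ∀ j, Differentiable ℝ (c.c0v j)

/-- all atoms are differentiable. -/
structure NTa.Df (a : NTa) : Prop where
  dA : ∀ k, Differentiable ℝ (a.A k)
  dv : ∀ j, Differentiable ℝ (a.v j)
  dp : ∀ l, Differentiable ℝ (a.p l)

/-- bounds of the coefficients at the point `y`:   `K` size, `κ` smallness of the linear terms, `ρ = r̂²`. -/
structure NTc.Bd (c : NTc) (K κ ρ y : ℝ) : Prop where
  b1 : ∀ j m k, ntBk (c.c1 j m k) y ≤ K / ρ
  b2 : ∀ j m l, ntBk (c.c2 j m l) y ≤ K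
  b3 : ∀ j, ntBk (c.c3 j) y ≤ K
  b5 : ∀ j k l, ntBk (c.c5 j k l) y ≤ K
  b0 : ∀ j k, ntBk (c.c0 j k) y ≤ K * κ / ρ
  b0v : ∀ j, ntBk (c.c0v j) y ≤ K * κ

/-- difference of atoms. -/
def NTa.sub (a a' : NTa) : NTa where
  A := fun k y => a.A k y - a'.A k y
  v := fun j y => a.v j y - a'.v j y
  p := fun l y => a.p l y - a'.p l y

/-- types T1-T4. -/
def ntB1 (c : NTc) (Ps : Fin 7 → ℝ → ℝ) (a : NTa) (j : Fin 3) (y : ℝ) : ℝ :=
  (∑ m, ∑ k, c.c1 j m k y * Ps m y * a.A k y) + (∑ m, ∑ l, c.c2 j m l y * Ps m y * a.p l y)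
    + c.c3 j y * Ps 0 y * a.v j y

/-- type T5. -/
def ntB5 (c : NTc) (e : ℝ → ℝ) (p p' : Fin 4 → ℝ → ℝ) (j : Fin 3) (y : ℝ) : ℝ :=
  ∑ k, ∑ l, c.c5 j k l y * e y * ((1 - y ^ 2) * p k y * p' l y)

/-- type T0. -/
def ntB0 (c : NTc) (a : NTa) (j : Fin 3) (y : ℝ) : ℝ :=
  (∑ k, c.c0 j k y * a.A k y) + c.c0v j y * a.v j y

/-- the term sum. -/
def ntF (c : NTc) (Ps : Fin 7 → ℝ → ℝ) (e : ℝ → ℝ) (a : NTa) (j : Fin 3) (y : ℝ) : ℝ :=
  ntB1 c Ps a j y + ntB5 c e a.p a.p j y + ntB0 c a j y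

/-- the derivative of the term sum (`cd, Pd, ed, ad` = derivatives of `c, Ps, e, a`). -/
def ntDF (c cd : NTc) (Ps Pd : Fin 7 → ℝ → ℝ) (e ed : ℝ → ℝ) (a ad : NTa) (j : Fin 3) (y : ℝ) : ℝ :=
  ntF cd Ps e a j y + (ntB1 c Pd a j y + ntB5 c ed a.p a.p j y)
    + (ntB1 c Ps ad j y + ntB5 c e ad.p a.p j y + ntB5 c e a.p ad.p j y + ntB0 c ad j y)

/-- the atom density. -/
def ntAa (ρ : ℝ) (a : NTa) (y : ℝ) : ℝ :=
  (∑ j, ntS2 (a.v j) y) + (∑ k, ntS2 (a.A k) y) / ρ ^ 2 + ∑ l, ntS2 (a.p l) y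

theorem ntAa_nonneg (ρ : ℝ) (a : NTa) (y : ℝ) : 0 ≤ ntAa ρ a y := by
  unfold ntAa
  have h1 : 0 ≤ ∑ j, ntS2 (a.v j) y := Finset.sum_nonneg fun j _ => ntS2_nonneg _ _
  have h2 : 0 ≤ ∑ k, ntS2 (a.A k) y := Finset.sum_nonneg fun j _ => ntS2_nonneg _ _
  have h3 : 0 ≤ ∑ l, ntS2 (a.p l) y := Finset.sum_nonneg fun j _ => ntS2_nonneg _ _
  have h4 : 0 ≤ (∑ k, ntS2 (a.A k) y) / ρ ^ 2 := div_nonneg h2 (sq_nonneg _)
  linarith

theorem NTa.Df.sub {a a' : NTa} (h : a.Df) (h' : a'.Df) : (a.sub a').Df :=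
  ⟨fun k => (h.dA k).sub (h'.dA k), fun j => (h.dv j).sub (h'.dv j), fun l => (h.dp l).sub (h'.dp l)⟩

/-- hygiene. -/
theorem core_nt_forms_hygiene : True := by
  have := @NTa.sub.eq_1
  have := @ntB1.eq_1
  have := @ntB5.eq_1
  have := @ntB0.eq_1
  have := @ntF.eq_1
  have := @ntDF.eq_1
  have := @ntAa.eq_1
  trivial

end

end Claimed.Agent.R324.Core
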