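/-
Row 324 (S0582), PDE core, module NT (term calculus of `NN`; architect helper762).   File CfBk: from the symbol classes `TS` to the pointwise quantity `[[f]] = ntBk (sl f t) y = |f| + |tt f|`;   uniform constants for finite families.
SKETCHES.
* `nt_bk_of_ts`:     `TS.tt_bound hq hD h (i := 0) (j := 0)` and `(j := 1)` (Core/AP/Cal/Conv.lean):  |tt^[j] (sl (dT^[0] f) p.1) p.2| ≤ C_j ϱ p / Θ^0;   `Function.iterate_zero, Function.iterate_one, id, pow_zero, div_one`;   C := C₀ + C₁  (needs ϱ p ≥ 0?  NO:  |..| ≤ C_j ϱ p gives directly  ntBk ≤ C₀ ϱ + C₁ ϱ = (C₀ + C₁) ϱ).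
* `nt_bk_dT_of_ts`:  the same with `i := 1`  (`pow_one`).
* `nt_bk_sr0`, `nt_bk_sr1`:  D = DW Λ₀, `mem_DW ht hy`, `domOK_DW hΛ`;   `wt_zero`: wt q 0 0 0 p = 1;   `wc_b2_wt_inv`/`wc_coefB_wtR`: wt q 0 0 (-1) p = 1/rh2 = (rh2)⁻¹  (Core/W/CoefB.lean, CoefB2.lean);   take the max (or the sum) of the two constants.
* `nt_fin_unif`:  `choose C hC using h`;  `cases nonempty_fintype ι`;   C* := Σ_i |C i| ≥ |C i| ≥ C i  (`Finset.single_le_sum`, `le_abs_self`).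
-/
import Claimed.Agent.R324.Core.NT.Basic
import Claimed.Agent.R324.Core.W.CoefB2

set_option autoImplicit false

namespace Claimed.Agent.R324.Core

open Set Filter Topology
open scoped ContDiff

noncomputable section

variable {q Λ₀ : ℝ} {D : Set (ℝ × ℝ)} {m n : ℕ} {ϱ f : Fn}

theorem nt_bk_of_ts (hq : 100 ≤ q) (hD : DomOK D) (h : TS q D m n ϱ f) (hn : 1 ≤ n) :
    ∃ C : ℝ, 0 ≤ C ∧ ∀ p ∈ D, ntBk (sl f p.1) p.2 ≤ C * ϱ p := by
  obtain ⟨C0, hC0, h0⟩ := TS.tt_bound hq hD h (i := 0) (j := 0) (Nat.zero_le _) (Nat.zero_le _)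
  obtain ⟨C1, hC1, h1⟩ := TS.tt_bound hq hD h (i := 0) (j := 1) (Nat.zero_le _) hn
  refine ⟨C0 + C1, add_nonneg hC0 hC1, fun p hp => ?_⟩
  have a0 := h0 p hp
  have a1 := h1 p hp
  simp only [Function.iterate_zero, Function.iterate_one, id, pow_zero, div_one] at a0 a1
  unfold ntBk
  linarith

theorem nt_bk_dT_of_ts (hq : 100 ≤ q) (hD : DomOK D) (h : TS q D m n ϱ f) (hm : 1 ≤ m) (hn : 1 ≤ n) :
    ∃ C : ℝ, 0 ≤ C ∧ ∀ p ∈ D, ntBk (sl (dT f) p.1) p.2 ≤ C * ϱ p / Th p.1 p.2 := by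
  obtain ⟨C0, hC0, h0⟩ := TS.tt_bound hq hD h (i := 1) (j := 0) hm (Nat.zero_le _)
  obtain ⟨C1, hC1, h1⟩ := TS.tt_bound hq hD h (i := 1) (j := 1) hm hn
  refine ⟨C0 + C1, add_nonneg hC0 hC1, fun p hp => ?_⟩
  have a0 := h0 p hp
  have a1 := h1 p hp
  simp only [Function.iterate_zero, Function.iterate_one, id, pow_one] at a0 a1
  unfold ntBk
  have e : (C0 + C1) * ϱ p / Th p.1 p.2 = C0 * ϱ p / Th p.1 p.2 + C1 * ϱ p / Th p.1 p.2 := by ring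
  rw [e]
  linarith

/-- symbols of order 0. -/
theorem nt_bk_sr0 (hq : 100 ≤ q) (hΛ : Λ₀ ≤ 1) (h : SR q Λ₀ 4 0 f) : ∃ C : ℝ, 0 ≤ C ∧
    ∀ t ∈ Ico (-Λ₀) 0, ∀ y ∈ Icc (-1 : ℝ) 1, ntBk (sl f t) y ≤ C ∧ ntBk (sl (dT f) t) y ≤ C / Th t y := by
  obtain ⟨C0, hC0, h0⟩ := nt_bk_of_ts hq (domOK_DW hΛ) h (by norm_num)
  obtain ⟨C1, hC1, h1⟩ := nt_bk_dT_of_ts hq (domOK_DW hΛ) h (by norm_num) (by norm_num)
  refine ⟨C0 + C1, add_nonneg hC0 hC1, fun t ht y hy => ?_⟩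
  have hp : (t, y) ∈ DW Λ₀ := mem_DW ht hy
  have a0 := h0 (t, y) hp
  have a1 := h1 (t, y) hp
  have hT : 0 < Th t y := Th_pos_dom (domOK_DW hΛ) hp
  rw [wt_zero] at a0 a1
  simp only [mul_one] at a0 a1
  refine ⟨by linarith, a1.trans ?_⟩
  exact div_le_div_of_nonneg_right (by linarith) hT.le

/-- symbols of order -1. -/
theorem nt_bk_sr1 (hq : 100 ≤ q) (hΛ : Λ₀ ≤ 1) (h : SR q Λ₀ 4 (-1) f) : ∃ C : ℝ, 0 ≤ C ∧
    ∀ t ∈ Ico (-Λ₀) 0, ∀ y ∈ Icc (-1 : ℝ) 1,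
      ntBk (sl f t) y ≤ C / rh2 q t y ∧ ntBk (sl (dT f) t) y ≤ C / Th t y / rh2 q t y := by
  obtain ⟨C0, hC0, h0⟩ := nt_bk_of_ts hq (domOK_DW hΛ) h (by norm_num)
  obtain ⟨C1, hC1, h1⟩ := nt_bk_dT_of_ts hq (domOK_DW hΛ) h (by norm_num) (by norm_num)
  refine ⟨C0 + C1, add_nonneg hC0 hC1, fun t ht y hy => ?_⟩
  have hp : (t, y) ∈ DW Λ₀ := mem_DW ht hy
  have a0 := h0 (t, y) hp
  have a1 := h1 (t, y) hp
  have hT : 0 < Th t y := Th_pos_dom (domOK_DW hΛ) hp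
  have hR : 0 < rh2 q t y := rh2_pos_dom (by linarith) (domOK_DW hΛ) hp
  rw [wc_b2_wt_inv] at a0 a1
  simp only at a0 a1
  constructor
  · refine a0.trans ?_
    rw [mul_one_div]
    exact div_le_div_of_nonneg_right (by linarith) hR.le
  · refine a1.trans ?_
    have e : C1 * (1 / rh2 q t y) / Th t y = C1 / Th t y / rh2 q t y := by
      field_simp
    rw [e]
    exact div_le_div_of_nonneg_right (div_le_div_of_nonneg_right (by linarith) hT.le) hR.le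

/-- a uniform constant for a finite family of monotone properties. -/
theorem nt_fin_unif {ι : Type} [Finite ι] {P : ι → ℝ → Prop} (hm : ∀ i C C', C ≤ C' → P i C → P i C')
    (h : ∀ i, ∃ C, P i C) : ∃ C : ℝ, 0 ≤ C ∧ ∀ i, P i C := by
  choose C hC using h
  cases nonempty_fintype ι
  refine ⟨∑ i, |C i|, Finset.sum_nonneg fun i _ => abs_nonneg _, fun i => ?_⟩
  refine hm i (C i) _ ?_ (hC i)
  exact (le_abs_self _).trans
    (Finset.single_le_sum (f := fun i => |C i|) (fun i _ => abs_nonneg _) (Finset.mem_univ i))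

end

end Claimed.Agent.R324.Core
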