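/-
Row 324 (S0582), PDE core, module NT (term calculus of `NN`; architect helper762).   File CfP: THE PAIR CALCULUS (for the smallness of the linear terms `(L - L̃) U` of `NN`).
   Symbol calculus: Core/AP/Cal/*.lean (`TS q D m n ϱ f`, weights `wt q a b c = (r̂^{-α})^a Θ^b (r̂²)^c`, `wt q 1 8 0 = 𝔍` (`wt_JJ`)), Core/W/SR.lean (`DW Λ₀ = [-Λ₀,0) × [-1,1]`, `domOK_DW`).
   `NtP q Λ₀ n c f f'`:   `f`, `f'` are symbols of order `(r̂²)^c` (no time derivatives, `n` y-derivatives) and `f - f'` is a symbol of order `𝔍 (r̂²)^c`.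
   The API is the mirror of the API `sr_*` of Core/W/SR.lean, so that the proofs of Core/W/CoefC.lean, CoefD0-2.lean, CoefE.lean can be ported by textual substitution.
SKETCHES.   hD := domOK_DW hΛ.     Each lemma = three applications of the corresponding `TS.*` lemma, after rewriting the difference (`TS.congr hD (fun t _ y => by ring)` or `funext`+`ring`):
   add:  (f+g) - (f'+g') = (f-f') + (g-g');      sub, neg, const_mul, div_const: similar;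
   mul:  f g - f' g' = (f-f') g + f' (g-g'):    `TS.mul_wt`:  wt 1 8 c · wt 0 0 c' = wt (1+0) (8+0) (c+c'),   wt 0 0 c · wt 1 8 c' = wt (0+1) (0+8) (c+c')  (`by simpa using`), then `TS.add`;
   pow:  induction as in `sr_pow`;       le: `TS.le_wt hq hD le_rfl hc (by simp; linarith)` three times;        of_le: `TS.of_le le_rfl hn`;         dY: `TS.dY_wt`, and `dY (f - f') = dY f - dY f'` for t < 0 (`dY_sub`, Core/PR/Sm.lean; `TS.congr`);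
   refl: f - f = 0:  `⟨sm_const 0 .., TY.of_ev_zero ..⟩` or `TS.const_mul hD 0 …`;  simplest:  `TS.congr hD (fun t _ y => by ring) (TS.const_mul hD 0 h')` where h' is ANY element of the class wt 1 8 c … e.g. obtain the class from `TY.of_ev_zero (fun p _ => Filter.EventuallyEq.rfl)` for the zero function (`sm_const 0`);
   inv:  `TS.inv`/`sr_inv`-pattern for f, f' (order 0, lower bound c₀);    f⁻¹ - f'⁻¹ = -((f - f') · (f⁻¹ · f'⁻¹))   for t < 0  (`field_simp`, f, f' ≠ 0).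
   of_sr: `TS.of_le (Nat.zero_le 2) le_rfl`.
-/
import Claimed.Agent.R324.Core.W.SR

set_option autoImplicit false

namespace Claimed.Agent.R324.Core

open Set Filter Topology
open scoped ContDiff

noncomputable section

/-- pairs of symbols of order `(r̂²)^c` with difference of order `𝔍 (r̂²)^c`. -/
structure NtP (q Λ₀ : ℝ) (n : ℕ) (c : ℤ) (f f' : Fn) : Prop where
  l : TS q (DW Λ₀) 0 n (wt q 0 0 c) f
  r : TS q (DW Λ₀) 0 n (wt q 0 0 c) f'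
  d : TS q (DW Λ₀) 0 n (wt q 1 8 c) (fun p => f p - f' p)

variable {q Λ₀ : ℝ} {n n' : ℕ} {c c' : ℤ} {f f' g g' : Fn}

theorem ntp_refl (hΛ : Λ₀ ≤ 1) (hf : TS q (DW Λ₀) 0 n (wt q 0 0 c) f) : NtP q Λ₀ n c f f := by
  refine ⟨hf, hf, TS.congr (domOK_DW hΛ) (g := fun _ => 0) (fun t _ y => by ring) ?_⟩
  exact ⟨sm_const 0, TY.of_ev_zero (fun p _ => Filter.EventuallyEq.rfl)⟩

theorem ntp_of_sr (hf : SR q Λ₀ n c f) (hf' : SR q Λ₀ n c f')
    (hd : TS q (DW Λ₀) 0 n (wt q 1 8 c) (fun p => f p - f' p)) : NtP q Λ₀ n c f f' :=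
  ⟨hf.of_le (Nat.zero_le 2) le_rfl, hf'.of_le (Nat.zero_le 2) le_rfl, hd⟩

theorem ntp_add (hΛ : Λ₀ ≤ 1) (hf : NtP q Λ₀ n c f f') (hg : NtP q Λ₀ n c g g') :
    NtP q Λ₀ n c (fun p => f p + g p) (fun p => f' p + g' p) := by
  have hD := domOK_DW hΛ
  exact ⟨TS.add hD hf.l hg.l, TS.add hD hf.r hg.r,
    TS.congr hD (fun t _ y => by ring) (TS.add hD hf.d hg.d)⟩

theorem ntp_sub (hΛ : Λ₀ ≤ 1) (hf : NtP q Λ₀ n c f f') (hg : NtP q Λ₀ n c g g') :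
    NtP q Λ₀ n c (fun p => f p - g p) (fun p => f' p - g' p) := by
  have hD := domOK_DW hΛ
  exact ⟨TS.sub hD hf.l hg.l, TS.sub hD hf.r hg.r,
    TS.congr hD (fun t _ y => by ring) (TS.sub hD hf.d hg.d)⟩

theorem ntp_neg (hΛ : Λ₀ ≤ 1) (hf : NtP q Λ₀ n c f f') : NtP q Λ₀ n c (fun p => -f p) (fun p => -f' p) := by
  have hD := domOK_DW hΛ
  exact ⟨TS.neg hD hf.l, TS.neg hD hf.r, TS.congr hD (fun t _ y => by ring) (TS.neg hD hf.d)⟩

theorem ntp_const_mul (hΛ : Λ₀ ≤ 1) (a : ℝ) (hf : NtP q Λ₀ n c f f') :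
    NtP q Λ₀ n c (fun p => a * f p) (fun p => a * f' p) := by
  have hD := domOK_DW hΛ
  exact ⟨TS.const_mul hD a hf.l, TS.const_mul hD a hf.r,
    TS.congr hD (fun t _ y => by ring) (TS.const_mul hD a hf.d)⟩

theorem ntp_div_const (hΛ : Λ₀ ≤ 1) (hf : NtP q Λ₀ n c f f') (a : ℝ) :
    NtP q Λ₀ n c (fun p => f p / a) (fun p => f' p / a) := by
  have h := ntp_const_mul hΛ a⁻¹ hf
  have e : (fun p => f p / a) = fun p => a⁻¹ * f p := by
    funext p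
    rw [div_eq_mul_inv, mul_comm]
  have e' : (fun p => f' p / a) = fun p => a⁻¹ * f' p := by
    funext p
    rw [div_eq_mul_inv, mul_comm]
  rw [e, e']
  exact h

theorem ntp_mul (hq : 100 ≤ q) (hΛ : Λ₀ ≤ 1) (hf : NtP q Λ₀ n c f f') (hg : NtP q Λ₀ n c' g g') :
    NtP q Λ₀ n (c + c') (fun p => f p * g p) (fun p => f' p * g' p) := by
  have hD := domOK_DW hΛ
  have hl : TS q (DW Λ₀) 0 n (wt q 0 0 (c + c')) (fun p => f p * g p) := by
    simpa using TS.mul_wt hq hD hf.l hg.l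
  have hr : TS q (DW Λ₀) 0 n (wt q 0 0 (c + c')) (fun p => f' p * g' p) := by
    simpa using TS.mul_wt hq hD hf.r hg.r
  have h1 : TS q (DW Λ₀) 0 n (wt q 1 8 (c + c')) (fun p => (f p - f' p) * g p) := by
    simpa using TS.mul_wt hq hD hf.d hg.l
  have h2 : TS q (DW Λ₀) 0 n (wt q 1 8 (c + c')) (fun p => f' p * (g p - g' p)) := by
    simpa using TS.mul_wt hq hD hf.r hg.d
  exact ⟨hl, hr, TS.congr hD (fun t _ y => by ring) (TS.add hD h1 h2)⟩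

theorem ntp_pow (hq : 100 ≤ q) (hΛ : Λ₀ ≤ 1) (hf : NtP q Λ₀ n c f f') (k : ℕ) :
    NtP q Λ₀ n (k * c) (fun p => f p ^ k) (fun p => f' p ^ k) := by
  induction k with
  | zero =>
    have h : NtP q Λ₀ n 0 (fun _ => (1 : ℝ)) (fun _ => (1 : ℝ)) :=
      ntp_refl hΛ ((sr_const 1).of_le (Nat.zero_le 2) le_rfl)
    have e1 : (((0 : ℕ) : ℤ) * c) = 0 := by simp
    have e2 : (fun p => f p ^ 0) = fun _ => (1 : ℝ) := by
      funext p
      exact pow_zero _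
    have e3 : (fun p => f' p ^ 0) = fun _ => (1 : ℝ) := by
      funext p
      exact pow_zero _
    rw [e1, e2, e3]
    exact h
  | succ k ih =>
    have h := ntp_mul hq hΛ ih hf
    have e1 : (((k + 1 : ℕ) : ℤ) * c) = k * c + c := by push_cast; ring
    have e2 : (fun p => f p ^ (k + 1)) = fun p => f p ^ k * f p := by
      funext p
      exact pow_succ _ _
    have e3 : (fun p => f' p ^ (k + 1)) = fun p => f' p ^ k * f' p := by
      funext p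
      exact pow_succ _ _
    rw [e1, e2, e3]
    exact h

theorem ntp_le (hq : 100 ≤ q) (hΛ : Λ₀ ≤ 1) (hc : c' ≤ c) (hf : NtP q Λ₀ n c f f') : NtP q Λ₀ n c' f f' :=
  ⟨TS.le_wt hq (domOK_DW hΛ) le_rfl hc (by simp; linarith) hf.l,
    TS.le_wt hq (domOK_DW hΛ) le_rfl hc (by simp; linarith) hf.r,
    TS.le_wt hq (domOK_DW hΛ) le_rfl hc (by simp; linarith) hf.d⟩

theorem ntp_of_le (hn : n' ≤ n) (hf : NtP q Λ₀ n c f f') : NtP q Λ₀ n' c f f' :=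
  ⟨hf.l.of_le le_rfl hn, hf.r.of_le le_rfl hn, hf.d.of_le le_rfl hn⟩

theorem ntp_dY (hq : 100 ≤ q) (hΛ : Λ₀ ≤ 1) (hf : NtP q Λ₀ (n + 1) c f f') : NtP q Λ₀ n (c - 1) (dY f) (dY f') :=
  ⟨TS.dY_wt hq (domOK_DW hΛ) hf.l, TS.dY_wt hq (domOK_DW hΛ) hf.r,
    TS.congr (domOK_DW hΛ) (fun _ ht y => (dY_sub hf.l.sm hf.r.sm ht y).symm) (TS.dY_wt hq (domOK_DW hΛ) hf.d)⟩

theorem ntp_const (hΛ : Λ₀ ≤ 1) (a : ℝ) : NtP q Λ₀ n 0 (fun _ => a) (fun _ => a) :=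
  ntp_refl hΛ ((sr_const a).of_le (Nat.zero_le 2) le_rfl)

theorem ntp_y (hq : 100 ≤ q) (hΛ : Λ₀ ≤ 1) : NtP q Λ₀ n 0 (fun p => p.2) (fun p => p.2) :=
  ntp_refl hΛ ((sr_y hq hΛ).of_le (Nat.zero_le 2) le_rfl)

theorem ntp_X (hq : 100 ≤ q) (hΛ : Λ₀ ≤ 1) : NtP q Λ₀ n 1 (fun p => Xf p.2) (fun p => Xf p.2) :=
  ntp_refl hΛ ((sr_X hq hΛ).of_le (Nat.zero_le 2) le_rfl)

theorem ntp_subset {Λ₁ : ℝ} (h : Λ₁ ≤ Λ₀) (hf : NtP q Λ₀ n c f f') : NtP q Λ₁ n c f f' :=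
  have hs : DW Λ₁ ⊆ DW Λ₀ := fun p hp => ⟨⟨by linarith [hp.1.1], hp.1.2⟩, hp.2⟩
  ⟨hf.l.subset hs, hf.r.subset hs, hf.d.subset hs⟩

theorem ntp_congr (hΛ : Λ₀ ≤ 1) (h : ∀ t < 0, ∀ y, f (t, y) = g (t, y)) (h' : ∀ t < 0, ∀ y, f' (t, y) = g' (t, y))
    (hg : NtP q Λ₀ n c g g') : NtP q Λ₀ n c f f' :=
  ⟨TS.congr (domOK_DW hΛ) h hg.l, TS.congr (domOK_DW hΛ) h' hg.r,
    TS.congr (domOK_DW hΛ) (fun t ht y => by rw [h t ht y, h' t ht y]) hg.d⟩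

/-- `1/f` for `f, f' ≥ c₀ > 0` of order 0. -/
theorem ntp_inv (hq : 100 ≤ q) (hΛ : Λ₀ ≤ 1) (h0 : ∀ t < 0, ∀ y, f (t, y) ≠ 0) (h0' : ∀ t < 0, ∀ y, f' (t, y) ≠ 0)
    (hf : NtP q Λ₀ n 0 f f') {c₀ : ℝ} (hc : 0 < c₀) (hlow : ∀ p ∈ DW Λ₀, c₀ ≤ f p) (hlow' : ∀ p ∈ DW Λ₀, c₀ ≤ f' p) :
    NtP q Λ₀ n 0 (fun p => (f p)⁻¹) (fun p => (f' p)⁻¹) := by
  have hD := domOK_DW hΛ
  have li : TS q (DW Λ₀) 0 n (wt q 0 0 0) (fun p => (f p)⁻¹) := by
    have h1 : TS q (DW Λ₀) 0 n (fun _ => 1) f := TS.one_wt.2 hf.l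
    have h2 := TS.inv hD h0 h1 hc (fun _ _ => one_pos) (fun p hp => by rw [mul_one]; exact hlow p hp)
    exact TS.one_wt.1 (TS.congr_wt (fun p _ => by norm_num) h2)
  have ri : TS q (DW Λ₀) 0 n (wt q 0 0 0) (fun p => (f' p)⁻¹) := by
    have h1 : TS q (DW Λ₀) 0 n (fun _ => 1) f' := TS.one_wt.2 hf.r
    have h2 := TS.inv hD h0' h1 hc (fun _ _ => one_pos) (fun p hp => by rw [mul_one]; exact hlow' p hp)
    exact TS.one_wt.1 (TS.congr_wt (fun p _ => by norm_num) h2)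
  have hm : TS q (DW Λ₀) 0 n (wt q 0 0 0) (fun p => (f p)⁻¹ * (f' p)⁻¹) := by
    simpa using TS.mul_wt hq hD li ri
  have hd : TS q (DW Λ₀) 0 n (wt q 1 8 0) (fun p => (f p - f' p) * ((f p)⁻¹ * (f' p)⁻¹)) := by
    simpa using TS.mul_wt hq hD hf.d hm
  refine ⟨li, ri, TS.congr hD (fun t ht y => ?_) (TS.neg hD hd)⟩
  have a1 := h0 t ht y
  have a2 := h0' t ht y
  field_simp
  ring

end

end Claimed.Agent.R324.Core
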