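/-
Row 324 (S0582), PDE core, module NT (term calculus of `NN`; architect helper762).   File CfPB: the BASIC PAIRS  `(g, g̃)`, `g̃ = bgR q g`,  from `BgGood.close` (A6), and the context `NtCtx`.
   Pair calculus: Core/NT/CfP.lean.     Single backgrounds: `CoefS q g Λ₀`, `wc_base`, `CoefS.mono` (Core/W/CoefB.lean, CoefB2.lean).      `SymC → TY`: `wc_ty_of_symC` (Core/W/CoefA.lean), `SymC.mono_Lam`, `SymC.congr_wt`.
SKETCHES.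
* `nt_close_ts`:   `hg.close : BgClose q g` = ∃ Λ₁ C, 0 < Λ₁ ∧ SymC q Λ₁ C 6 (𝔍/r̂²) (B - B̃) ∧ SymC q Λ₁ C 6 𝔍 (w - w̃) ∧ SymC q Λ₁ C 6 (𝔍/Θ) (W - W̃).      Λ₀ := min Λ₁ (100/q)  (≤ 1).
      `wc_ty_of_symC hq hΛ (h0 : weights ≥ 0: `(wt_pos hq hD hp).le`) (h : ∀ i ≤ 0, ∃ C, SymC q Λ₀ C 6 (fun t y => ϱ (t,y) / Θ^i) (dT^[i] f))`:   i = 0, `pow_zero, div_one`, `Function.iterate_zero`;
      weights:  wt q 1 8 (-1) (t,y) = JJ q t y / rh2 q t y,   wt q 1 8 0 = JJ (`wt_JJ`),   wt q 1 7 0 (t,y) = JJ q t y / Th t y     (unfold wt JJ alF; `zpow_neg_one`, `zpow_natCast`/`zpow_ofNat`; Θ^7 = Θ^8/Θ, Θ > 0: `Th_pos_dom`);  `SymC.congr_wt`.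
      smoothness:  `hg.sm.smB.sub (bgR_sm hq1 hg.sm).smB`, etc.
* `nt_close_ew`:   e^{-w} - e^{-w̃} = e^{-w̃} (e^{-(w - w̃)} - 1) = -(e^{-w̃} · ((w - w̃) · Φ₁(w - w̃)))      (`ph1_mul s : s * Ph1 s = 1 - exp (-s)`, Core/PR/Ph.lean;  `Real.exp_add`/`Real.exp_sub`).
      w - w̃ ∈ TS 0 6 (wt 1 8 0) ⊂ TS 0 6 (wt 0 0 0) (`TS.le_wt hq hD (Nat.zero_le 1) le_rfl (by norm_num)`), so Φ₁(w - w̃) ∈ TS 0 6 (fun _ => 1)  (`TS.comp hD ph1_contDiff (TS.one_wt.2 ..)`, `TS.one_wt`);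
      `TS.mul_wt`:  wt 0 0 (-1) · (wt 1 8 0 · wt 0 0 0) = wt 1 8 (-1);   `TS.neg`;  `TS.congr`.
* `nt_coefP`:   B: `ntp_of_sr`;    wp: `g.wp = dY g.w` (rfl);  dY (w - w̃) = wp - w̃p for t < 0 (`dY_sub`), `TS.dY_wt` (6 = 5 + 1, 0 - 1 = -1);    ew: `nt_close_ew`;     W: wt 1 7 0 ≤ K wt 1 8 (-1): `TS.le_wt hq hD le_rfl (by norm_num) (by norm_num)`;   low: min of the two constants.
* `nt_ctx`:     Λ₀ := min of the three Λ's (`wc_base hq hg.sm hg.sym hg.symT`, `wc_base hq (bgR_sm ..) hg.symR hg.symTR`, `nt_close_ts`);  `CoefS.mono`, `TS.subset`.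
-/
import Claimed.Agent.R324.Core.NT.CfP
import Claimed.Agent.R324.Core.W.CoefB2
import Claimed.Agent.R324.Core.PR.SmR
import Claimed.Agent.R324.Core.PR.Ph

set_option autoImplicit false

namespace Claimed.Agent.R324.Core

open Set Filter Topology
open scoped ContDiff

noncomputable section

/-- the basic pairs. -/
structure CoefP (q : ℝ) (g g' : Bg) (Λ₀ : ℝ) : Prop where
  B : NtP q Λ₀ 6 (-1) g.B g'.B
  wp : NtP q Λ₀ 5 (-1) g.wp g'.wp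
  ew : NtP q Λ₀ 6 (-1) (fun p => Real.exp (-g.w p)) (fun p => Real.exp (-g'.w p))
  W : NtP q Λ₀ 6 (-1) g.W g'.W
  low : ∃ c : ℝ, 0 < c ∧ ∀ p ∈ DW Λ₀, c ≤ 1 + Xf p.2 * g.B p ∧ c ≤ 1 + Xf p.2 * g'.B p

/-- the context of the coefficient bounds. -/
structure NtCtx (q : ℝ) (g : Bg) (Λ₀ : ℝ) : Prop where
  hq : 100 ≤ q
  L0 : 0 < Λ₀
  L1 : Λ₀ ≤ 100 / q
  s : BgSm g
  s' : BgSm (bgR q g)
  c : CoefS q g Λ₀
  c' : CoefS q (bgR q g) Λ₀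
  p : CoefP q g (bgR q g) Λ₀

variable {q Λ₀ : ℝ} {g : Bg}

theorem NtCtx.le_one (h : NtCtx q g Λ₀) : Λ₀ ≤ 1 :=
  h.L1.trans (by rw [div_le_one (by linarith [h.hq])]; exact h.hq)

theorem NtCtx.hq1 (h : NtCtx q g Λ₀) : 1 < q := by linarith [h.hq]

/-- from one `SymC` (no time derivative) to `TS .. 0 n`. -/
theorem nt_ts_of_symC {C : ℝ} {n : ℕ} {a : ℕ} {b c : ℤ} {σ : ℝ → ℝ → ℝ} {f : Fn} (hq : 100 ≤ q) (hΛ : Λ₀ ≤ 1)
    (hf : Sm f) (hw : ∀ p ∈ DW Λ₀, σ p.1 p.2 = wt q a b c p) (h : SymC q Λ₀ C n σ f) :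
    TS q (DW Λ₀) 0 n (wt q a b c) f := by
  have hD := domOK_DW hΛ
  refine ⟨hf, wc_ty_of_symC hq hΛ (fun p hp => (wt_pos hq hD hp).le) ?_⟩
  intro i hi
  obtain rfl : i = 0 := Nat.le_zero.1 hi
  refine ⟨C, ?_⟩
  simp only [pow_zero, div_one, Function.iterate_zero, id]
  exact h.congr_wt (fun t ht y hy => hw (t, y) ⟨ht, hy⟩)

/-- (A6) in the classes `TS`. -/
theorem nt_close_ts (hq : 100 ≤ q) (hg : BgGood q g) : ∃ Λ₀ : ℝ, 0 < Λ₀ ∧ Λ₀ ≤ 100 / q ∧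
    TS q (DW Λ₀) 0 6 (wt q 1 8 (-1)) (fun p => g.B p - (bgR q g).B p) ∧
    TS q (DW Λ₀) 0 6 (wt q 1 8 0) (fun p => g.w p - (bgR q g).w p) ∧
    TS q (DW Λ₀) 0 6 (wt q 1 7 0) (fun p => g.W p - (bgR q g).W p) := by
  obtain ⟨Λ₁, C, hΛ₁, hB, hw, hW⟩ := hg.close
  have hq0 : (0 : ℝ) < q := by linarith
  have hq1 : (1 : ℝ) < q := by linarith
  have h100 : 0 < 100 / q := by positivity
  have hle1 : 100 / q ≤ 1 := by rw [div_le_one hq0]; exact hq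
  have hΛ : min Λ₁ (100 / q) ≤ 1 := (min_le_right _ _).trans hle1
  have hD := domOK_DW hΛ
  have hs' := bgR_sm hq1 hg.sm
  refine ⟨min Λ₁ (100 / q), lt_min hΛ₁ h100, min_le_right _ _, ?_, ?_, ?_⟩
  · refine nt_ts_of_symC hq hΛ (hg.sm.smB.sub hs'.smB) ?_ (hB.mono_Lam (min_le_left _ _))
    intro p hp
    rw [← wt_JJ, wt_div_rh2 hq hD hp]
    norm_num
  · refine nt_ts_of_symC hq hΛ (hg.sm.smw.sub hs'.smw) ?_ (hw.mono_Lam (min_le_left _ _))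
    intro p hp
    rw [← wt_JJ]
  · refine nt_ts_of_symC hq hΛ (hg.sm.smW.sub hs'.smW) ?_ (hW.mono_Lam (min_le_left _ _))
    intro p hp
    rw [← wt_JJ, wt_div_Th hq hD hp]
    norm_num

/-- the difference of the exponentials. -/
theorem nt_close_ew {g' : Bg} (hq : 100 ≤ q) (hΛ : Λ₀ ≤ 1) (he : SR q Λ₀ 6 (-1) (fun p => Real.exp (-g'.w p)))
    (hw : TS q (DW Λ₀) 0 6 (wt q 1 8 0) (fun p => g.w p - g'.w p)) :
    TS q (DW Λ₀) 0 6 (wt q 1 8 (-1)) (fun p => Real.exp (-g.w p) - Real.exp (-g'.w p)) := by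
  have hD := domOK_DW hΛ
  have he0 : TS q (DW Λ₀) 0 6 (wt q 0 0 (-1)) (fun p => Real.exp (-g'.w p)) := he.of_le (Nat.zero_le 2) le_rfl
  have hw0 : TS q (DW Λ₀) 0 6 (wt q 0 0 0) (fun p => g.w p - g'.w p) :=
    TS.le_wt hq hD (Nat.zero_le 1) le_rfl (by norm_num) hw
  have hPh : TS q (DW Λ₀) 0 6 (wt q 0 0 0) (fun p => Ph1 (g.w p - g'.w p)) :=
    TS.one_wt.1 (TS.comp hD ph1_contDiff (TS.one_wt.2 hw0))
  have h1 := TS.mul_wt hq hD hw hPh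
  have h2 := TS.mul_wt hq hD he0 h1
  have h3 := TS.neg hD h2
  have h4 : TS q (DW Λ₀) 0 6 (wt q 1 8 (-1))
      (fun p => -(Real.exp (-g'.w p) * ((g.w p - g'.w p) * Ph1 (g.w p - g'.w p)))) := by
    simpa using h3
  refine TS.congr hD ?_ h4
  intro t _ y
  rw [ph1_mul]
  have : Real.exp (-g.w (t, y)) = Real.exp (-g'.w (t, y)) * Real.exp (-(g.w (t, y) - g'.w (t, y))) := by
    rw [← Real.exp_add]
    congr 1
    ring
  rw [this]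
  ring

/-- the basic pairs. -/
theorem nt_coefP {g' : Bg} (hq : 100 ≤ q) (hΛ : Λ₀ ≤ 1) (hs : BgSm g) (hs' : BgSm g') (hc : CoefS q g Λ₀)
    (hc' : CoefS q g' Λ₀) (hB : TS q (DW Λ₀) 0 6 (wt q 1 8 (-1)) (fun p => g.B p - g'.B p))
    (hw : TS q (DW Λ₀) 0 6 (wt q 1 8 0) (fun p => g.w p - g'.w p))
    (hW : TS q (DW Λ₀) 0 6 (wt q 1 7 0) (fun p => g.W p - g'.W p)) : CoefP q g g' Λ₀ := by
  have hD := domOK_DW hΛ
  have hwp : TS q (DW Λ₀) 0 5 (wt q 1 8 (-1)) (fun p => g.wp p - g'.wp p) := by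
    have h := TS.dY_wt (n := 5) hq hD hw
    have e : (0 : ℤ) - 1 = -1 := by norm_num
    rw [e] at h
    exact TS.congr hD (fun t ht y => (dY_sub hs.smw hs'.smw ht y).symm) h
  obtain ⟨c, hc0, hlow⟩ := hc.low
  obtain ⟨c', hc0', hlow'⟩ := hc'.low
  exact ⟨ntp_of_sr hc.B hc'.B hB, ntp_of_sr hc.wp hc'.wp hwp,
    ntp_of_sr hc.ew hc'.ew (nt_close_ew hq hΛ hc'.ew hw),
    ntp_of_sr hc.W hc'.W (TS.le_wt hq hD le_rfl (by norm_num) (by norm_num) hW),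
    min c c', lt_min hc0 hc0', fun p hp =>
      ⟨(min_le_left _ _).trans (hlow p hp), (min_le_right _ _).trans (hlow' p hp)⟩⟩

/-- the context exists. -/
theorem nt_ctx (hq : 100 ≤ q) (hg : BgGood q g) : ∃ Λ₀ : ℝ, NtCtx q g Λ₀ := by
  have hq1 : 1 < q := by linarith
  have hsR : BgSm (bgR q g) := bgR_sm hq1 hg.sm
  obtain ⟨Λa, ha0, ha1, hca⟩ := wc_base hq hg.sm hg.sym hg.symT
  obtain ⟨Λb, hb0, _, hcb⟩ := wc_base hq hsR hg.symR hg.symTR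
  obtain ⟨Λc, hc0, _, hB, hw, hW⟩ := nt_close_ts hq hg
  have h1 : min (min Λa Λb) Λc ≤ Λa := (min_le_left _ _).trans (min_le_left _ _)
  have h2 : min (min Λa Λb) Λc ≤ Λb := (min_le_left _ _).trans (min_le_right _ _)
  have h3 : min (min Λa Λb) Λc ≤ Λc := min_le_right _ _
  have hs : DW (min (min Λa Λb) Λc) ⊆ DW Λc := fun p hp => ⟨⟨by linarith [hp.1.1], hp.1.2⟩, hp.2⟩
  have hL1 : min (min Λa Λb) Λc ≤ 100 / q := h1.trans ha1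
  have hle1 : min (min Λa Λb) Λc ≤ 1 := hL1.trans (by rw [div_le_one (by linarith)]; exact hq)
  exact ⟨min (min Λa Λb) Λc, hq, lt_min (lt_min ha0 hb0) hc0, hL1, hg.sm, hsR, hca.mono h1, hcb.mono h2,
    nt_coefP hq hle1 hg.sm hsR (hca.mono h1) (hcb.mono h2) (hB.subset hs) (hw.subset hs) (hW.subset hs)⟩

end

end Claimed.Agent.R324.Core
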