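/-
Row 324 (S0582), PDE core, module NT (term calculus of `NN`; architect helper762).   File CfPC: PORT of Core/W/CoefC.lean to PAIRS of backgrounds.
   `NtP q Λ₀ n c f f'` (Core/NT/CfP.lean): f, f' symbols of order (r̂²)^c, f - f' of order 𝔍 (r̂²)^c.     `CoefP q g g' Λ₀` (Core/NT/CfPB.lean): the basic pairs (B, w', e^{-w}, W).
   METHOD: copy the proofs of Core/W/CoefC.lean (if they are still `sorry` there: follow the sketch in its header) and substitute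
        `SR q Λ₀ n c (F g)`  ↦  `NtP q Λ₀ n c (F g) (F g')`,       `sr_add, sr_sub, sr_neg, sr_const_mul, sr_div_const, sr_mul, sr_pow, sr_le, sr_of_le, sr_dY, sr_y, sr_X, sr_inv, sr_congr`  ↦  `ntp_*`   (same arguments;  `sr_const a ↦ ntp_const hΛ a`;  `ntp_inv` needs both lower bounds: `hc.low`),
        `hc.B, hc.wp, hc.ew, hc.W` are now pairs;      `CoefS.x hq hΛ hs hc`  ↦  `CoefP.x hq hΛ hs hs' hc`.
   Rewriting equations `e : g.cf q 0 0 = fun p => …` are needed for `g` and for `g'`: prove them as `∀ g : Bg, …` and `rw [e g, e g']`.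
-/
import Claimed.Agent.R324.Core.NT.CfPB
import Claimed.Agent.R324.Core.W.CoefC

set_option autoImplicit false

namespace Claimed.Agent.R324.Core

open Set Filter Topology
open scoped ContDiff

noncomputable section

variable {q Λ₀ : ℝ} {g g' : Bg}

theorem CoefP.den (hq : 100 ≤ q) (hΛ : Λ₀ ≤ 1) (hc : CoefP q g g' Λ₀) :
    NtP q Λ₀ 6 0 (fun p => 1 + Xf p.2 * g.B p) (fun p => 1 + Xf p.2 * g'.B p) := by
  have h1 : NtP q Λ₀ 6 0 (fun p => Xf p.2 * g.B p) (fun p => Xf p.2 * g'.B p) := by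
    have h := ntp_mul hq hΛ (ntp_X (n := 6) hq hΛ) hc.B
    simpa using h
  exact ntp_add hΛ (ntp_const hΛ 1) h1

theorem CoefP.Z (hq : 100 ≤ q) (hΛ : Λ₀ ≤ 1) (hs : BgSm g) (hs' : BgSm g') (hc : CoefP q g g' Λ₀) :
    NtP q Λ₀ 6 0 g.Z g'.Z := by
  obtain ⟨c, hc0, hlow⟩ := hc.low
  have h := ntp_inv hq hΛ (f := fun p => 1 + Xf p.2 * g.B p) (f' := fun p => 1 + Xf p.2 * g'.B p)
    (fun t ht y => (hs.pos t ht y).ne') (fun t ht y => (hs'.pos t ht y).ne') (hc.den hq hΛ) hc0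
    (fun p hp => (hlow p hp).1) (fun p hp => (hlow p hp).2)
  have e : ∀ g : Bg, g.Z = fun p => (1 + Xf p.2 * g.B p)⁻¹ := by
    intro g
    funext p
    simp [Bg.Z, one_div]
  rw [e g, e g']
  exact h

theorem CoefP.dd (hq : 100 ≤ q) (hΛ : Λ₀ ≤ 1) (hc : CoefP q g g' Λ₀) :
    NtP q Λ₀ 5 (-1) g.dd g'.dd := by
  have h1 : NtP q Λ₀ (5 + 1) 0 (fun p => Xf p.2 * g.B p) (fun p => Xf p.2 * g'.B p) := by
    have h := ntp_mul hq hΛ (ntp_X (n := 6) hq hΛ) hc.B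
    simpa using h
  have h := ntp_dY hq hΛ h1
  simpa [Bg.dd] using h

theorem CoefP.Bp (hq : 100 ≤ q) (hΛ : Λ₀ ≤ 1) (hc : CoefP q g g' Λ₀) :
    NtP q Λ₀ 5 (-2) g.Bp g'.Bp := by
  have h1 : NtP q Λ₀ (5 + 1) (-1) g.B g'.B := hc.B
  have h := ntp_dY hq hΛ h1
  have e : (-1 : ℤ) - 1 = -2 := by norm_num
  rw [e] at h
  exact h

theorem CoefP.wpp (hq : 100 ≤ q) (hΛ : Λ₀ ≤ 1) (hc : CoefP q g g' Λ₀) :
    NtP q Λ₀ 4 (-2) g.wpp g'.wpp := by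
  have h1 : NtP q Λ₀ (4 + 1) (-1) g.wp g'.wp := hc.wp
  have h := ntp_dY hq hΛ h1
  have e : (-1 : ℤ) - 1 = -2 := by norm_num
  rw [e] at h
  exact h

theorem CoefP.ap (hq : 100 ≤ q) (hΛ : Λ₀ ≤ 1) (hs : BgSm g) (hs' : BgSm g') (hc : CoefP q g g' Λ₀) :
    NtP q Λ₀ 5 (-1) g.ap g'.ap := by
  have h := ntp_mul hq hΛ (ntp_of_le (n' := 5) (by norm_num) (hc.Z hq hΛ hs hs')) (hc.dd hq hΛ)
  have e : (0 : ℤ) + -1 = -1 := by norm_num
  rw [e] at h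
  exact h

theorem CoefP.app (hq : 100 ≤ q) (hΛ : Λ₀ ≤ 1) (hs : BgSm g) (hs' : BgSm g') (hc : CoefP q g g' Λ₀) :
    NtP q Λ₀ 4 (-2) g.app g'.app := by
  have h1 : NtP q Λ₀ (4 + 1) (-1) g.ap g'.ap := hc.ap hq hΛ hs hs'
  have h := ntp_dY hq hΛ h1
  have e : (-1 : ℤ) - 1 = -2 := by norm_num
  rw [e] at h
  exact h

theorem CoefP.w1 (hq : 100 ≤ q) (hΛ : Λ₀ ≤ 1) (hs : BgSm g) (hs' : BgSm g') (hc : CoefP q g g' Λ₀) :
    NtP q Λ₀ 5 (-1) g.w1 g'.w1 := by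
  have hZ : NtP q Λ₀ 5 0 g.Z g'.Z := ntp_of_le (by norm_num) (hc.Z hq hΛ hs hs')
  have hZ2 : NtP q Λ₀ 5 0 (fun p => -(g.Z p) ^ 2) (fun p => -(g'.Z p) ^ 2) := by
    have h := ntp_neg hΛ (ntp_pow hq hΛ hZ 2)
    simpa using h
  have t1 : NtP q Λ₀ 5 (-1) (fun p => -(g.Z p) ^ 2 * g.dd p / 2) (fun p => -(g'.Z p) ^ 2 * g'.dd p / 2) := by
    have h := ntp_div_const hΛ (ntp_mul hq hΛ hZ2 (hc.dd hq hΛ)) 2
    have e : (0 : ℤ) + -1 = -1 := by norm_num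
    rw [e] at h
    exact h
  have t2 : NtP q Λ₀ 5 (-1) (fun p => g.Z p * g.wp p) (fun p => g'.Z p * g'.wp p) := by
    have h := ntp_mul hq hΛ hZ hc.wp
    have e : (0 : ℤ) + -1 = -1 := by norm_num
    rw [e] at h
    exact h
  have t3 : NtP q Λ₀ 5 (-1) g.W g'.W := ntp_of_le (by norm_num) hc.W
  exact ntp_add hΛ (ntp_add hΛ t1 t2) t3

end

end Claimed.Agent.R324.Core
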