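/-
Row 324 (S0582), PDE core, module NT (term calculus of `NN`; architect helper762).   File CfPD0: PORT of Core/W/CoefD0.lean to PAIRS of backgrounds.
   `NtP q Λ₀ n c f f'` (Core/NT/CfP.lean): f, f' symbols of order (r̂²)^c, f - f' of order 𝔍 (r̂²)^c.     `CoefP q g g' Λ₀` (Core/NT/CfPB.lean): the basic pairs (B, w', e^{-w}, W).
   METHOD: copy the proofs of Core/W/CoefD0.lean (if they are still `sorry` there: follow the sketch in its header) and substitute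
        `SR q Λ₀ n c (F g)`  ↦  `NtP q Λ₀ n c (F g) (F g')`,       `sr_add, sr_sub, sr_neg, sr_const_mul, sr_div_const, sr_mul, sr_pow, sr_le, sr_of_le, sr_dY, sr_y, sr_X, sr_inv, sr_congr`  ↦  `ntp_*`   (same arguments;  `sr_const a ↦ ntp_const hΛ a`;  `ntp_inv` needs both lower bounds: `hc.low`),
        `hc.B, hc.wp, hc.ew, hc.W` are now pairs;      `CoefS.x hq hΛ hs hc`  ↦  `CoefP.x hq hΛ hs hs' hc`.
   Rewriting equations `e : g.cf q 0 0 = fun p => …` are needed for `g` and for `g'`: prove them as `∀ g : Bg, …` and `rw [e g, e g']`.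
-/
import Claimed.Agent.R324.Core.NT.CfPC
import Claimed.Agent.R324.Core.W.CoefD0

set_option autoImplicit false

namespace Claimed.Agent.R324.Core

open Set Filter Topology
open scoped ContDiff

noncomputable section

variable {q Λ₀ : ℝ} {g g' : Bg}

theorem CoefP.cf00 (hq : 100 ≤ q) (hΛ : Λ₀ ≤ 1) (hs : BgSm g) (hs' : BgSm g') (hc : CoefP q g g' Λ₀) :
    NtP q Λ₀ 4 (-1) (g.cf q 0 0) (g'.cf q 0 0) := by
  have hZ : NtP q Λ₀ 4 0 g.Z g'.Z := ntp_of_le (by norm_num) (CoefP.Z hq hΛ hs hs' hc)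
  have hd : NtP q Λ₀ 4 (-1) g.dd g'.dd := ntp_of_le (by norm_num) (CoefP.dd hq hΛ hc)
  have hB : NtP q Λ₀ 4 (-1) g.B g'.B := ntp_of_le (by norm_num) hc.B
  have hw : NtP q Λ₀ 4 (-1) g.wp g'.wp := ntp_of_le (by norm_num) hc.wp
  have hww : NtP q Λ₀ 4 (-2) g.wpp g'.wpp := CoefP.wpp hq hΛ hc
  have hX : NtP q Λ₀ 4 1 (fun p => Xf p.2) (fun p => Xf p.2) := ntp_X hq hΛ
  have hy : NtP q Λ₀ 4 0 (fun p => p.2) (fun p => p.2) := ntp_y hq hΛ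
  have T1 : NtP q Λ₀ 4 (-1) (fun p => g.Z p * (Xf p.2 * (g.wp p * g.wp p)))
      (fun p => g'.Z p * (Xf p.2 * (g'.wp p * g'.wp p))) :=
    ntp_le hq hΛ (by norm_num) (ntp_mul hq hΛ hZ (ntp_mul hq hΛ hX (ntp_mul hq hΛ hw hw)))
  have T2 : NtP q Λ₀ 4 (-1) (fun p => p.2 * (g.Z p * (g.Z p * g.dd p)))
      (fun p => p.2 * (g'.Z p * (g'.Z p * g'.dd p))) :=
    ntp_le hq hΛ (by norm_num) (ntp_mul hq hΛ hy (ntp_mul hq hΛ hZ (ntp_mul hq hΛ hZ hd)))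
  have T3a : NtP q Λ₀ 4 (-1) (fun p => (q - 1) * g.B p + (q + 1)) (fun p => (q - 1) * g'.B p + (q + 1)) :=
    ntp_add hΛ (ntp_const_mul hΛ (q - 1) hB) (ntp_le hq hΛ (by norm_num) (ntp_const hΛ (q + 1)))
  have T3 : NtP q Λ₀ 4 (-1) (fun p => g.Z p * ((q - 1) * g.B p + (q + 1)))
      (fun p => g'.Z p * ((q - 1) * g'.B p + (q + 1))) :=
    ntp_le hq hΛ (by norm_num) (ntp_mul hq hΛ hZ T3a)
  have e : ∀ g : Bg, g.cf q 0 0 = fun p => ((-(g.Z p * (Xf p.2 * (g.wp p * g.wp p)))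
      - (2 * q) * (p.2 * (g.Z p * (g.Z p * g.dd p))))
      + (2 * q) * (g.Z p * ((q - 1) * g.B p + (q + 1)))) / (q + 1) := by
    intro g
    funext p
    simp only [Bg.cf, Matrix.cons_val_zero]
    ring
  rw [e g, e g']
  exact ntp_div_const hΛ (ntp_add hΛ (ntp_sub hΛ (ntp_neg hΛ T1) (ntp_const_mul hΛ (2 * q) T2))
    (ntp_const_mul hΛ (2 * q) T3)) (q + 1)

theorem CoefP.cf01 (hq : 100 ≤ q) (hΛ : Λ₀ ≤ 1) (hs : BgSm g) (hs' : BgSm g') (hc : CoefP q g g' Λ₀) :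
    NtP q Λ₀ 4 (-1) (g.cf q 0 1) (g'.cf q 0 1) := by
  have hZ : NtP q Λ₀ 4 0 g.Z g'.Z := ntp_of_le (by norm_num) (CoefP.Z hq hΛ hs hs' hc)
  have hd : NtP q Λ₀ 4 (-1) g.dd g'.dd := ntp_of_le (by norm_num) (CoefP.dd hq hΛ hc)
  have hB : NtP q Λ₀ 4 (-1) g.B g'.B := ntp_of_le (by norm_num) hc.B
  have hw : NtP q Λ₀ 4 (-1) g.wp g'.wp := ntp_of_le (by norm_num) hc.wp
  have hww : NtP q Λ₀ 4 (-2) g.wpp g'.wpp := CoefP.wpp hq hΛ hc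
  have hX : NtP q Λ₀ 4 1 (fun p => Xf p.2) (fun p => Xf p.2) := ntp_X hq hΛ
  have hy : NtP q Λ₀ 4 0 (fun p => p.2) (fun p => p.2) := ntp_y hq hΛ
  have T1 : NtP q Λ₀ 4 (-1) (fun p => p.2 * g.wp p) (fun p => p.2 * g'.wp p) :=
    ntp_le hq hΛ (by norm_num) (ntp_mul hq hΛ hy hw)
  have T2 : NtP q Λ₀ 4 (-1) (fun p => Xf p.2 * (g.Z p * (g.dd p * g.wp p)))
      (fun p => Xf p.2 * (g'.Z p * (g'.dd p * g'.wp p))) :=
    ntp_le hq hΛ (by norm_num) (ntp_mul hq hΛ hX (ntp_mul hq hΛ hZ (ntp_mul hq hΛ hd hw)))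
  have T3 : NtP q Λ₀ 4 (-1) (fun p => Xf p.2 * g.wpp p) (fun p => Xf p.2 * g'.wpp p) :=
    ntp_le hq hΛ (by norm_num) (ntp_mul hq hΛ hX hww)
  have T4 : NtP q Λ₀ 4 (-1) (fun p => ((2 * q + 2) * (p.2 * g.wp p)
      + Xf p.2 * (g.Z p * (g.dd p * g.wp p))) - 2 * (Xf p.2 * g.wpp p))
      (fun p => ((2 * q + 2) * (p.2 * g'.wp p)
      + Xf p.2 * (g'.Z p * (g'.dd p * g'.wp p))) - 2 * (Xf p.2 * g'.wpp p)) :=
    ntp_sub hΛ (ntp_add hΛ (ntp_const_mul hΛ (2 * q + 2) T1) T2) (ntp_const_mul hΛ 2 T3)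
  have e : ∀ g : Bg, g.cf q 0 1 = fun p => (g.Z p * (((2 * q + 2) * (p.2 * g.wp p)
      + Xf p.2 * (g.Z p * (g.dd p * g.wp p))) - 2 * (Xf p.2 * g.wpp p))) / (q + 1) := by
    intro g
    funext p
    simp only [Bg.cf, Matrix.cons_val_zero, Matrix.cons_val_one]
    ring
  rw [e g, e g']
  exact ntp_div_const hΛ (ntp_le hq hΛ (by norm_num) (ntp_mul hq hΛ hZ T4)) (q + 1)

theorem CoefP.cf02 (hq : 100 ≤ q) (hΛ : Λ₀ ≤ 1) (hs : BgSm g) (hs' : BgSm g') (hc : CoefP q g g' Λ₀) :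
    NtP q Λ₀ 4 (-1) (g.cf q 0 2) (g'.cf q 0 2) := by
  have hZ : NtP q Λ₀ 4 0 g.Z g'.Z := ntp_of_le (by norm_num) (CoefP.Z hq hΛ hs hs' hc)
  have hd : NtP q Λ₀ 4 (-1) g.dd g'.dd := ntp_of_le (by norm_num) (CoefP.dd hq hΛ hc)
  have hB : NtP q Λ₀ 4 (-1) g.B g'.B := ntp_of_le (by norm_num) hc.B
  have hw : NtP q Λ₀ 4 (-1) g.wp g'.wp := ntp_of_le (by norm_num) hc.wp
  have hww : NtP q Λ₀ 4 (-2) g.wpp g'.wpp := CoefP.wpp hq hΛ hc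
  have hX : NtP q Λ₀ 4 1 (fun p => Xf p.2) (fun p => Xf p.2) := ntp_X hq hΛ
  have hy : NtP q Λ₀ 4 0 (fun p => p.2) (fun p => p.2) := ntp_y hq hΛ
  have T1 : NtP q Λ₀ 4 (-1) (fun p => Xf p.2 * (g.wp p * g.wp p)) (fun p => Xf p.2 * (g'.wp p * g'.wp p)) :=
    ntp_le hq hΛ (by norm_num) (ntp_mul hq hΛ hX (ntp_mul hq hΛ hw hw))
  have T2 : NtP q Λ₀ 4 (-1) (fun p => p.2 * (g.Z p * g.dd p)) (fun p => p.2 * (g'.Z p * g'.dd p)) :=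
    ntp_le hq hΛ (by norm_num) (ntp_mul hq hΛ hy (ntp_mul hq hΛ hZ hd))
  have T4 : NtP q Λ₀ 4 (-1) (fun p => (-(Xf p.2 * (g.wp p * g.wp p))
      - (q - 1) * (p.2 * (g.Z p * g.dd p))) - (2 * (q - 1)) * g.B p)
      (fun p => (-(Xf p.2 * (g'.wp p * g'.wp p))
      - (q - 1) * (p.2 * (g'.Z p * g'.dd p))) - (2 * (q - 1)) * g'.B p) :=
    ntp_sub hΛ (ntp_sub hΛ (ntp_neg hΛ T1) (ntp_const_mul hΛ (q - 1) T2)) (ntp_const_mul hΛ (2 * (q - 1)) hB)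
  have e : ∀ g : Bg, g.cf q 0 2 = fun p => ((q / (q + 1)) * (g.Z p * ((-(Xf p.2 * (g.wp p * g.wp p))
      - (q - 1) * (p.2 * (g.Z p * g.dd p))) - (2 * (q - 1)) * g.B p))) / (q + 1) := by
    intro g
    funext p
    simp only [Bg.cf, Matrix.cons_val_zero, Matrix.cons_val_two, Matrix.cons_val_one, Matrix.head_cons, Matrix.tail_cons]
    ring
  rw [e g, e g']
  exact ntp_div_const hΛ (ntp_const_mul hΛ (q / (q + 1)) (ntp_le hq hΛ (by norm_num) (ntp_mul hq hΛ hZ T4))) (q + 1)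

end

end Claimed.Agent.R324.Core
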