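/-
Row 324 (S0582), PDE core, module NT (term calculus of `NN`; architect helper762).   File CfPD1: PORT of Core/W/CoefD1.lean to PAIRS of backgrounds.
   `NtP q Λ₀ n c f f'` (Core/NT/CfP.lean): f, f' symbols of order (r̂²)^c, f - f' of order 𝔍 (r̂²)^c.     `CoefP q g g' Λ₀` (Core/NT/CfPB.lean): the basic pairs (B, w', e^{-w}, W).
   METHOD: copy the proofs of Core/W/CoefD1.lean (if they are still `sorry` there: follow the sketch in its header) and substitute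
        `SR q Λ₀ n c (F g)`  ↦  `NtP q Λ₀ n c (F g) (F g')`,       `sr_add, sr_sub, sr_neg, sr_const_mul, sr_div_const, sr_mul, sr_pow, sr_le, sr_of_le, sr_dY, sr_y, sr_X, sr_inv, sr_congr`  ↦  `ntp_*`   (same arguments;  `sr_const a ↦ ntp_const hΛ a`;  `ntp_inv` needs both lower bounds: `hc.low`),
        `hc.B, hc.wp, hc.ew, hc.W` are now pairs;      `CoefS.x hq hΛ hs hc`  ↦  `CoefP.x hq hΛ hs hs' hc`.
   Rewriting equations `e : g.cf q 0 0 = fun p => …` are needed for `g` and for `g'`: prove them as `∀ g : Bg, …` and `rw [e g, e g']`.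
-/
import Claimed.Agent.R324.Core.NT.CfPC
import Claimed.Agent.R324.Core.W.CoefD1

set_option autoImplicit false

namespace Claimed.Agent.R324.Core

open Set Filter Topology
open scoped ContDiff

noncomputable section

variable {q Λ₀ : ℝ} {g g' : Bg}

/-- `ntp_mul` with the order given by hand. -/
theorem nt_pd1_mul {n : ℕ} {c c' c'' : ℤ} {f f' h h' : Fn} (hq : 100 ≤ q) (hΛ : Λ₀ ≤ 1) (e : c + c' = c'')
    (hf : NtP q Λ₀ n c f f') (hg : NtP q Λ₀ n c' h h') :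
    NtP q Λ₀ n c'' (fun p => f p * h p) (fun p => f' p * h' p) :=
  e ▸ ntp_mul hq hΛ hf hg

theorem CoefP.cf10 (hq : 100 ≤ q) (hΛ : Λ₀ ≤ 1) (hs : BgSm g) (hs' : BgSm g') (hc : CoefP q g g' Λ₀) :
    NtP q Λ₀ 4 (-1) (g.cf q 1 0) (g'.cf q 1 0) := by
  have e : ∀ g : Bg, g.cf q 1 0 = fun p => g.Z p * ((q + 1) * p.2 * g.wp p + Xf p.2 * g.Z p * g.dd p * g.wp p / 2
      - Xf p.2 * g.wpp p) := by
    intro g; funext p; simp [Bg.cf]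
  rw [e g, e g']
  have Z4 : NtP q Λ₀ 4 0 g.Z g'.Z := ntp_of_le (by norm_num) (hc.Z hq hΛ hs hs')
  have d4 : NtP q Λ₀ 4 (-1) g.dd g'.dd := ntp_of_le (by norm_num) (hc.dd hq hΛ)
  have wp4 : NtP q Λ₀ 4 (-1) g.wp g'.wp := ntp_of_le (by norm_num) hc.wp
  have wpp4 : NtP q Λ₀ 4 (-2) g.wpp g'.wpp := hc.wpp hq hΛ
  have X4 : NtP q Λ₀ 4 1 (fun p => Xf p.2) (fun p => Xf p.2) := ntp_X hq hΛ
  have y4 : NtP q Λ₀ 4 0 (fun p => p.2) (fun p => p.2) := ntp_y hq hΛ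
  have t1 : NtP q Λ₀ 4 (-1) (fun p => (q + 1) * p.2 * g.wp p) (fun p => (q + 1) * p.2 * g'.wp p) :=
    nt_pd1_mul hq hΛ (by norm_num) (ntp_const_mul hΛ (q + 1) y4) wp4
  have t2 : NtP q Λ₀ 4 (-1) (fun p => Xf p.2 * g.Z p * g.dd p * g.wp p / 2)
      (fun p => Xf p.2 * g'.Z p * g'.dd p * g'.wp p / 2) :=
    ntp_div_const hΛ (nt_pd1_mul hq hΛ (by norm_num) (nt_pd1_mul hq hΛ (c'' := 0) (by norm_num)
      (nt_pd1_mul hq hΛ (c'' := 1) (by norm_num) X4 Z4) d4) wp4) 2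
  have t3 : NtP q Λ₀ 4 (-1) (fun p => Xf p.2 * g.wpp p) (fun p => Xf p.2 * g'.wpp p) :=
    nt_pd1_mul hq hΛ (by norm_num) X4 wpp4
  exact nt_pd1_mul hq hΛ (by norm_num) Z4 (ntp_sub hΛ (ntp_add hΛ t1 t2) t3)

theorem CoefP.cf11 (hq : 100 ≤ q) (hΛ : Λ₀ ≤ 1) (hs : BgSm g) (hs' : BgSm g') (hc : CoefP q g g' Λ₀) :
    NtP q Λ₀ 4 (-1) (g.cf q 1 1) (g'.cf q 1 1) := by
  have e : ∀ g : Bg, g.cf q 1 1 = fun p => 2 * Real.exp (-g.w p) - g.Z p * Xf p.2 * (g.wp p * g.wp p) := by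
    intro g; funext p; simp [Bg.cf, sq]
  rw [e g, e g']
  have Z4 : NtP q Λ₀ 4 0 g.Z g'.Z := ntp_of_le (by norm_num) (hc.Z hq hΛ hs hs')
  have wp4 : NtP q Λ₀ 4 (-1) g.wp g'.wp := ntp_of_le (by norm_num) hc.wp
  have X4 : NtP q Λ₀ 4 1 (fun p => Xf p.2) (fun p => Xf p.2) := ntp_X hq hΛ
  have ew4 : NtP q Λ₀ 4 (-1) (fun p => Real.exp (-g.w p)) (fun p => Real.exp (-g'.w p)) :=
    ntp_of_le (by norm_num) hc.ew
  have t2 : NtP q Λ₀ 4 (-1) (fun p => g.Z p * Xf p.2 * (g.wp p * g.wp p))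
      (fun p => g'.Z p * Xf p.2 * (g'.wp p * g'.wp p)) :=
    nt_pd1_mul hq hΛ (by norm_num) (nt_pd1_mul hq hΛ (c'' := 1) (by norm_num) Z4 X4)
      (nt_pd1_mul hq hΛ (c'' := -2) (by norm_num) wp4 wp4)
  exact ntp_sub hΛ (ntp_const_mul hΛ 2 ew4) t2

theorem CoefP.cf12 (hq : 100 ≤ q) (hΛ : Λ₀ ≤ 1) (hs : BgSm g) (hs' : BgSm g') (hc : CoefP q g g' Λ₀) :
    NtP q Λ₀ 4 (-1) (g.cf q 1 2) (g'.cf q 1 2) := by
  have e : ∀ g : Bg, g.cf q 1 2 = fun p => q / (q + 1) * Xf p.2 * g.Z p * (g.Z p * g.dd p * g.wp p / 2 - g.wpp p) := by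
    intro g; funext p; simp [Bg.cf]
  rw [e g, e g']
  have Z4 : NtP q Λ₀ 4 0 g.Z g'.Z := ntp_of_le (by norm_num) (hc.Z hq hΛ hs hs')
  have d4 : NtP q Λ₀ 4 (-1) g.dd g'.dd := ntp_of_le (by norm_num) (hc.dd hq hΛ)
  have wp4 : NtP q Λ₀ 4 (-1) g.wp g'.wp := ntp_of_le (by norm_num) hc.wp
  have wpp4 : NtP q Λ₀ 4 (-2) g.wpp g'.wpp := hc.wpp hq hΛ
  have X4 : NtP q Λ₀ 4 1 (fun p => Xf p.2) (fun p => Xf p.2) := ntp_X hq hΛ
  have t1 : NtP q Λ₀ 4 (-2) (fun p => g.Z p * g.dd p * g.wp p / 2) (fun p => g'.Z p * g'.dd p * g'.wp p / 2) :=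
    ntp_div_const hΛ (nt_pd1_mul hq hΛ (by norm_num) (nt_pd1_mul hq hΛ (c'' := -1) (by norm_num) Z4 d4) wp4) 2
  exact nt_pd1_mul hq hΛ (by norm_num)
    (nt_pd1_mul hq hΛ (c'' := 1) (by norm_num) (ntp_const_mul hΛ (q / (q + 1)) X4) Z4) (ntp_sub hΛ t1 wpp4)

end

end Claimed.Agent.R324.Core
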