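/-
Row 324 (S0582), PDE core, module NT (term calculus of `NN`; architect helper762).   File CfPD2: PORT of Core/W/CoefD2.lean to PAIRS of backgrounds.
   `NtP q Λ₀ n c f f'` (Core/NT/CfP.lean): f, f' symbols of order (r̂²)^c, f - f' of order 𝔍 (r̂²)^c.     `CoefP q g g' Λ₀` (Core/NT/CfPB.lean): the basic pairs (B, w', e^{-w}, W).
   METHOD: copy the proofs of Core/W/CoefD2.lean (if they are still `sorry` there: follow the sketch in its header) and substitute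
        `SR q Λ₀ n c (F g)`  ↦  `NtP q Λ₀ n c (F g) (F g')`,       `sr_add, sr_sub, sr_neg, sr_const_mul, sr_div_const, sr_mul, sr_pow, sr_le, sr_of_le, sr_dY, sr_y, sr_X, sr_inv, sr_congr`  ↦  `ntp_*`   (same arguments;  `sr_const a ↦ ntp_const hΛ a`;  `ntp_inv` needs both lower bounds: `hc.low`),
        `hc.B, hc.wp, hc.ew, hc.W` are now pairs;      `CoefS.x hq hΛ hs hc`  ↦  `CoefP.x hq hΛ hs hs' hc`.
   Rewriting equations `e : g.cf q 0 0 = fun p => …` are needed for `g` and for `g'`: prove them as `∀ g : Bg, …` and `rw [e g, e g']`.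
-/
import Claimed.Agent.R324.Core.NT.CfPC
import Claimed.Agent.R324.Core.W.CoefD2

set_option autoImplicit false

namespace Claimed.Agent.R324.Core

open Set Filter Topology
open scoped ContDiff

noncomputable section

variable {q Λ₀ : ℝ} {g g' : Bg}

theorem nt_D2_mul {n : ℕ} {c c' c'' : ℤ} {f f' h h' : Fn} (hq : 100 ≤ q) (hΛ : Λ₀ ≤ 1)
    (hf : NtP q Λ₀ n c f f') (hg : NtP q Λ₀ n c' h h') (hc : c'' ≤ c + c') :
    NtP q Λ₀ n c'' (fun p => f p * h p) (fun p => f' p * h' p) :=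
  ntp_le hq hΛ hc (ntp_mul hq hΛ hf hg)

theorem CoefP.cf20 (hq : 100 ≤ q) (hΛ : Λ₀ ≤ 1) (hs : BgSm g) (hs' : BgSm g') (hc : CoefP q g g' Λ₀) :
    NtP q Λ₀ 4 (-2) (g.cf q 2 0) (g'.cf q 2 0) := by
  have Z4 : NtP q Λ₀ 4 0 g.Z g'.Z := ntp_of_le (by norm_num) (hc.Z hq hΛ hs hs')
  have B4 : NtP q Λ₀ 4 (-1) g.B g'.B := ntp_of_le (by norm_num) hc.B
  have wp4 : NtP q Λ₀ 4 (-1) g.wp g'.wp := ntp_of_le (by norm_num) hc.wp
  have Bp4 : NtP q Λ₀ 4 (-2) g.Bp g'.Bp := ntp_of_le (by norm_num) (hc.Bp hq hΛ)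
  have y4 : NtP q Λ₀ 4 0 (fun p => p.2) (fun p => p.2) := ntp_y hq hΛ
  have t1 : NtP q Λ₀ 4 (-2) (fun p => g.Z p * (g.wp p * g.wp p)) (fun p => g'.Z p * (g'.wp p * g'.wp p)) :=
    nt_D2_mul hq hΛ Z4 (ntp_mul hq hΛ wp4 wp4) (by norm_num)
  have t2 : NtP q Λ₀ 4 (-2) (fun p => p.2 * g.Bp p) (fun p => p.2 * g'.Bp p) :=
    nt_D2_mul hq hΛ y4 Bp4 (by norm_num)
  have t3 : NtP q Λ₀ 4 (-2) (fun p => g.B p * g.B p) (fun p => g'.B p * g'.B p) :=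
    nt_D2_mul hq hΛ B4 B4 (by norm_num)
  have t4 : NtP q Λ₀ 4 (-2) g.B g'.B := ntp_le hq hΛ (by norm_num) B4
  have t5 : NtP q Λ₀ 4 (-2) (fun p => p.2 * g.Bp p + 2 * (g.B p * g.B p + g.B p))
      (fun p => p.2 * g'.Bp p + 2 * (g'.B p * g'.B p + g'.B p)) :=
    ntp_add hΛ t2 (ntp_const_mul hΛ 2 (ntp_add hΛ t3 t4))
  have t6 : NtP q Λ₀ 4 (-2) (fun p => (g.Z p * g.Z p) * (p.2 * g.Bp p + 2 * (g.B p * g.B p + g.B p)))
      (fun p => (g'.Z p * g'.Z p) * (p.2 * g'.Bp p + 2 * (g'.B p * g'.B p + g'.B p))) :=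
    nt_D2_mul hq hΛ (ntp_mul hq hΛ Z4 Z4) t5 (by norm_num)
  have t7 := ntp_sub hΛ (ntp_neg hΛ t1) (ntp_const_mul hΛ (q - 1) t6)
  have e : ∀ g : Bg, g.cf q 2 0 = fun p => -(g.Z p * (g.wp p * g.wp p))
      - (q - 1) * ((g.Z p * g.Z p) * (p.2 * g.Bp p + 2 * (g.B p * g.B p + g.B p))) := by
    intro g
    funext p
    simp [Bg.cf]
    ring
  rw [e g, e g']
  exact t7

theorem CoefP.cf21 (hq : 100 ≤ q) (hΛ : Λ₀ ≤ 1) (hs : BgSm g) (hs' : BgSm g') (hc : CoefP q g g' Λ₀) :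
    NtP q Λ₀ 4 (-2) (g.cf q 2 1) (g'.cf q 2 1) := by
  have Z4 : NtP q Λ₀ 4 0 g.Z g'.Z := ntp_of_le (by norm_num) (hc.Z hq hΛ hs hs')
  have wp4 : NtP q Λ₀ 4 (-1) g.wp g'.wp := ntp_of_le (by norm_num) hc.wp
  have d4 : NtP q Λ₀ 4 (-1) g.dd g'.dd := ntp_of_le (by norm_num) (hc.dd hq hΛ)
  have wpp4 : NtP q Λ₀ 4 (-2) g.wpp g'.wpp := hc.wpp hq hΛ
  have t1 : NtP q Λ₀ 4 (-2) (fun p => g.Z p * (g.dd p * g.wp p)) (fun p => g'.Z p * (g'.dd p * g'.wp p)) :=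
    nt_D2_mul hq hΛ Z4 (ntp_mul hq hΛ d4 wp4) (by norm_num)
  have t2 : NtP q Λ₀ 4 (-2) (fun p => (-2) * g.wpp p + g.Z p * (g.dd p * g.wp p))
      (fun p => (-2) * g'.wpp p + g'.Z p * (g'.dd p * g'.wp p)) :=
    ntp_add hΛ (ntp_const_mul hΛ (-2) wpp4) t1
  have t3 : NtP q Λ₀ 4 (-2) (fun p => g.Z p * ((-2) * g.wpp p + g.Z p * (g.dd p * g.wp p)))
      (fun p => g'.Z p * ((-2) * g'.wpp p + g'.Z p * (g'.dd p * g'.wp p))) :=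
    nt_D2_mul hq hΛ Z4 t2 (by norm_num)
  have e : ∀ g : Bg, g.cf q 2 1 = fun p => g.Z p * ((-2) * g.wpp p + g.Z p * (g.dd p * g.wp p)) := by
    intro g
    funext p
    simp only [Bg.cf, Matrix.cons_val]
    ring
  rw [e g, e g']
  exact t3

theorem CoefP.cf22 (hq : 100 ≤ q) (hΛ : Λ₀ ≤ 1) (hs : BgSm g) (hs' : BgSm g') (hc : CoefP q g g' Λ₀) :
    NtP q Λ₀ 4 (-1) (g.cf q 2 2) (g'.cf q 2 2) := by
  have Z4 : NtP q Λ₀ 4 0 g.Z g'.Z := ntp_of_le (by norm_num) (hc.Z hq hΛ hs hs')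
  have B4 : NtP q Λ₀ 4 (-1) g.B g'.B := ntp_of_le (by norm_num) hc.B
  have wp4 : NtP q Λ₀ 4 (-1) g.wp g'.wp := ntp_of_le (by norm_num) hc.wp
  have d4 : NtP q Λ₀ 4 (-1) g.dd g'.dd := ntp_of_le (by norm_num) (hc.dd hq hΛ)
  have w14 : NtP q Λ₀ 4 (-1) g.w1 g'.w1 := ntp_of_le (by norm_num) (hc.w1 hq hΛ hs hs')
  have y4 : NtP q Λ₀ 4 0 (fun p => p.2) (fun p => p.2) := ntp_y hq hΛ
  have X4 : NtP q Λ₀ 4 1 (fun p => Xf p.2) (fun p => Xf p.2) := ntp_X hq hΛ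
  have c4 : NtP q Λ₀ 4 (-1) (fun _ => 4 * (q + 1)) (fun _ => 4 * (q + 1)) :=
    ntp_le hq hΛ (by norm_num) (ntp_const hΛ _)
  have t1 : NtP q Λ₀ 4 (-1) (fun p => g.Z p * (2 * (q - 1) * g.B p - 4 * (q + 1)))
      (fun p => g'.Z p * (2 * (q - 1) * g'.B p - 4 * (q + 1))) :=
    nt_D2_mul hq hΛ Z4 (ntp_sub hΛ (ntp_const_mul hΛ (2 * (q - 1)) B4) c4) (by norm_num)
  have t2 : NtP q Λ₀ 4 (-1) (fun p => g.Z p * (Xf p.2 * (g.wp p * g.wp p)))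
      (fun p => g'.Z p * (Xf p.2 * (g'.wp p * g'.wp p))) :=
    nt_D2_mul hq hΛ Z4 (ntp_mul hq hΛ X4 (ntp_mul hq hΛ wp4 wp4)) (by norm_num)
  have t3 : NtP q Λ₀ 4 (-1) (fun p => p.2 * ((g.Z p * g.Z p) * g.dd p))
      (fun p => p.2 * ((g'.Z p * g'.Z p) * g'.dd p)) :=
    nt_D2_mul hq hΛ y4 (ntp_mul hq hΛ (ntp_mul hq hΛ Z4 Z4) d4) (by norm_num)
  have t4 : NtP q Λ₀ 4 (-1) (fun p => p.2 * g.w1 p) (fun p => p.2 * g'.w1 p) :=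
    nt_D2_mul hq hΛ y4 w14 (by norm_num)
  have t5 := ntp_sub hΛ (ntp_div_const hΛ (ntp_add hΛ (ntp_sub hΛ t1 (ntp_const_mul hΛ q t2))
    (ntp_const_mul hΛ (2 * q) t3)) (q + 1)) (ntp_const_mul hΛ 2 t4)
  have e : ∀ g : Bg, g.cf q 2 2 = fun p => (g.Z p * (2 * (q - 1) * g.B p - 4 * (q + 1))
      - q * (g.Z p * (Xf p.2 * (g.wp p * g.wp p)))
      + 2 * q * (p.2 * ((g.Z p * g.Z p) * g.dd p))) / (q + 1) - 2 * (p.2 * g.w1 p) := by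
    intro g
    funext p
    simp [Bg.cf]
    ring
  rw [e g, e g']
  exact t5

end

end Claimed.Agent.R324.Core
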