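/-
Row 324 (S0582), PDE core, module NT (term calculus of `NN`; architect helper762).   File Smooth: smoothness of the concrete coefficients, multipliers and atoms of Core/NT/Defs.lean.
Tools: Core/PR/Sm.lean (`Sm.add, Sm.mul, Sm.pow, Sm.const_mul, Sm.div_const, Sm.dY, Sm.dT, Sm.exp, Sm.comp, sm_const, sm_snd, sm_Xf, Sm.ttF, Sm.DD, Sm.sl`), Core/PR/SmBg.lean (`BgSm.smZ, smdd, smBp, smwp, smwpp, smap, smapp, smw1, smcf`),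
       Core/PR/SmU.lean (`sm_e1F, sm_e2F, sm_e3F, sm_h1F, sm_h2F, sm_beF`), Core/PR/SmR.lean (`bgR_sm, sm_Lt`), Core/PR/Jet0.lean (`sm_uT`), Core/PR/Ph.lean (`ph1_contDiff`).
SKETCHES.
* arrays (`nt_sm_CC`, `nt_sm_C1`, …):  `fin_cases j <;> fin_cases m <;> fin_cases k`, then for each entry  `have e : ntC1 q g 0 0 0 = fun p => … := by funext p; simp [ntC1]`;  OR, shorter, the pattern of `smbg_a_mat3`/`smbg_a_cf` in Core/PR/SmBg.lean;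
      OR:  prove a general lemma  "if all entries F j m k are Sm then fun p => (![…] : …) j m k is Sm".     Zero entries: `sm_const 0`.
      HINT: `Sm f` is `ContDiffOn ℝ ∞ f (Iio 0 ×ˢ univ)`; after `unfold ntC1` and `fin_cases`, `simp only [Matrix.cons_val…]` reduces the goal to the entry; `fun_prop` does not know `Sm`, use the closure lemmas.
* `NTcF.Sm.df`, `NTaF.Sm.df`:  `(h.s1 j m k).sl ht : ContDiff ℝ ∞ (sl _ t)`, `.differentiable (by simp)`.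
* `nt_Ad_df`:  atoms of `fun j => dT (U j)` (smooth by `Sm.dT`), and `(sm_uT (sm_Lt hq hg hU) j).dT`.
-/
import Claimed.Agent.R324.Core.NT.Defs

set_option autoImplicit false

namespace Claimed.Agent.R324.Core

open Set Filter Topology
open scoped ContDiff

noncomputable section

variable {q : ℝ} {g : Bg} {U : Tri} {t : ℝ}

theorem nt_sm_Ze (hq : 1 < q) (hg : BgSm g) : Sm (ntZe q g) :=
  hg.smZ.mul ((sm_const 1).add (sm_Xf.mul (bgR_sm hq hg).smB))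

theorem nt_sm_Zd (hg : BgSm g) : Sm (ntZd g) := ((hg.smZ.pow 2).mul hg.smdd).div_const 2

theorem nt_sm_Zw (hg : BgSm g) : Sm (ntZw g) := hg.smZ.mul hg.smwp

theorem nt_sm_Mu (hq : 1 < q) (hg : BgSm g) : Sm (ntMu q g) :=
  (bgR_sm hq hg).smZ.dT.mul ((sm_const 1).add (sm_Xf.mul (bgR_sm hq hg).smB))

theorem nt_sm_Ch (q : ℝ) (hg : BgSm g) (j k : Fin 3) : Sm (ntCh q g j k) := by
  by_cases h : j = 2 ∧ k ≠ 2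
  · have e : ntCh q g j k = fun p => Xf p.2 * g.cf q j k p := by
      funext p
      simp only [ntCh, if_pos h]
    rw [e]
    exact sm_Xf.mul (hg.smcf q j k)
  · have e : ntCh q g j k = g.cf q j k := by
      funext p
      simp only [ntCh, if_neg h]
    rw [e]
    exact hg.smcf q j k

theorem nt_cd_CC {S : Set (ℝ × ℝ)} {X Z d B w' a' a'' Zd Zw Zd' Zw' DDw w Bp : ℝ × ℝ → ℝ}
    (hX : ContDiffOn ℝ ∞ X S) (hZ : ContDiffOn ℝ ∞ Z S) (hd : ContDiffOn ℝ ∞ d S)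
    (hB : ContDiffOn ℝ ∞ B S) (hw' : ContDiffOn ℝ ∞ w' S) (ha' : ContDiffOn ℝ ∞ a' S)
    (ha'' : ContDiffOn ℝ ∞ a'' S) (hZd : ContDiffOn ℝ ∞ Zd S) (hZw : ContDiffOn ℝ ∞ Zw S)
    (hZd' : ContDiffOn ℝ ∞ Zd' S) (hZw' : ContDiffOn ℝ ∞ Zw' S) (hDDw : ContDiffOn ℝ ∞ DDw S)
    (hw : ContDiffOn ℝ ∞ w S) (hBp : ContDiffOn ℝ ∞ Bp S) (q : ℝ) (j i : Fin 3) :
    ContDiffOn ℝ ∞ (fun p =>
  (![![(Z p * (X p * a'' p - p.2 * a' p - X p * a' p ^ 2 / 2 + X p * w' p ^ 2) - 2 * q * Z p - X p * a' p * Zd p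
          + 2 * (q + 1) * p.2 * Zd p - 2 * X p * Zd' p) / (q + 1),
      (-q * p.2 * Z p * a' p + 2 * q * p.2 * Z p ^ 2 * d p - q * Z p * (2 * (q - 1) * B p + 2 * q)) / (q + 1),
      (X p * a' p * Zw p - 2 * (q + 1) * p.2 * Zw p + 2 * X p * Zw' p) / (q + 1)],
    ![Z p * DDw p - X p * w' p * Zd p, -q * p.2 * Zw p, -2 * Real.exp (-w p) + X p * Z p * w' p ^ 2],
    ![X p * (Z p * (a'' p - a' p ^ 2 / 2 + w' p ^ 2) - Z p * d p * Zd p - 2 * Zd' p),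
      X p * ((q - 1) * Z p ^ 2 * (2 * B p * (B p + 1) + p.2 * Bp p)),
      X p * (Z p * d p * Zw p + 2 * Zw' p)]] : Fin 3 → Fin 3 → ℝ) j i) S := by
  refine smbg_a_mat3 ?_ ?_ ?_ ?_ ?_ ?_ ?_ ?_ ?_ j i <;> fun_prop

theorem nt_sm_CC (q : ℝ) (hg : BgSm g) (j i : Fin 3) : Sm (ntCC q g j i) := by
  exact nt_cd_CC sm_Xf hg.smZ hg.smdd hg.smB hg.smwp hg.smap hg.smapp (nt_sm_Zd hg) (nt_sm_Zw hg)
    (nt_sm_Zd hg).dY (nt_sm_Zw hg).dY hg.smw.DD hg.smw hg.smBp q j i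

theorem nt_cd_vec6 {S : Set (ℝ × ℝ)} {a0 a1 a2 a3 a4 a5 : ℝ × ℝ → ℝ}
    (h0 : ContDiffOn ℝ ∞ a0 S) (h1 : ContDiffOn ℝ ∞ a1 S) (h2 : ContDiffOn ℝ ∞ a2 S)
    (h3 : ContDiffOn ℝ ∞ a3 S) (h4 : ContDiffOn ℝ ∞ a4 S) (h5 : ContDiffOn ℝ ∞ a5 S) (k : Fin 6) :
    ContDiffOn ℝ ∞ (fun p => (![a0 p, a1 p, a2 p, a3 p, a4 p, a5 p] : Fin 6 → ℝ) k) S := by
  fin_cases k
  · exact h0
  · exact h1
  · exact h2
  · exact h3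
  · exact h4
  · exact h5

theorem nt_cd_mat7 {S : Set (ℝ × ℝ)} {r0 r1 r2 r3 r4 r5 r6 : ℝ × ℝ → Fin 6 → ℝ}
    (h0 : ∀ k, ContDiffOn ℝ ∞ (fun p => r0 p k) S) (h1 : ∀ k, ContDiffOn ℝ ∞ (fun p => r1 p k) S)
    (h2 : ∀ k, ContDiffOn ℝ ∞ (fun p => r2 p k) S) (h3 : ∀ k, ContDiffOn ℝ ∞ (fun p => r3 p k) S)
    (h4 : ∀ k, ContDiffOn ℝ ∞ (fun p => r4 p k) S) (h5 : ∀ k, ContDiffOn ℝ ∞ (fun p => r5 p k) S)
    (h6 : ∀ k, ContDiffOn ℝ ∞ (fun p => r6 p k) S) (m : Fin 7) (k : Fin 6) :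
    ContDiffOn ℝ ∞ (fun p => (![r0 p, r1 p, r2 p, r3 p, r4 p, r5 p, r6 p] : Fin 7 → Fin 6 → ℝ) m k) S := by
  fin_cases m
  · exact h0 k
  · exact h1 k
  · exact h2 k
  · exact h3 k
  · exact h4 k
  · exact h5 k
  · exact h6 k

theorem nt_cd_arr36 {S : Set (ℝ × ℝ)} {r0 r1 r2 : ℝ × ℝ → Fin 6 → ℝ}
    (h0 : ∀ k, ContDiffOn ℝ ∞ (fun p => r0 p k) S) (h1 : ∀ k, ContDiffOn ℝ ∞ (fun p => r1 p k) S)
    (h2 : ∀ k, ContDiffOn ℝ ∞ (fun p => r2 p k) S) (j : Fin 3) (k : Fin 6) :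
    ContDiffOn ℝ ∞ (fun p => (![r0 p, r1 p, r2 p] : Fin 3 → Fin 6 → ℝ) j k) S := by
  fin_cases j
  · exact h0 k
  · exact h1 k
  · exact h2 k

theorem nt_cd_arr376 {S : Set (ℝ × ℝ)} {r0 r1 r2 : ℝ × ℝ → Fin 7 → Fin 6 → ℝ}
    (h0 : ∀ m k, ContDiffOn ℝ ∞ (fun p => r0 p m k) S) (h1 : ∀ m k, ContDiffOn ℝ ∞ (fun p => r1 p m k) S)
    (h2 : ∀ m k, ContDiffOn ℝ ∞ (fun p => r2 p m k) S) (j : Fin 3) (m : Fin 7) (k : Fin 6) :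
    ContDiffOn ℝ ∞ (fun p => (![r0 p, r1 p, r2 p] : Fin 3 → Fin 7 → Fin 6 → ℝ) j m k) S := by
  fin_cases j
  · exact h0 m k
  · exact h1 m k
  · exact h2 m k

theorem nt_cd_C1 {S : Set (ℝ × ℝ)} {Z ze w1t Zd Zw : ℝ × ℝ → ℝ} {ct CC : Fin 3 → Fin 3 → ℝ × ℝ → ℝ}
    (hZ : ContDiffOn ℝ ∞ Z S) (hze : ContDiffOn ℝ ∞ ze S) (hw1t : ContDiffOn ℝ ∞ w1t S)
    (hZd : ContDiffOn ℝ ∞ Zd S) (hZw : ContDiffOn ℝ ∞ Zw S)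
    (hct : ∀ j k, ContDiffOn ℝ ∞ (ct j k) S) (hCC : ∀ j k, ContDiffOn ℝ ∞ (CC j k) S)
    (q : ℝ) (j : Fin 3) (m : Fin 7) (k : Fin 6) :
    ContDiffOn ℝ ∞ (fun p =>
  (![![![-ze p * ct 0 0 p, -ze p * ct 0 1 p, -ze p * ct 0 2 p, ze p * w1t p + Zd p, -2 * (1 / (q + 1)) * Zw p, 0],
      ![0, 0, 0, 0, 0, 0],
      ![0, 0, 0, -Zw p, 2 * (1 / (q + 1)) * Zw p, 0],
      ![CC 0 0 p, 0, q / (q + 1) * CC 0 0 p, 0, 0, 0],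
      ![CC 0 1 p, 0, -(1 / (q + 1)) * CC 0 1 p, 0, 0, 0],
      ![0, CC 0 2 p, 0, 0, 0, 0],
      ![0, 0, 0, 0, 0, 0]],
    ![![-ze p * ct 1 0 p, -ze p * ct 1 1 p, -ze p * ct 1 2 p, 0, ze p * w1t p + Zd p, 0],
      ![0, 0, 0, 0, 0, 0],
      ![0, 0, 0, 0, -Zw p, 0],
      ![CC 1 0 p, 0, q / (q + 1) * CC 1 0 p, 0, 0, 0],
      ![CC 1 1 p, 0, -(1 / (q + 1)) * CC 1 1 p, 0, 0, 0],
      ![0, CC 1 2 p, 0, 0, 0, 0],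
      ![0, 0, 0, 0, 0, 0]],
    ![![-ze p * ct 2 0 p, -ze p * ct 2 1 p, -ze p * ct 2 2 p - 2 * p.2 * (ze p * w1t p) - 2 * Z p, 0, -2 * Zw p,
          ze p * w1t p + Zd p],
      ![0, 0, -2 * Z p, 0, 0, 0],
      ![0, 0, 0, 0, 2 * Zw p, -Zw p],
      ![CC 2 0 p, 0, q / (q + 1) * CC 2 0 p, 0, 0, 0],
      ![CC 2 1 p, 0, -(1 / (q + 1)) * CC 2 1 p, 0, 0, 0],
      ![0, CC 2 2 p, 0, 0, 0, 0],
      ![0, 0, 2 * p.2 * Zd p, 0, 0, 0]]] : Fin 3 → Fin 7 → Fin 6 → ℝ) j m k) S := by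
  have h00 := hct 0 0
  have h01 := hct 0 1
  have h02 := hct 0 2
  have h10 := hct 1 0
  have h11 := hct 1 1
  have h12 := hct 1 2
  have h20 := hct 2 0
  have h21 := hct 2 1
  have h22 := hct 2 2
  have c00 := hCC 0 0
  have c01 := hCC 0 1
  have c02 := hCC 0 2
  have c10 := hCC 1 0
  have c11 := hCC 1 1
  have c12 := hCC 1 2
  have c20 := hCC 2 0
  have c21 := hCC 2 1
  have c22 := hCC 2 2
  refine nt_cd_arr376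
    (nt_cd_mat7 (nt_cd_vec6 ?_ ?_ ?_ ?_ ?_ ?_) (nt_cd_vec6 ?_ ?_ ?_ ?_ ?_ ?_) (nt_cd_vec6 ?_ ?_ ?_ ?_ ?_ ?_)
      (nt_cd_vec6 ?_ ?_ ?_ ?_ ?_ ?_) (nt_cd_vec6 ?_ ?_ ?_ ?_ ?_ ?_) (nt_cd_vec6 ?_ ?_ ?_ ?_ ?_ ?_)
      (nt_cd_vec6 ?_ ?_ ?_ ?_ ?_ ?_))
    (nt_cd_mat7 (nt_cd_vec6 ?_ ?_ ?_ ?_ ?_ ?_) (nt_cd_vec6 ?_ ?_ ?_ ?_ ?_ ?_) (nt_cd_vec6 ?_ ?_ ?_ ?_ ?_ ?_)
      (nt_cd_vec6 ?_ ?_ ?_ ?_ ?_ ?_) (nt_cd_vec6 ?_ ?_ ?_ ?_ ?_ ?_) (nt_cd_vec6 ?_ ?_ ?_ ?_ ?_ ?_)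
      (nt_cd_vec6 ?_ ?_ ?_ ?_ ?_ ?_))
    (nt_cd_mat7 (nt_cd_vec6 ?_ ?_ ?_ ?_ ?_ ?_) (nt_cd_vec6 ?_ ?_ ?_ ?_ ?_ ?_) (nt_cd_vec6 ?_ ?_ ?_ ?_ ?_ ?_)
      (nt_cd_vec6 ?_ ?_ ?_ ?_ ?_ ?_) (nt_cd_vec6 ?_ ?_ ?_ ?_ ?_ ?_) (nt_cd_vec6 ?_ ?_ ?_ ?_ ?_ ?_)
      (nt_cd_vec6 ?_ ?_ ?_ ?_ ?_ ?_)) j m k <;> fun_prop

theorem nt_sm_C1 (hq : 1 < q) (hg : BgSm g) (j : Fin 3) (m : Fin 7) (k : Fin 6) : Sm (ntC1 q g j m k) := by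
  exact nt_cd_C1 hg.smZ (nt_sm_Ze hq hg) (bgR_sm hq hg).smw1 (nt_sm_Zd hg) (nt_sm_Zw hg)
    (fun j k => nt_sm_Ch q (bgR_sm hq hg) j k) (fun j i => nt_sm_CC q hg j i) q j m k

theorem nt_sm_C2 (q : ℝ) (hg : BgSm g) (j : Fin 3) (m : Fin 7) (l : Fin 4) : Sm (ntC2 q g j m l) := by
  have hZ : ContDiffOn ℝ ∞ g.Z (Iio (0 : ℝ) ×ˢ (univ : Set ℝ)) := hg.smZ
  unfold Sm ntC2
  obtain ⟨Z, hZe⟩ : ∃ Z : ℝ × ℝ → ℝ, Z = g.Z := ⟨_, rfl⟩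
  rw [← hZe] at hZ ⊢
  fin_cases j <;> fin_cases m <;> fin_cases l <;> (simp; try fun_prop)

theorem nt_sm_C5 (q : ℝ) (hg : BgSm g) (j : Fin 3) (k l : Fin 4) : Sm (ntC5 q g j k l) := by
  have hZ : ContDiffOn ℝ ∞ g.Z (Iio (0 : ℝ) ×ˢ (univ : Set ℝ)) := hg.smZ
  unfold Sm ntC5
  obtain ⟨Z, hZe⟩ : ∃ Z : ℝ × ℝ → ℝ, Z = g.Z := ⟨_, rfl⟩
  rw [← hZe] at hZ ⊢
  fin_cases j <;> fin_cases k <;> fin_cases l <;> (simp; try fun_prop)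

theorem nt_cd_C0 {S : Set (ℝ × ℝ)} {dw : ℝ × ℝ → ℝ} {dc : Fin 3 → Fin 3 → ℝ × ℝ → ℝ}
    (hdw : ContDiffOn ℝ ∞ dw S) (hdc : ∀ j k, ContDiffOn ℝ ∞ (dc j k) S) (j : Fin 3) (k : Fin 6) :
    ContDiffOn ℝ ∞ (fun p =>
  (![![dc 0 0 p, dc 0 1 p, dc 0 2 p, -dw p, 0, 0],
    ![dc 1 0 p, dc 1 1 p, dc 1 2 p, 0, -dw p, 0],
    ![dc 2 0 p, dc 2 1 p, dc 2 2 p + 2 * p.2 * dw p, 0, 0, -dw p]] : Fin 3 → Fin 6 → ℝ) j k) S := by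
  have h00 := hdc 0 0
  have h01 := hdc 0 1
  have h02 := hdc 0 2
  have h10 := hdc 1 0
  have h11 := hdc 1 1
  have h12 := hdc 1 2
  have h20 := hdc 2 0
  have h21 := hdc 2 1
  have h22 := hdc 2 2
  refine nt_cd_arr36 (nt_cd_vec6 ?_ ?_ ?_ ?_ ?_ ?_) (nt_cd_vec6 ?_ ?_ ?_ ?_ ?_ ?_)
    (nt_cd_vec6 ?_ ?_ ?_ ?_ ?_ ?_) j k <;> fun_prop

theorem nt_sm_C0 (hq : 1 < q) (hg : BgSm g) (j : Fin 3) (k : Fin 6) : Sm (ntC0 q g j k) := by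
  exact nt_cd_C0 (hg.smw1.sub ((nt_sm_Ze hq hg).mul (bgR_sm hq hg).smw1))
    (fun j k => (nt_sm_Ch q hg j k).sub ((nt_sm_Ze hq hg).mul (nt_sm_Ch q (bgR_sm hq hg) j k))) j k

theorem nt_sm_L0 (hq : 1 < q) (hg : BgSm g) (j : Fin 3) (k : Fin 6) : Sm (ntL0 q g j k) := by
  exact nt_cd_C0 ((bgR_sm hq hg).smw1.dT.sub ((nt_sm_Mu hq hg).mul (bgR_sm hq hg).smw1))
    (fun j k => (nt_sm_Ch q (bgR_sm hq hg) j k).dT.sub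
      ((nt_sm_Mu hq hg).mul (nt_sm_Ch q (bgR_sm hq hg) j k))) j k

theorem nt_sm_CF (hq : 1 < q) (hg : BgSm g) : (ntCF q g).Sm :=
  ⟨nt_sm_C1 hq hg, nt_sm_C2 q hg, fun _ => nt_sm_Ze hq hg, nt_sm_C5 q hg, nt_sm_C0 hq hg,
    fun _ => (nt_sm_Ze hq hg).sub (sm_const 1)⟩

theorem nt_sm_CL (hq : 1 < q) (hg : BgSm g) : (ntCL q g).Sm :=
  ⟨fun _ _ _ => sm_const 0, fun _ _ _ => sm_const 0, fun _ => sm_const 0, fun _ _ _ => sm_const 0,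
    nt_sm_L0 hq hg, fun _ => nt_sm_Mu hq hg⟩

theorem NTcF.Sm.dT {c : NTcF} (h : c.Sm) : c.dT.Sm :=
  ⟨fun j m k => (h.s1 j m k).dT, fun j m l => (h.s2 j m l).dT, fun j => (h.s3 j).dT,
    fun j k l => (h.s5 j k l).dT, fun j k => (h.s0 j k).dT, fun j => (h.s0v j).dT⟩

theorem nt_sl_differentiable {f : Fn} (h : Sm f) (ht : t < 0) : Differentiable ℝ (sl f t) :=
  (h.sl ht).differentiable (by simp)

theorem NTcF.Sm.df {c : NTcF} (h : c.Sm) (ht : t < 0) : (c.sl t).Df :=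
  ⟨fun j m k => nt_sl_differentiable (h.s1 j m k) ht, fun j m l => nt_sl_differentiable (h.s2 j m l) ht,
    fun j => nt_sl_differentiable (h.s3 j) ht, fun j k l => nt_sl_differentiable (h.s5 j k l) ht,
    fun j k => nt_sl_differentiable (h.s0 j k) ht, fun j => nt_sl_differentiable (h.s0v j) ht⟩

theorem NTaF.Sm.df {a : NTaF} (h : a.Sm) (ht : t < 0) : (a.sl t).Df :=
  ⟨fun k => nt_sl_differentiable (h.sA k) ht, fun j => nt_sl_differentiable (h.sv j) ht,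
    fun l => nt_sl_differentiable (h.sp l) ht⟩

theorem nt_sm_PsF (q : ℝ) (hU : ∀ j, Sm (U j)) (m : Fin 7) : Sm (ntPsF q U m) := by
  fin_cases m
  · exact (sm_e1F q hU).sub (sm_const 1)
  · exact (sm_e2F q hU).sub (sm_const 1)
  · exact (sm_e3F hU).sub (sm_const 1)
  · exact (sm_const 1).sub ((sm_h1F q hU).comp ph1_contDiff)
  · exact (sm_const 1).sub ((sm_h2F q hU).comp ph1_contDiff)
  · exact (sm_const 1).sub ((hU 1).comp ph1_contDiff)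
  · exact ((sm_e2F q hU).mul ((sm_beF hU).comp ph1_contDiff)).sub (sm_const 1)

theorem nt_sm_AF (hq : 1 < q) (hg : BgSm g) (hU : ∀ j, Sm (U j)) : (ntAF q g U).Sm := by
  refine ⟨fun k => ?_, fun j => sm_uT (sm_Lt hq hg hU) j, fun l => ?_⟩
  · fin_cases k
    · exact sm_uT hU 0
    · exact sm_uT hU 1
    · exact sm_uT hU 2
    · exact (sm_uT hU 0).ttF
    · exact (sm_uT hU 1).ttF
    · exact (sm_uT hU 2).ttF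
  · fin_cases l
    · exact (hU 0).dY
    · exact (hU 1).dY
    · exact hU 2
    · exact sm_Xf.mul (hU 2).dY

theorem nt_Ps_differentiable (q : ℝ) (hU : ∀ j, Sm (U j)) (ht : t < 0) (m : Fin 7) :
    Differentiable ℝ (ntPs q U t m) := nt_sl_differentiable (nt_sm_PsF q hU m) ht

theorem nt_Ad_df (hq : 1 < q) (hg : BgSm g) (hU : ∀ j, Sm (U j)) (ht : t < 0) : (ntAd q g U t).Df :=
  ⟨((nt_sm_AF hq hg (fun j => (hU j).dT)).df ht).dA,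
    fun j => nt_sl_differentiable (sm_uT (sm_Lt hq hg hU) j).dT ht,
    ((nt_sm_AF hq hg (fun j => (hU j).dT)).df ht).dp⟩

end

end Claimed.Agent.R324.Core
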