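/-
Row 324 (S0582), PDE core, module NT (term calculus of `NN`; architect helper762).   File CfPE: SMALLNESS (order 𝔍) of the coefficients of the linear terms of `NN`:  `ζ - 1` and the array `ntC0 q g`.
   Pair calculus: Core/NT/CfP.lean;  pairs of coefficients: Core/NT/CfPC.lean (`CoefP.Z, CoefP.w1, …`), CfPD0-2.lean (`CoefP.cf00 … CoefP.cf22`).     `h : NtCtx q g Λ₀`:  h.p : CoefP q g (bgR q g) Λ₀.
SKETCHES.    hD := domOK_DW hΛ.
* `CoefP.ch`:    as `nt_sr_Ch` (Core/NT/CfS.lean):   j = 2 ∧ k ≠ 2:  X · c_2k  (`ntp_mul` with `ntp_X`: 1 + (-2) = -1; k = 0, 1);    otherwise `CoefP.cf jk`  (fin_cases j <;> fin_cases k;  `simp [ntCh]` to evaluate the `if`; both components of the pair).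
* `nt_ts_Ze1`:   for t < 0:   ζ - 1 = Z (1 + X B̃) - 1 = -(Z · (X · (B - B̃)))      because Z (1 + X B) = 1  (`BgSm.Z_mul`, Core/PR/SmBg.lean).       Z ∈ wt 0 0 0 (m = 0: `TS.of_le`), X ∈ wt 0 0 1, B - B̃ ∈ wt 1 8 (-1) (`h.p.B.d`):   `TS.mul_wt`, `TS.neg`, `TS.congr`, `TS.of_le` (6 → 4).
* `nt_ts_dz`:    f - ζ f̃ = (f - f̃) - (ζ - 1) f̃:     wt 1 8 c  and  wt 1 8 0 · wt 0 0 c.
* `nt_ts_C0`:    entries  dc j k = ĉ_jk - ζ ĉ̃_jk,  ∓dw,  dc 2 2 + 2 y dw,  0,    dw = 𝗐₁ - ζ 𝗐̃₁:   `nt_ts_dz` with `CoefP.ch`, `CoefP.w1`;     y ∈ wt 0 0 0.     Array: as in `nt_sm_C0` (Core/NT/Smooth.lean).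
-/
import Claimed.Agent.R324.Core.NT.CfPD0
import Claimed.Agent.R324.Core.NT.CfPD1
import Claimed.Agent.R324.Core.NT.CfPD2
import Claimed.Agent.R324.Core.NT.Smooth

set_option autoImplicit false

namespace Claimed.Agent.R324.Core

open Set Filter Topology
open scoped ContDiff

noncomputable section

variable {q Λ₀ : ℝ} {g g' : Bg}

theorem CoefP.ch (hq : 100 ≤ q) (hΛ : Λ₀ ≤ 1) (hs : BgSm g) (hs' : BgSm g') (hc : CoefP q g g' Λ₀) (j k : Fin 3) :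
    NtP q Λ₀ 4 (-1) (ntCh q g j k) (ntCh q g' j k) := by
  have e1 : ∀ (g : Bg) (j k : Fin 3), (j = 2 ∧ k ≠ 2) → ntCh q g j k = fun p => Xf p.2 * g.cf q j k p := by
    intro g j k h
    funext p
    simp only [ntCh, if_pos h]
  have e2 : ∀ (g : Bg) (j k : Fin 3), ¬ (j = 2 ∧ k ≠ 2) → ntCh q g j k = g.cf q j k := by
    intro g j k h
    funext p
    simp only [ntCh, if_neg h]
  have hX : NtP q Λ₀ 4 1 (fun p => Xf p.2) (fun p => Xf p.2) := ntp_X hq hΛ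
  obtain rfl | rfl | rfl : j = 0 ∨ j = 1 ∨ j = 2 := by fin_cases j <;> simp
  · obtain rfl | rfl | rfl : k = 0 ∨ k = 1 ∨ k = 2 := by fin_cases k <;> simp
    · rw [e2 g _ _ (by decide), e2 g' _ _ (by decide)]
      exact hc.cf00 hq hΛ hs hs'
    · rw [e2 g _ _ (by decide), e2 g' _ _ (by decide)]
      exact hc.cf01 hq hΛ hs hs'
    · rw [e2 g _ _ (by decide), e2 g' _ _ (by decide)]
      exact hc.cf02 hq hΛ hs hs'
  · obtain rfl | rfl | rfl : k = 0 ∨ k = 1 ∨ k = 2 := by fin_cases k <;> simp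
    · rw [e2 g _ _ (by decide), e2 g' _ _ (by decide)]
      exact hc.cf10 hq hΛ hs hs'
    · rw [e2 g _ _ (by decide), e2 g' _ _ (by decide)]
      exact hc.cf11 hq hΛ hs hs'
    · rw [e2 g _ _ (by decide), e2 g' _ _ (by decide)]
      exact hc.cf12 hq hΛ hs hs'
  · obtain rfl | rfl | rfl : k = 0 ∨ k = 1 ∨ k = 2 := by fin_cases k <;> simp
    · rw [e1 g _ _ (by decide), e1 g' _ _ (by decide)]
      have h := ntp_mul hq hΛ hX (hc.cf20 hq hΛ hs hs')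
      simpa using h
    · rw [e1 g _ _ (by decide), e1 g' _ _ (by decide)]
      have h := ntp_mul hq hΛ hX (hc.cf21 hq hΛ hs hs')
      simpa using h
    · rw [e2 g _ _ (by decide), e2 g' _ _ (by decide)]
      exact hc.cf22 hq hΛ hs hs'

theorem nt_ts_Ze1 (h : NtCtx q g Λ₀) : TS q (DW Λ₀) 0 4 (wt q 1 8 0) (fun p => ntZe q g p - 1) := by
  have hΛ := h.le_one
  have hD := domOK_DW hΛ
  have hZ : TS q (DW Λ₀) 0 6 (wt q 0 0 0) g.Z := (h.p.Z h.hq hΛ h.s h.s').l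
  have hX : TS q (DW Λ₀) 0 6 (wt q 0 0 1) (fun p => Xf p.2) := (ntp_X h.hq hΛ).l
  have hB := h.p.B.d
  have h1 := TS.neg hD (TS.mul_wt h.hq hD hZ (TS.mul_wt h.hq hD hX hB))
  have h3 : TS q (DW Λ₀) 0 6 (wt q 1 8 0) (fun p => -(g.Z p * (Xf p.2 * (g.B p - (bgR q g).B p)))) := by
    simpa using h1
  refine TS.congr hD (fun t ht y => ?_) (h3.of_le le_rfl (by norm_num))
  have hz := h.s.Z_mul ht y
  simp only [ntZe]
  linear_combination hz

theorem nt_ts_dz (h : NtCtx q g Λ₀) {c : ℤ} {f f' : Fn} (hf : NtP q Λ₀ 4 c f f') :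
    TS q (DW Λ₀) 0 4 (wt q 1 8 c) (fun p => f p - ntZe q g p * f' p) := by
  have hΛ := h.le_one
  have hD := domOK_DW hΛ
  have h1 := TS.mul_wt h.hq hD (nt_ts_Ze1 h) hf.r
  have h1' : TS q (DW Λ₀) 0 4 (wt q 1 8 c) (fun p => (ntZe q g p - 1) * f' p) := by
    simpa using h1
  exact TS.congr hD (fun t _ y => by ring) (TS.sub hD hf.d h1')

theorem nt_ts_C0 (h : NtCtx q g Λ₀) (j : Fin 3) (k : Fin 6) : TS q (DW Λ₀) 0 4 (wt q 1 8 (-1)) (ntC0 q g j k) := by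
  have hΛ := h.le_one
  have hD := domOK_DW hΛ
  have hdw : TS q (DW Λ₀) 0 4 (wt q 1 8 (-1)) (fun p => g.w1 p - ntZe q g p * (bgR q g).w1 p) :=
    nt_ts_dz h (ntp_of_le (by norm_num) (h.p.w1 h.hq hΛ h.s h.s'))
  have hdc : ∀ j k : Fin 3, TS q (DW Λ₀) 0 4 (wt q 1 8 (-1))
      (fun p => ntCh q g j k p - ntZe q g p * ntCh q (bgR q g) j k p) :=
    fun j k => nt_ts_dz h (h.p.ch h.hq hΛ h.s h.s' j k)
  have hn := TS.neg hD hdw
  have h0 : TS q (DW Λ₀) 0 4 (wt q 1 8 (-1)) (fun _ => (0 : ℝ)) :=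
    TS.congr hD (fun t _ y => by ring) (TS.const_mul hD 0 hdw)
  have hy : TS q (DW Λ₀) 0 4 (wt q 0 0 0) (fun p => p.2) := (ntp_y h.hq hΛ).l
  have hyw : TS q (DW Λ₀) 0 4 (wt q 1 8 (-1))
      (fun p => p.2 * (g.w1 p - ntZe q g p * (bgR q g).w1 p)) := by
    have h1 := TS.mul_wt h.hq hD hy hdw
    simpa using h1
  have h22 : TS q (DW Λ₀) 0 4 (wt q 1 8 (-1))
      (fun p => ntCh q g 2 2 p - ntZe q g p * ntCh q (bgR q g) 2 2 p
        + 2 * p.2 * (g.w1 p - ntZe q g p * (bgR q g).w1 p)) :=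
    TS.congr hD (fun t _ y => by ring) (TS.add hD (hdc 2 2) (TS.const_mul hD 2 hyw))
  obtain rfl | rfl | rfl : j = 0 ∨ j = 1 ∨ j = 2 := by fin_cases j <;> simp
  · obtain rfl | rfl | rfl | rfl | rfl | rfl : k = 0 ∨ k = 1 ∨ k = 2 ∨ k = 3 ∨ k = 4 ∨ k = 5 := by
      fin_cases k <;> simp
    · exact hdc 0 0
    · exact hdc 0 1
    · exact hdc 0 2
    · exact hn
    · exact h0
    · exact h0
  · obtain rfl | rfl | rfl | rfl | rfl | rfl : k = 0 ∨ k = 1 ∨ k = 2 ∨ k = 3 ∨ k = 4 ∨ k = 5 := by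
      fin_cases k <;> simp
    · exact hdc 1 0
    · exact hdc 1 1
    · exact hdc 1 2
    · exact h0
    · exact hn
    · exact h0
  · obtain rfl | rfl | rfl | rfl | rfl | rfl : k = 0 ∨ k = 1 ∨ k = 2 ∨ k = 3 ∨ k = 4 ∨ k = 5 := by
      fin_cases k <;> simp
    · exact hdc 2 0
    · exact hdc 2 1
    · exact h22
    · exact h0
    · exact h0
    · exact hn

end

end Claimed.Agent.R324.Core
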