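/-
Row 324 (S0582), PDE core, module NT (term calculus of `NN`; architect helper762).   File CfS: SIZE of the building blocks `ntZe, ntZd, ntZw, ntCh, ntCC` (Core/NT/Defs.lean) in the symbol classes `SR q Λ₀ n c` (Core/W/SR.lean).
   Known (Core/W/CoefB.lean, CoefC.lean, CoefE.lean), for any background with `hs : BgSm g`, `hc : CoefS q g Λ₀`:
      hc.B : SR 6 (-1) g.B,   hc.wp : SR 5 (-1) g.wp,   hc.ew : SR 6 (-1) (fun p => exp (-g.w p)),   hc.W : SR 6 (-1) g.W,     CoefS.den : SR 6 0 (1 + X B),   CoefS.Z : SR 6 0 g.Z,   CoefS.dd : SR 5 (-1),   CoefS.Bp : SR 5 (-2),   CoefS.wpp : SR 4 (-2),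
      CoefS.ap : SR 5 (-1),   CoefS.app : SR 4 (-2),   CoefS.w1 : SR 5 (-1),    CoefS.cf (j ≠ 2 ∨ k = 2) : SR 4 (-1) (g.cf q j k),    CoefS.cfX k : SR 4 (-1) (fun p => X * g.cf q 2 k p).
   API: sr_add, sr_sub, sr_neg, sr_const_mul, sr_div_const, sr_mul (orders add), sr_pow, sr_le (lower the order: c' ≤ c), sr_of_le (fewer derivatives), sr_dY (n+1 ↦ n, c ↦ c-1), sr_const, sr_y, sr_X (order 1), sr_congr.      MODEL PROOFS: Core/W/CoefD0.lean.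
SKETCHES.
* `nt_sr_Ze`:  Z · (1 + X B̃):  `CoefS.Z` for g, `CoefS.den` for g̃ = bgR q g.          `nt_sr_Zd`:  Z² 𝖽 / 2  (`sr_pow`, `sr_of_le`).         `nt_sr_Zw`: Z w'.
* `nt_sr_Ch`:  `ntCh q g j k = fun p => if j = 2 ∧ k ≠ 2 then X * g.cf q j k p else g.cf q j k p`:   `by_cases h : j = 2 ∧ k ≠ 2`;  `simp only [ntCh, h, if_true]`/`if_neg`;   `CoefS.cfX` resp. `CoefS.cf` (j ≠ 2 ∨ k = 2 by `by_contra`/`tauto`).
* `nt_sr_CC0/1/2`:   `fin_cases i`, evaluate the array (`show SR q Λ₀ 4 (-1) (fun p => …)` — the entry is defeq — or `have e : ntCC q g 0 0 = fun p => … := by funext p; simp [ntCC]`), then term by term.     Orders:  X: +1;  Z, y, constants: 0;   a', w', 𝖽, B, e^{-w}, Zd, Zw: -1;   a'', B', w'', dY Zd, dY Zw: -2  (`sr_dY` from `nt_sr_Zd`, `nt_sr_Zw`: 5 = 4 + 1);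
        `DD g.w = fun p => X * dY (dY g.w) p - y * dY g.w p = X w'' - y w'` (`DD`, `Bg.wpp`, `Bg.wp` are rfl): order -1.      Every entry has order ≥ -1; use `sr_le` to bring all terms to order -1 before adding.
-/
import Claimed.Agent.R324.Core.NT.CfPB
import Claimed.Agent.R324.Core.NT.Defs
import Claimed.Agent.R324.Core.W.CoefE

set_option autoImplicit false

namespace Claimed.Agent.R324.Core

open Set Filter Topology
open scoped ContDiff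

noncomputable section

variable {q Λ₀ : ℝ} {g : Bg}

theorem nt_sr_Ze (h : NtCtx q g Λ₀) : SR q Λ₀ 6 0 (ntZe q g) := by
  have hΛ : Λ₀ ≤ 1 := h.le_one
  have h1 : SR q Λ₀ 6 0 g.Z := CoefS.Z h.hq hΛ h.s h.c
  have h2 : SR q Λ₀ 6 0 (fun p => 1 + Xf p.2 * (bgR q g).B p) := CoefS.den h.hq hΛ h.c'
  have h3 := sr_mul h.hq hΛ h1 h2
  have e : (0 : ℤ) + 0 = 0 := by norm_num
  rw [e] at h3
  exact h3

theorem nt_sr_Zd (hq : 100 ≤ q) (hΛ : Λ₀ ≤ 1) (hs : BgSm g) (hc : CoefS q g Λ₀) : SR q Λ₀ 5 (-1) (ntZd g) := by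
  have hZ : SR q Λ₀ 5 0 g.Z := sr_of_le (by norm_num) (CoefS.Z hq hΛ hs hc)
  have hd : SR q Λ₀ 5 (-1) g.dd := CoefS.dd hq hΛ hc
  have hZ2 : SR q Λ₀ 5 0 (fun p => (g.Z p) ^ 2) := by
    have h := sr_pow hq hΛ hZ 2
    simpa using h
  have h3 : SR q Λ₀ 5 (-1) (fun p => (g.Z p) ^ 2 * g.dd p) :=
    sr_le hq hΛ (by norm_num) (sr_mul hq hΛ hZ2 hd)
  exact sr_div_const hΛ h3 2

theorem nt_sr_Zw (hq : 100 ≤ q) (hΛ : Λ₀ ≤ 1) (hs : BgSm g) (hc : CoefS q g Λ₀) : SR q Λ₀ 5 (-1) (ntZw g) := by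
  have hZ : SR q Λ₀ 5 0 g.Z := sr_of_le (by norm_num) (CoefS.Z hq hΛ hs hc)
  exact sr_le hq hΛ (by norm_num) (sr_mul hq hΛ hZ hc.wp)

theorem nt_sr_Ch (hq : 100 ≤ q) (hΛ : Λ₀ ≤ 1) (hs : BgSm g) (hc : CoefS q g Λ₀) (j k : Fin 3) :
    SR q Λ₀ 4 (-1) (ntCh q g j k) := by
  by_cases h : j = 2 ∧ k ≠ 2
  · have e : ntCh q g j k = fun p => Xf p.2 * g.cf q 2 k p := by
      funext p
      obtain ⟨h1, h2⟩ := h
      subst h1
      unfold ntCh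
      exact if_pos ⟨rfl, h2⟩
    rw [e]
    exact CoefS.cfX hq hΛ hs hc k
  · have e : ntCh q g j k = g.cf q j k := by
      funext p
      simp only [ntCh, if_neg h]
    rw [e]
    exact CoefS.cf hq hΛ hs hc j k (by tauto)

theorem nt_sr_CC0 (hq : 100 ≤ q) (hΛ : Λ₀ ≤ 1) (hs : BgSm g) (hc : CoefS q g Λ₀) (i : Fin 3) :
    SR q Λ₀ 4 (-1) (ntCC q g 0 i) := by
  have hZ : SR q Λ₀ 4 0 g.Z := sr_of_le (by norm_num) (CoefS.Z hq hΛ hs hc)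
  have hd : SR q Λ₀ 4 (-1) g.dd := sr_of_le (by norm_num) (CoefS.dd hq hΛ hc)
  have hB : SR q Λ₀ 4 (-1) g.B := sr_of_le (by norm_num) hc.B
  have hw : SR q Λ₀ 4 (-1) g.wp := sr_of_le (by norm_num) hc.wp
  have ha : SR q Λ₀ 4 (-1) g.ap := sr_of_le (by norm_num) (CoefS.ap hq hΛ hs hc)
  have haa : SR q Λ₀ 4 (-2) g.app := CoefS.app hq hΛ hs hc
  have hX : SR q Λ₀ 4 1 (fun p => Xf p.2) := sr_X hq hΛ
  have hy : SR q Λ₀ 4 0 (fun p => p.2) := sr_y hq hΛ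
  have hZd : SR q Λ₀ 4 (-1) (ntZd g) := sr_of_le (by norm_num) (nt_sr_Zd hq hΛ hs hc)
  have hZw : SR q Λ₀ 4 (-1) (ntZw g) := sr_of_le (by norm_num) (nt_sr_Zw hq hΛ hs hc)
  have hZd' : SR q Λ₀ 4 (-2) (dY (ntZd g)) := by
    have h := sr_dY (n := 4) hq hΛ (nt_sr_Zd hq hΛ hs hc)
    simpa using h
  have hZw' : SR q Λ₀ 4 (-2) (dY (ntZw g)) := by
    have h := sr_dY (n := 4) hq hΛ (nt_sr_Zw hq hΛ hs hc)
    simpa using h
  fin_cases i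
  · have T1 : SR q Λ₀ 4 (-1) (fun p => Xf p.2 * g.app p) :=
      sr_le hq hΛ (by norm_num) (sr_mul hq hΛ hX haa)
    have T2 : SR q Λ₀ 4 (-1) (fun p => p.2 * g.ap p) :=
      sr_le hq hΛ (by norm_num) (sr_mul hq hΛ hy ha)
    have T3 : SR q Λ₀ 4 (-1) (fun p => Xf p.2 * (g.ap p * g.ap p)) :=
      sr_le hq hΛ (by norm_num) (sr_mul hq hΛ hX (sr_mul hq hΛ ha ha))
    have T4 : SR q Λ₀ 4 (-1) (fun p => Xf p.2 * (g.wp p * g.wp p)) :=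
      sr_le hq hΛ (by norm_num) (sr_mul hq hΛ hX (sr_mul hq hΛ hw hw))
    have T5 : SR q Λ₀ 4 (-1) (fun p => g.Z p * (((Xf p.2 * g.app p - p.2 * g.ap p)
        - (Xf p.2 * (g.ap p * g.ap p)) / 2) + Xf p.2 * (g.wp p * g.wp p))) :=
      sr_le hq hΛ (by norm_num) (sr_mul hq hΛ hZ
        (sr_add hΛ (sr_sub hΛ (sr_sub hΛ T1 T2) (sr_div_const hΛ T3 2)) T4))
    have T6 : SR q Λ₀ 4 (-1) g.Z := sr_le hq hΛ (by norm_num) hZ
    have T7 : SR q Λ₀ 4 (-1) (fun p => Xf p.2 * (g.ap p * ntZd g p)) :=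
      sr_le hq hΛ (by norm_num) (sr_mul hq hΛ hX (sr_mul hq hΛ ha hZd))
    have T8 : SR q Λ₀ 4 (-1) (fun p => p.2 * ntZd g p) :=
      sr_le hq hΛ (by norm_num) (sr_mul hq hΛ hy hZd)
    have T9 : SR q Λ₀ 4 (-1) (fun p => Xf p.2 * dY (ntZd g) p) :=
      sr_le hq hΛ (by norm_num) (sr_mul hq hΛ hX hZd')
    have e : ntCC q g 0 0 = fun p => ((((g.Z p * (((Xf p.2 * g.app p - p.2 * g.ap p)
        - (Xf p.2 * (g.ap p * g.ap p)) / 2) + Xf p.2 * (g.wp p * g.wp p))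
        - (2 * q) * g.Z p) - Xf p.2 * (g.ap p * ntZd g p))
        + (2 * (q + 1)) * (p.2 * ntZd g p)) - 2 * (Xf p.2 * dY (ntZd g) p)) / (q + 1) := by
      funext p
      simp only [ntCC, Matrix.cons_val_zero]
      ring
    show SR q Λ₀ 4 (-1) (ntCC q g 0 0)
    rw [e]
    exact sr_div_const hΛ (sr_sub hΛ (sr_add hΛ (sr_sub hΛ (sr_sub hΛ T5
      (sr_const_mul hΛ (2 * q) T6)) T7) (sr_const_mul hΛ (2 * (q + 1)) T8))
      (sr_const_mul hΛ 2 T9)) (q + 1)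
  · have T1 : SR q Λ₀ 4 (-1) (fun p => p.2 * (g.Z p * g.ap p)) :=
      sr_le hq hΛ (by norm_num) (sr_mul hq hΛ hy (sr_mul hq hΛ hZ ha))
    have T2 : SR q Λ₀ 4 (-1) (fun p => p.2 * (g.Z p * (g.Z p * g.dd p))) :=
      sr_le hq hΛ (by norm_num) (sr_mul hq hΛ hy (sr_mul hq hΛ hZ (sr_mul hq hΛ hZ hd)))
    have T3a : SR q Λ₀ 4 (-1) (fun p => (2 * (q - 1)) * g.B p + 2 * q) :=
      sr_add hΛ (sr_const_mul hΛ (2 * (q - 1)) hB) (sr_le hq hΛ (by norm_num) (sr_const (2 * q)))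
    have T3 : SR q Λ₀ 4 (-1) (fun p => g.Z p * ((2 * (q - 1)) * g.B p + 2 * q)) :=
      sr_le hq hΛ (by norm_num) (sr_mul hq hΛ hZ T3a)
    have e : ntCC q g 0 1 = fun p => (((-q) * (p.2 * (g.Z p * g.ap p))
        + (2 * q) * (p.2 * (g.Z p * (g.Z p * g.dd p))))
        - q * (g.Z p * ((2 * (q - 1)) * g.B p + 2 * q))) / (q + 1) := by
      funext p
      simp only [ntCC, Matrix.cons_val_zero, Matrix.cons_val_one]
      ring
    show SR q Λ₀ 4 (-1) (ntCC q g 0 1)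
    rw [e]
    exact sr_div_const hΛ (sr_sub hΛ (sr_add hΛ (sr_const_mul hΛ (-q) T1)
      (sr_const_mul hΛ (2 * q) T2)) (sr_const_mul hΛ q T3)) (q + 1)
  · have T1 : SR q Λ₀ 4 (-1) (fun p => Xf p.2 * (g.ap p * ntZw g p)) :=
      sr_le hq hΛ (by norm_num) (sr_mul hq hΛ hX (sr_mul hq hΛ ha hZw))
    have T2 : SR q Λ₀ 4 (-1) (fun p => p.2 * ntZw g p) :=
      sr_le hq hΛ (by norm_num) (sr_mul hq hΛ hy hZw)
    have T3 : SR q Λ₀ 4 (-1) (fun p => Xf p.2 * dY (ntZw g) p) :=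
      sr_le hq hΛ (by norm_num) (sr_mul hq hΛ hX hZw')
    have e : ntCC q g 0 2 = fun p => ((Xf p.2 * (g.ap p * ntZw g p)
        - (2 * (q + 1)) * (p.2 * ntZw g p)) + 2 * (Xf p.2 * dY (ntZw g) p)) / (q + 1) := by
      funext p
      simp only [ntCC, Matrix.cons_val_zero, Matrix.cons_val_two, Matrix.tail_cons, Matrix.head_cons]
      ring
    show SR q Λ₀ 4 (-1) (ntCC q g 0 2)
    rw [e]
    exact sr_div_const hΛ (sr_add hΛ (sr_sub hΛ T1 (sr_const_mul hΛ (2 * (q + 1)) T2))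
      (sr_const_mul hΛ 2 T3)) (q + 1)

theorem nt_sr_CC1 (hq : 100 ≤ q) (hΛ : Λ₀ ≤ 1) (hs : BgSm g) (hc : CoefS q g Λ₀) (i : Fin 3) :
    SR q Λ₀ 4 (-1) (ntCC q g 1 i) := by
  have hZ : SR q Λ₀ 4 0 g.Z := sr_of_le (by norm_num) (CoefS.Z hq hΛ hs hc)
  have hw : SR q Λ₀ 4 (-1) g.wp := sr_of_le (by norm_num) hc.wp
  have hww : SR q Λ₀ 4 (-2) g.wpp := CoefS.wpp hq hΛ hc
  have hew : SR q Λ₀ 4 (-1) (fun p => Real.exp (-g.w p)) := sr_of_le (by norm_num) hc.ew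
  have hX : SR q Λ₀ 4 1 (fun p => Xf p.2) := sr_X hq hΛ
  have hy : SR q Λ₀ 4 0 (fun p => p.2) := sr_y hq hΛ
  have hZd : SR q Λ₀ 4 (-1) (ntZd g) := sr_of_le (by norm_num) (nt_sr_Zd hq hΛ hs hc)
  have hZw : SR q Λ₀ 4 (-1) (ntZw g) := sr_of_le (by norm_num) (nt_sr_Zw hq hΛ hs hc)
  fin_cases i
  · have T1 : SR q Λ₀ 4 (-1) (fun p => Xf p.2 * g.wpp p) :=
      sr_le hq hΛ (by norm_num) (sr_mul hq hΛ hX hww)
    have T2 : SR q Λ₀ 4 (-1) (fun p => p.2 * g.wp p) :=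
      sr_le hq hΛ (by norm_num) (sr_mul hq hΛ hy hw)
    have T3 : SR q Λ₀ 4 (-1) (fun p => g.Z p * (Xf p.2 * g.wpp p - p.2 * g.wp p)) :=
      sr_le hq hΛ (by norm_num) (sr_mul hq hΛ hZ (sr_sub hΛ T1 T2))
    have T4 : SR q Λ₀ 4 (-1) (fun p => Xf p.2 * (g.wp p * ntZd g p)) :=
      sr_le hq hΛ (by norm_num) (sr_mul hq hΛ hX (sr_mul hq hΛ hw hZd))
    have e : ntCC q g 1 0 = fun p => g.Z p * (Xf p.2 * g.wpp p - p.2 * g.wp p)
        - Xf p.2 * (g.wp p * ntZd g p) := by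
      funext p
      simp only [ntCC, DD, Bg.wpp, Bg.wp, Matrix.cons_val_zero, Matrix.cons_val_one]
      ring
    show SR q Λ₀ 4 (-1) (ntCC q g 1 0)
    rw [e]
    exact sr_sub hΛ T3 T4
  · have T1 : SR q Λ₀ 4 (-1) (fun p => p.2 * ntZw g p) :=
      sr_le hq hΛ (by norm_num) (sr_mul hq hΛ hy hZw)
    have e : ntCC q g 1 1 = fun p => (-q) * (p.2 * ntZw g p) := by
      funext p
      simp only [ntCC, Matrix.cons_val_zero, Matrix.cons_val_one]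
      ring
    show SR q Λ₀ 4 (-1) (ntCC q g 1 1)
    rw [e]
    exact sr_const_mul hΛ (-q) T1
  · have T1 : SR q Λ₀ 4 (-1) (fun p => Xf p.2 * (g.Z p * (g.wp p * g.wp p))) :=
      sr_le hq hΛ (by norm_num) (sr_mul hq hΛ hX (sr_mul hq hΛ hZ (sr_mul hq hΛ hw hw)))
    have e : ntCC q g 1 2 = fun p => (-2) * Real.exp (-g.w p)
        + Xf p.2 * (g.Z p * (g.wp p * g.wp p)) := by
      funext p
      simp only [ntCC, Matrix.cons_val_zero, Matrix.cons_val_one, Matrix.cons_val_two, Matrix.head_cons,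
        Matrix.tail_cons]
      ring
    show SR q Λ₀ 4 (-1) (ntCC q g 1 2)
    rw [e]
    exact sr_add hΛ (sr_const_mul hΛ (-2) hew) T1

theorem nt_sr_CC2 (hq : 100 ≤ q) (hΛ : Λ₀ ≤ 1) (hs : BgSm g) (hc : CoefS q g Λ₀) (i : Fin 3) :
    SR q Λ₀ 4 (-1) (ntCC q g 2 i) := by
  have hZ : SR q Λ₀ 4 0 g.Z := sr_of_le (by norm_num) (CoefS.Z hq hΛ hs hc)
  have hd : SR q Λ₀ 4 (-1) g.dd := sr_of_le (by norm_num) (CoefS.dd hq hΛ hc)
  have hB : SR q Λ₀ 4 (-1) g.B := sr_of_le (by norm_num) hc.B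
  have hBp : SR q Λ₀ 4 (-2) g.Bp := sr_of_le (by norm_num) (CoefS.Bp hq hΛ hc)
  have hw : SR q Λ₀ 4 (-1) g.wp := sr_of_le (by norm_num) hc.wp
  have ha : SR q Λ₀ 4 (-1) g.ap := sr_of_le (by norm_num) (CoefS.ap hq hΛ hs hc)
  have haa : SR q Λ₀ 4 (-2) g.app := CoefS.app hq hΛ hs hc
  have hX : SR q Λ₀ 4 1 (fun p => Xf p.2) := sr_X hq hΛ
  have hy : SR q Λ₀ 4 0 (fun p => p.2) := sr_y hq hΛ
  have hZd : SR q Λ₀ 4 (-1) (ntZd g) := sr_of_le (by norm_num) (nt_sr_Zd hq hΛ hs hc)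
  have hZw : SR q Λ₀ 4 (-1) (ntZw g) := sr_of_le (by norm_num) (nt_sr_Zw hq hΛ hs hc)
  have hZd' : SR q Λ₀ 4 (-2) (dY (ntZd g)) := by
    have h1 : SR q Λ₀ (4 + 1) (-1) (ntZd g) := nt_sr_Zd hq hΛ hs hc
    exact sr_le hq hΛ (by norm_num) (sr_dY hq hΛ h1)
  have hZw' : SR q Λ₀ 4 (-2) (dY (ntZw g)) := by
    have h1 : SR q Λ₀ (4 + 1) (-1) (ntZw g) := nt_sr_Zw hq hΛ hs hc
    exact sr_le hq hΛ (by norm_num) (sr_dY hq hΛ h1)
  fin_cases i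
  · have T1 : SR q Λ₀ 4 (-2) (fun p => g.app p - (g.ap p * g.ap p) / 2 + g.wp p * g.wp p) :=
      sr_add hΛ (sr_sub hΛ haa (sr_div_const hΛ (sr_le hq hΛ (by norm_num) (sr_mul hq hΛ ha ha)) 2))
        (sr_le hq hΛ (by norm_num) (sr_mul hq hΛ hw hw))
    have T2 : SR q Λ₀ 4 (-2) (fun p => g.Z p * (g.app p - (g.ap p * g.ap p) / 2 + g.wp p * g.wp p)) :=
      sr_le hq hΛ (by norm_num) (sr_mul hq hΛ hZ T1)
    have T3 : SR q Λ₀ 4 (-2) (fun p => g.Z p * (g.dd p * ntZd g p)) :=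
      sr_le hq hΛ (by norm_num) (sr_mul hq hΛ hZ (sr_mul hq hΛ hd hZd))
    have T4 := sr_sub hΛ (sr_sub hΛ T2 T3) (sr_const_mul hΛ 2 hZd')
    have T5 := sr_le hq hΛ (c' := -1) (by norm_num) (sr_mul hq hΛ hX T4)
    have e : ntCC q g 2 0 = fun p => Xf p.2 * (g.Z p * (g.app p - (g.ap p * g.ap p) / 2 + g.wp p * g.wp p)
        - g.Z p * (g.dd p * ntZd g p) - 2 * dY (ntZd g) p) := by
      funext p
      simp only [ntCC, Matrix.cons_val_zero, Matrix.cons_val]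
      ring
    show SR q Λ₀ 4 (-1) (ntCC q g 2 0)
    rw [e]
    exact T5
  · have T1 : SR q Λ₀ 4 (-1) (fun p => g.B p + 1) :=
      sr_add hΛ hB (sr_le hq hΛ (by norm_num) (sr_const 1))
    have T2 : SR q Λ₀ 4 (-2) (fun p => 2 * (g.B p * (g.B p + 1)) + p.2 * g.Bp p) :=
      sr_add hΛ (sr_const_mul hΛ 2 (sr_le hq hΛ (by norm_num) (sr_mul hq hΛ hB T1)))
        (sr_le hq hΛ (by norm_num) (sr_mul hq hΛ hy hBp))
    have T3 : SR q Λ₀ 4 (-2) (fun p => g.Z p * (g.Z p * (2 * (g.B p * (g.B p + 1)) + p.2 * g.Bp p))) :=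
      sr_le hq hΛ (by norm_num) (sr_mul hq hΛ hZ (sr_mul hq hΛ hZ T2))
    have T5 := sr_le hq hΛ (c' := -1) (by norm_num) (sr_mul hq hΛ hX (sr_const_mul hΛ (q - 1) T3))
    have e : ntCC q g 2 1 = fun p => Xf p.2 * ((q - 1) *
        (g.Z p * (g.Z p * (2 * (g.B p * (g.B p + 1)) + p.2 * g.Bp p)))) := by
      funext p
      simp only [ntCC, Matrix.cons_val_one, Matrix.cons_val]
      ring
    show SR q Λ₀ 4 (-1) (ntCC q g 2 1)
    rw [e]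
    exact T5
  · have T3 : SR q Λ₀ 4 (-2) (fun p => g.Z p * (g.dd p * ntZw g p)) :=
      sr_le hq hΛ (by norm_num) (sr_mul hq hΛ hZ (sr_mul hq hΛ hd hZw))
    have T4 := sr_add hΛ T3 (sr_const_mul hΛ 2 hZw')
    have T5 := sr_le hq hΛ (c' := -1) (by norm_num) (sr_mul hq hΛ hX T4)
    have e : ntCC q g 2 2 = fun p => Xf p.2 * (g.Z p * (g.dd p * ntZw g p) + 2 * dY (ntZw g) p) := by
      funext p
      simp only [ntCC, Matrix.cons_val]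
      ring
    show SR q Λ₀ 4 (-1) (ntCC q g 2 2)
    rw [e]
    exact T5

theorem nt_sr_CC (hq : 100 ≤ q) (hΛ : Λ₀ ≤ 1) (hs : BgSm g) (hc : CoefS q g Λ₀) (j i : Fin 3) :
    SR q Λ₀ 4 (-1) (ntCC q g j i) := by
  fin_cases j
  · exact nt_sr_CC0 hq hΛ hs hc i
  · exact nt_sr_CC1 hq hΛ hs hc i
  · exact nt_sr_CC2 hq hΛ hs hc i

end

end Claimed.Agent.R324.Core
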