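/-
Row 324 (S0582), PDE core, module NT (term calculus of `NN`; architect helper762).   File CfSL: SIZE of the coefficients of the commutator `[∂_t, L̃]`:  `ntMu q g = ∂_t Z̃ (1 + X B̃)`,  `ntL0 q g` (Core/NT/Defs.lean).
   Classes: `TS q (DW Λ₀) m n (wt q a b c)` (Core/AP/Cal), `SR q Λ₀ n c = TS q (DW Λ₀) 2 n (wt q 0 0 c)`;   `TS.dT_wt hq hD : TS (m+1) n (wt a b c) f → TS m n (wt a (b-1) c) (dT f)`,  `TS.mul_wt`, `TS.add`, `TS.sub`, `TS.neg`, `TS.const_mul`, `TS.of_le`, `TS.le_wt`, `TS.congr`.    hD := domOK_DW h.le_one.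
SKETCHES.     g̃ = bgR q g, `h.s' : BgSm g̃`, `h.c' : CoefS q g̃ Λ₀`.
* `nt_ts_Mu`:   ∂_t Z̃ ∈ TS 1 4 (wt 0 (-1) 0)  (`TS.dT_wt` of `CoefS.Z`, 2 = 1 + 1, `sr_of_le`),   1 + X B̃ ∈ SR 4 0 ⊂ TS 1 4 (wt 0 0 0)  (`CoefS.den`, `TS.of_le`);   `TS.mul_wt`  (0+0, -1+0, 0+0: `by simpa using`).
* `nt_ts_L0`:   entries:  dw = ∂_t 𝗐̃₁ - μ 𝗐̃₁,   dc j k = ∂_t ĉ̃_jk - μ ĉ̃_jk   (ĉ̃ = ntCh q g̃),   2 y dw,  0.       ∂_t of an SR 4 (-1) symbol is in TS 1 4 (wt 0 (-1) (-1));   μ · (SR 4 (-1)) ∈ wt 0 (-1) (-1).      y ∈ SR 4 0.     zero entries: `TS.const_mul hD 0 (any element)` + `TS.congr`, or `⟨sm_const 0, TY.of_ev_zero ..⟩`.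
      Array: as in `nt_sm_L0` (Core/NT/Smooth.lean) / Core/NT/CfS1.lean.
-/
import Claimed.Agent.R324.Core.NT.CfS
import Claimed.Agent.R324.Core.NT.Smooth

set_option autoImplicit false

namespace Claimed.Agent.R324.Core

open Set Filter Topology
open scoped ContDiff

noncomputable section

variable {q Λ₀ : ℝ} {g : Bg}

theorem nt_ts_Mu (h : NtCtx q g Λ₀) : TS q (DW Λ₀) 1 4 (wt q 0 (-1) 0) (ntMu q g) := by
  have hD := domOK_DW h.le_one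
  have hZ : TS q (DW Λ₀) (1 + 1) 4 (wt q 0 0 0) (bgR q g).Z :=
    sr_of_le (by norm_num) (h.c'.Z h.hq h.le_one h.s')
  have h1 : TS q (DW Λ₀) 1 4 (wt q 0 (0 - 1) 0) (dT (bgR q g).Z) := TS.dT_wt h.hq hD hZ
  have h2 : TS q (DW Λ₀) 1 4 (wt q 0 0 0) (fun p => 1 + Xf p.2 * (bgR q g).B p) :=
    TS.of_le (by norm_num) (by norm_num) (h.c'.den h.hq h.le_one)
  have h3 := TS.mul_wt h.hq hD h1 h2
  have h4 : TS q (DW Λ₀) 1 4 (wt q 0 (-1) 0)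
      (fun p => dT (bgR q g).Z p * (1 + Xf p.2 * (bgR q g).B p)) := by simpa using h3
  exact h4

/-- `∂_t f - μ f` for a symbol `f` of order `-1`. -/
theorem nt_ts_L0_aux (h : NtCtx q g Λ₀) {f : Fn} (hf : SR q Λ₀ 4 (-1) f) :
    TS q (DW Λ₀) 1 4 (wt q 0 (-1) (-1)) (fun p => dT f p - ntMu q g p * f p) := by
  have hD := domOK_DW h.le_one
  have hf' : TS q (DW Λ₀) (1 + 1) 4 (wt q 0 0 (-1)) f := hf
  have h1 : TS q (DW Λ₀) 1 4 (wt q 0 (0 - 1) (-1)) (dT f) := TS.dT_wt h.hq hD hf'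
  have h1' : TS q (DW Λ₀) 1 4 (wt q 0 (-1) (-1)) (dT f) := by simpa using h1
  have h2 : TS q (DW Λ₀) 1 4 (wt q 0 0 (-1)) f := TS.of_le (by norm_num) le_rfl hf
  have h3 := TS.mul_wt h.hq hD (nt_ts_Mu h) h2
  have h3' : TS q (DW Λ₀) 1 4 (wt q 0 (-1) (-1)) (fun p => ntMu q g p * f p) := by simpa using h3
  exact TS.sub hD h1' h3'

theorem nt_ts_L0 (h : NtCtx q g Λ₀) (j : Fin 3) (k : Fin 6) : TS q (DW Λ₀) 1 4 (wt q 0 (-1) (-1)) (ntL0 q g j k) := by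
  have hD := domOK_DW h.le_one
  have hw : TS q (DW Λ₀) 1 4 (wt q 0 (-1) (-1))
      (fun p => dT (bgR q g).w1 p - ntMu q g p * (bgR q g).w1 p) :=
    nt_ts_L0_aux h (sr_of_le (by norm_num) (h.c'.w1 h.hq h.le_one h.s'))
  have hc : ∀ j k : Fin 3, TS q (DW Λ₀) 1 4 (wt q 0 (-1) (-1))
      (fun p => dT (ntCh q (bgR q g) j k) p - ntMu q g p * ntCh q (bgR q g) j k p) :=
    fun j k => nt_ts_L0_aux h (nt_sr_Ch h.hq h.le_one h.s' h.c' j k)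
  have hnw := TS.neg hD hw
  have h0 : TS q (DW Λ₀) 1 4 (wt q 0 (-1) (-1)) (fun _ => (0 : ℝ)) := by
    have := TS.const_mul hD 0 hw
    simpa using this
  have hy : TS q (DW Λ₀) 1 4 (wt q 0 0 0) (fun p => 2 * p.2) :=
    TS.of_le (by norm_num) le_rfl (sr_const_mul h.le_one 2 (sr_y (n := 4) h.hq h.le_one))
  have hyw : TS q (DW Λ₀) 1 4 (wt q 0 (-1) (-1))
      (fun p => 2 * p.2 * (dT (bgR q g).w1 p - ntMu q g p * (bgR q g).w1 p)) := by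
    have := TS.mul_wt h.hq hD hy hw
    simpa using this
  fin_cases j <;> fin_cases k
  · exact hc 0 0
  · exact hc 0 1
  · exact hc 0 2
  · exact hnw
  · exact h0
  · exact h0
  · exact hc 1 0
  · exact hc 1 1
  · exact hc 1 2
  · exact h0
  · exact hnw
  · exact h0
  · exact hc 2 0
  · exact hc 2 1
  · exact TS.add hD (hc 2 2) hyw
  · exact h0
  · exact h0
  · exact hnw

end

end Claimed.Agent.R324.Core
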