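/-
Row 324 (S0582), PDE core, module NT (term calculus of `NN`; architect helper762).   File CfZone: the ZONE where `g ≠ g̃ = bgR q g`:    `3/4 ≤ y`,  `Λ √Λ ≤ X ≤ 2 √Λ`   (Λ = -t, X = Xf y = 1 - y²).
   In the zone  𝔍 = JJ q t y = Θ⁸ (r̂²)^(-α/2) ≤ 2¹⁴ Λ³;    outside of the (closed) zone  `chiC = 0` near `y`, hence `g̃ = g` near y and the coefficients of the linear terms of `NN` vanish near y.
SKETCHES.
* `nt_zone_JJ`:   α = alF q = bAl q ∈ (2,3) (`bAl_bounds`, q ≥ 100; see Core/AP/Cal/WtB.lean `JJ_le` for the handling of the real powers).    y ≥ 3/4 ≥ 1/2:  Xt y = Xf y =: X (`Xt_eq`).   0 < Λ ≤ 1,  0 < Λ√Λ ≤ X ≤ 1.    r̂² = ell2 + X ≥ X  (ell2 ≥ 0),  so (r̂²)^(-α/2) ≤ X^(-α/2)  (`Real.rpow_le_rpow_of_nonpos`/`Real.rpow_le_rpow_of_exponent_nonpos`).      Θ = Λ + X.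
      Case X ≤ Λ:  Θ ≤ 2Λ;   X^(-α/2) ≤ (Λ√Λ)^(-α/2) ≤ (Λ√Λ)^(-3/2)  [Λ√Λ ≤ 1, -α/2 ≥ -3/2]  and (Λ√Λ)^(3/2) ≥ Λ³ [ (Λ√Λ)^(3/2) = Λ^(9/4) ≥ Λ³ ]… simpler:  Λ√Λ ≥ Λ² (√Λ ≥ Λ), so X^(-α/2) ≤ (Λ²)^(-α/2) = Λ^(-α) ≤ Λ^(-3);   𝔍 ≤ 2⁸ Λ⁸ Λ^(-3) = 2⁸ Λ⁵ ≤ 2⁸ Λ³.
      Case X ≥ Λ:  Θ ≤ 2X;   X^(-α/2) ≤ X^(-2)  [X ≤ 1, -α/2 ≥ -2];     𝔍 ≤ 2⁸ X⁸ X^(-2) = 2⁸ X⁶ ≤ 2⁸ (2√Λ)⁶ = 2¹⁴ Λ³   ((√Λ)⁶ = Λ³: `Real.sq_sqrt`).
* `nt_zone_out`:  ¬ NtZone t y  ⟹  y < 3/4  ∨  X < Λ√Λ  ∨  2√Λ < X  (`not_and_or`, `not_le`);   each is an open condition in y (`pr_continuous_Xf`, `gt_mem_nhds`, `lt_mem_nhds`; cf. `ConeZ.eventually`, Core/PR/Germ.lean) which implies chiC (t,z) = 0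
      (`chiC_eq_zero_of_y`, `chiC_eq_zero_of_X_le ht`, `chiC_eq_zero_of_le_X ht`, Core/PR/SmR.lean);    `bgR_eqAt_of_chiC_zero`.
* `nt_Ze1_out`, `nt_C0_out`:   E := nt_zone_out ..;  `E.eventually : ∀ᶠ z in 𝓝 y, BgEqAt (bgR q g) g t z`.     At such z:  B̃ = B (`BgEqAt.B`), so ζ = Z (1 + X B) = 1 (`hg.Z_mul ht z`);   𝗐̃₁ = 𝗐₁ (`BgEqAt.w1`),  c̃_jk = c_jk (`BgEqAt.cf`), hence `ntCh q g̃ j k (t,z) = ntCh q g j k (t,z)` (unfold ntCh) and every entry of `ntC0` is 0 at (t,z)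
      (fin_cases j <;> fin_cases k <;> simp [ntC0, …]; or first show dw = 0 and dc j k = 0).     So the slice is `=ᶠ[𝓝 y] fun _ => 0`:   `ntBk_congr` + `ntBk_zero` (Core/NT/Basic.lean).
-/
import Claimed.Agent.R324.Core.NT.Defs
import Claimed.Agent.R324.Core.PR.Germ
import Claimed.Agent.R324.Core.AP.Cal.WtB

set_option autoImplicit false

namespace Claimed.Agent.R324.Core

open Set Filter Topology
open scoped ContDiff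

noncomputable section

/-- the closed zone which contains the support of `chiC (t, ·)`. -/
def NtZone (t y : ℝ) : Prop := 3 / 4 ≤ y ∧ (-t) * Real.sqrt (-t) ≤ Xf y ∧ Xf y ≤ 2 * Real.sqrt (-t)

/-- hygiene. -/
theorem core_nt_zone_hygiene : True := by
  have := @NtZone.eq_1
  trivial

variable {q t y : ℝ} {g : Bg}

theorem nt_zone_JJ (hq : 100 ≤ q) (ht : t ∈ Ico (-1 : ℝ) 0) (hy : y ∈ Icc (-1 : ℝ) 1) (h : NtZone t y) :
    JJ q t y ≤ 2 ^ 14 * (-t) ^ 3 := by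
  have hα := bAl_bounds hq
  obtain ⟨hy34, hz1, hz2⟩ := h
  have hXt : Xt y = Xf y := Xt_eq (by linarith)
  unfold JJ alF Th rh2
  rw [hXt]
  have hΛ0 : 0 < -t := by linarith [ht.2]
  have hΛ1 : -t ≤ 1 := by linarith [ht.1]
  have hell : 0 < ell2 q t := by
    unfold ell2 lam2
    have h1 : 0 < (-t) ^ (2 * gaF q) := Real.rpow_pos_of_pos hΛ0 _
    have h2 : 0 < (q - 1) / 100 := by
      have : 0 < q - 1 := by linarith
      positivity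
    exact mul_pos h2 h1
  have hX1 : Xf y ≤ 1 := by
    unfold Xf
    nlinarith [sq_nonneg y]
  generalize ell2 q t = ℓ at hell
  generalize Xf y = X at hz1 hz2 hX1
  generalize hΛ : -t = Λ at *
  have hs0 : 0 < Real.sqrt Λ := Real.sqrt_pos.2 hΛ0
  have hss : Real.sqrt Λ ^ 2 = Λ := Real.sq_sqrt hΛ0.le
  have hs1 : Real.sqrt Λ ≤ 1 := Real.sqrt_le_one.2 hΛ1
  have hsΛ : Λ ≤ Real.sqrt Λ := by nlinarith
  have hXpos : 0 < X := lt_of_lt_of_le (mul_pos hΛ0 hs0) hz1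
  have hexp : -(bAl q) / 2 ≤ 0 := by linarith
  have e1 : (ℓ + X) ^ (-(bAl q) / 2) ≤ X ^ (-(bAl q) / 2) :=
    Real.rpow_le_rpow_of_nonpos hXpos (by linarith) hexp
  have hR0 : 0 ≤ (ℓ + X) ^ (-(bAl q) / 2) := Real.rpow_nonneg (by linarith) _
  rcases le_total Λ X with hcase | hcase
  · have e2 : (Λ + X) ^ 8 ≤ (2 * X) ^ 8 := pow_le_pow_left₀ (by linarith) (by linarith) 8
    have e3 : X ^ (-(bAl q) / 2) ≤ X ^ (-(2 : ℝ)) :=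
      Real.rpow_le_rpow_of_exponent_ge hXpos hX1 (by linarith)
    have e4 : X ^ 8 * X ^ (-(2 : ℝ)) = X ^ 6 := by
      rw [← Real.rpow_natCast X 8, ← Real.rpow_add hXpos, ← Real.rpow_natCast X 6]
      norm_num
    have e5 : X ^ 6 ≤ (2 * Real.sqrt Λ) ^ 6 := pow_le_pow_left₀ hXpos.le hz2 6
    have e6 : (2 * Real.sqrt Λ) ^ 6 = 2 ^ 6 * Λ ^ 3 := by
      have : (2 * Real.sqrt Λ) ^ 6 = 2 ^ 6 * (Real.sqrt Λ ^ 2) ^ 3 := by ring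
      rw [this, hss]
    calc (Λ + X) ^ 8 * (ℓ + X) ^ (-(bAl q) / 2)
        ≤ (2 * X) ^ 8 * X ^ (-(2 : ℝ)) := mul_le_mul e2 (e1.trans e3) hR0 (by positivity)
      _ = 2 ^ 8 * (X ^ 8 * X ^ (-(2 : ℝ))) := by ring
      _ = 2 ^ 8 * X ^ 6 := by rw [e4]
      _ ≤ 2 ^ 8 * (2 ^ 6 * Λ ^ 3) := by rw [← e6]; gcongr
      _ = 2 ^ 14 * Λ ^ 3 := by ring
  · have e2 : (Λ + X) ^ 8 ≤ (2 * Λ) ^ 8 := pow_le_pow_left₀ (by linarith) (by linarith) 8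
    have hΛ2 : Λ ^ 2 ≤ X := by nlinarith
    have e3 : X ^ (-(bAl q) / 2) ≤ (Λ ^ 2) ^ (-(bAl q) / 2) :=
      Real.rpow_le_rpow_of_nonpos (by positivity) hΛ2 hexp
    have e4 : (Λ ^ 2) ^ (-(bAl q) / 2) = Λ ^ (-(bAl q)) := by
      rw [← Real.rpow_natCast Λ 2, ← Real.rpow_mul hΛ0.le]
      congr 1
      push_cast
      ring
    have e5 : Λ ^ (-(bAl q)) ≤ Λ ^ (-(3 : ℝ)) :=
      Real.rpow_le_rpow_of_exponent_ge hΛ0 hΛ1 (by linarith)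
    have e6 : Λ ^ 8 * Λ ^ (-(3 : ℝ)) = Λ ^ 5 := by
      rw [← Real.rpow_natCast Λ 8, ← Real.rpow_add hΛ0, ← Real.rpow_natCast Λ 5]
      norm_num
    have e7 : Λ ^ 5 ≤ Λ ^ 3 := pow_le_pow_of_le_one hΛ0.le hΛ1 (by norm_num)
    have e8 : 0 ≤ Λ ^ 3 := by positivity
    calc (Λ + X) ^ 8 * (ℓ + X) ^ (-(bAl q) / 2)
        ≤ (2 * Λ) ^ 8 * Λ ^ (-(3 : ℝ)) :=
          mul_le_mul e2 (e1.trans (e3.trans (e4 ▸ e5))) hR0 (by positivity)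
      _ = 2 ^ 8 * (Λ ^ 8 * Λ ^ (-(3 : ℝ))) := by ring
      _ = 2 ^ 8 * Λ ^ 5 := by rw [e6]
      _ ≤ 2 ^ 14 * Λ ^ 3 := by nlinarith

theorem nt_zone_out (q : ℝ) (g : Bg) (ht : t < 0) (h : ¬ NtZone t y) : BgEqAt (bgR q g) g t y := by
  unfold NtZone at h
  rw [not_and_or, not_and_or, not_le, not_le, not_le] at h
  rcases h with h | h | h
  · exact bgR_eqAt_of_y q g t h
  · exact bgR_eqAt_of_X_lt q g ht h
  · exact bgR_eqAt_of_lt_X q g ht h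

theorem nt_Ze1_out (q : ℝ) (hg : BgSm g) (ht : t < 0) (h : ¬ NtZone t y) :
    ntBk (sl (fun p => ntZe q g p - 1) t) y = 0 := by
  have E := nt_zone_out q g ht h
  have h1 : sl (fun p => ntZe q g p - 1) t =ᶠ[𝓝 y] fun _ => 0 := by
    filter_upwards [E.eventually] with z hz
    show ntZe q g (t, z) - 1 = 0
    unfold ntZe
    rw [hz.B]
    have := hg.Z_mul ht z
    simp only []
    linarith
  rw [ntBk_congr h1, ntBk_zero]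

theorem nt_C0_out (q : ℝ) (hg : BgSm g) (ht : t < 0) (h : ¬ NtZone t y) (j : Fin 3) (k : Fin 6) :
    ntBk (sl (ntC0 q g j k) t) y = 0 := by
  have E := nt_zone_out q g ht h
  have h1 : sl (ntC0 q g j k) t =ᶠ[𝓝 y] fun _ => 0 := by
    filter_upwards [E.eventually] with z hz
    show ntC0 q g j k (t, z) = 0
    have hze : ntZe q g (t, z) = 1 := by
      unfold ntZe
      rw [hz.B]
      exact hg.Z_mul ht z
    have hw : (bgR q g).w1 (t, z) = g.w1 (t, z) := hz.w1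
    have hch : ∀ j k, ntCh q (bgR q g) j k (t, z) = ntCh q g j k (t, z) := by
      intro j k
      unfold ntCh
      rw [hz.cf]
    unfold ntC0
    simp only [hze, hw, hch, one_mul, sub_self, neg_zero, mul_zero, add_zero]
    fin_cases j <;> fin_cases k <;> simp
  rw [ntBk_congr h1, ntBk_zero]

end

end Claimed.Agent.R324.Core
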