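/-
Row 324 (S0582), PDE core, module NT (term calculus of `NN`; architect helper762).   File Cf: **the bounds of the coefficients** (`NTCoef`, Core/NT/CfDefs.lean), ASSEMBLY of Core/NT/Cf*.lean.
   size:       symbol classes of the arrays (CfS1.lean: `nt_sr_C1, nt_sr_C2, nt_sr_C5, nt_sr_C0`;  CfS.lean: `nt_sr_Ze`;  CfSL.lean: `nt_ts_Mu, nt_ts_L0`)  +  conversion to `[[·]]` (CfBk.lean)
   smallness:  `nt_ts_C0, nt_ts_Ze1` (CfPE.lean: order 𝔍)  +  zone dichotomy (CfZone.lean).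
SKETCHES.    hq := h.hq, hΛ := h.le_one, hD := domOK_DW hΛ.
* `nt_cf_size`:   for each entry `nt_bk_sr1`/`nt_bk_sr0` gives a constant;   uniform constant over the finite index sets by `nt_fin_unif` (index type e.g. `Fin 3 × Fin 7 × Fin 6`; the property "∀ t y, .. ≤ C / .. ∧ .. ≤ C / .. / .." is monotone in C because rh2, Th > 0: `rh2_pos_dom`, `Th_pos_dom`, `div_le_div_of_nonneg_right`);
      K := sum of the six constants (each bound is monotone in the constant).       ζ - 1 ∈ SR 4 0: `sr_sub hΛ (sr_of_le .. (nt_sr_Ze h)) (sr_const 1)`.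
* `nt_cf_small`:  `nt_bk_of_ts hq hD (nt_ts_C0 h j k) (by norm_num)`:  [[c0 j k]] ≤ C wt q 1 8 (-1) (t,y) = C 𝔍 / r̂²   (unfold wt JJ alF; `zpow_neg_one`; or `wt_JJ` + `wt_div_rh2`);   uniform C by `nt_fin_unif`.
      `by_cases hz : NtZone t y`:   in the zone 𝔍 ≤ 2¹⁴ Λ³ (`nt_zone_JJ`; t ∈ Ico (-1) 0 since Λ₀ ≤ 1);    outside [[·]] = 0 (`nt_C0_out`, `nt_Ze1_out`) ≤ K Λ³/r̂².       K := 2¹⁴ (C + C').
* `nt_cf_comm`:   `nt_bk_of_ts` with `nt_ts_L0`, `nt_ts_Mu`;    wt q 0 (-1) (-1) (t,y) = 1/Θ/r̂²,   wt q 0 (-1) 0 = 1/Θ   (`wc_coefB_wtT`; unfold wt; `zpow_neg_one`).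
* `nt_coef_of_ctx`:   K := 1 + K₁ + K₂ + K₃.    The fields of `NTc.Bd` for `(ntCF q g).sl t`, `(ntCF q g).dT.sl t`, `(ntCL q g).sl t` are, by `rfl` (unfold `NTcF.sl, NTcF.dT, ntCF, ntCL`), statements about `ntBk (sl (ntC1 q g j m k) t) y`, `ntBk (sl (dT (ntC1 q g j m k)) t) y`, …;
      the zero arrays of `ntCL`:  `sl (fun _ => 0) t = fun _ => 0`, `ntBk_zero`, and the right sides are ≥ 0.      `K * 1 / ρ`, `K * 1`: `mul_one`.
-/
import Claimed.Agent.R324.Core.NT.CfDefs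
import Claimed.Agent.R324.Core.NT.CfBk
import Claimed.Agent.R324.Core.NT.CfS1
import Claimed.Agent.R324.Core.NT.CfSL
import Claimed.Agent.R324.Core.NT.CfPE
import Claimed.Agent.R324.Core.NT.CfZone

set_option autoImplicit false

namespace Claimed.Agent.R324.Core

open Set Filter Topology

noncomputable section

variable {q Λ₀ : ℝ} {g : Bg}

/-- a uniform constant for a finite family of symbols of order `-1`. -/
theorem nt_cf_fam1 (hq : 100 ≤ q) (hΛ : Λ₀ ≤ 1) {ι : Type} [Finite ι] (F : ι → Fn) (hF : ∀ i, SR q Λ₀ 4 (-1) (F i)) :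
    ∃ C : ℝ, 0 ≤ C ∧ ∀ i, ∀ t ∈ Ico (-Λ₀) 0, ∀ y ∈ Icc (-1 : ℝ) 1,
      ntBk (sl (F i) t) y ≤ C / rh2 q t y ∧ ntBk (sl (dT (F i)) t) y ≤ C / Th t y / rh2 q t y := by
  have hD := domOK_DW hΛ
  refine nt_fin_unif (P := fun i C => ∀ t ∈ Ico (-Λ₀) 0, ∀ y ∈ Icc (-1 : ℝ) 1,
      ntBk (sl (F i) t) y ≤ C / rh2 q t y ∧ ntBk (sl (dT (F i)) t) y ≤ C / Th t y / rh2 q t y) ?_ ?_
  · intro i C C' hCC hP t ht y hy
    have hr : 0 < rh2 q t y := rh2_pos_dom (by linarith) hD (mem_DW ht hy)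
    have hT : 0 < Th t y := Th_pos_dom hD (mem_DW ht hy)
    obtain ⟨h1, h2⟩ := hP t ht y hy
    exact ⟨h1.trans (div_le_div_of_nonneg_right hCC hr.le),
      h2.trans (div_le_div_of_nonneg_right (div_le_div_of_nonneg_right hCC hT.le) hr.le)⟩
  · intro i
    obtain ⟨C, -, hC⟩ := nt_bk_sr1 hq hΛ (hF i)
    exact ⟨C, hC⟩

/-- a uniform constant for a finite family of symbols of order `0`. -/
theorem nt_cf_fam0 (hq : 100 ≤ q) (hΛ : Λ₀ ≤ 1) {ι : Type} [Finite ι] (F : ι → Fn) (hF : ∀ i, SR q Λ₀ 4 0 (F i)) :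
    ∃ C : ℝ, 0 ≤ C ∧ ∀ i, ∀ t ∈ Ico (-Λ₀) 0, ∀ y ∈ Icc (-1 : ℝ) 1,
      ntBk (sl (F i) t) y ≤ C ∧ ntBk (sl (dT (F i)) t) y ≤ C / Th t y := by
  have hD := domOK_DW hΛ
  refine nt_fin_unif (P := fun i C => ∀ t ∈ Ico (-Λ₀) 0, ∀ y ∈ Icc (-1 : ℝ) 1,
      ntBk (sl (F i) t) y ≤ C ∧ ntBk (sl (dT (F i)) t) y ≤ C / Th t y) ?_ ?_
  · intro i C C' hCC hP t ht y hy
    have hT : 0 < Th t y := Th_pos_dom hD (mem_DW ht hy)
    obtain ⟨h1, h2⟩ := hP t ht y hy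
    exact ⟨h1.trans hCC, h2.trans (div_le_div_of_nonneg_right hCC hT.le)⟩
  · intro i
    obtain ⟨C, -, hC⟩ := nt_bk_sr0 hq hΛ (hF i)
    exact ⟨C, hC⟩

theorem nt_cf_size (h : NtCtx q g Λ₀) : ∃ K : ℝ, 0 ≤ K ∧ ∀ t ∈ Ico (-Λ₀) 0, ∀ y ∈ Icc (-1 : ℝ) 1,
    (∀ j m k, ntBk (sl (ntC1 q g j m k) t) y ≤ K / rh2 q t y ∧
      ntBk (sl (dT (ntC1 q g j m k)) t) y ≤ K / Th t y / rh2 q t y) ∧
    (∀ j m l, ntBk (sl (ntC2 q g j m l) t) y ≤ K ∧ ntBk (sl (dT (ntC2 q g j m l)) t) y ≤ K / Th t y) ∧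
    (ntBk (sl (ntZe q g) t) y ≤ K ∧ ntBk (sl (dT (ntZe q g)) t) y ≤ K / Th t y) ∧
    (∀ j k l, ntBk (sl (ntC5 q g j k l) t) y ≤ K ∧ ntBk (sl (dT (ntC5 q g j k l)) t) y ≤ K / Th t y) ∧
    (∀ j k, ntBk (sl (dT (ntC0 q g j k)) t) y ≤ K / Th t y / rh2 q t y) ∧
    ntBk (sl (dT (fun p => ntZe q g p - 1)) t) y ≤ K / Th t y := by
  have hq := h.hq
  have hΛ := h.le_one
  have hD := domOK_DW hΛ
  obtain ⟨K1, hK1, b1⟩ := nt_cf_fam1 hq hΛ (ι := Fin 3 × Fin 7 × Fin 6) (fun i => ntC1 q g i.1 i.2.1 i.2.2)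
    (fun i => nt_sr_C1 h i.1 i.2.1 i.2.2)
  obtain ⟨K2, hK2, b2⟩ := nt_cf_fam0 hq hΛ (ι := Fin 3 × Fin 7 × Fin 4) (fun i => ntC2 q g i.1 i.2.1 i.2.2)
    (fun i => nt_sr_C2 h i.1 i.2.1 i.2.2)
  obtain ⟨K3, hK3, b3⟩ := nt_bk_sr0 hq hΛ (sr_of_le (by norm_num) (nt_sr_Ze h))
  obtain ⟨K4, hK4, b4⟩ := nt_cf_fam0 hq hΛ (ι := Fin 3 × Fin 4 × Fin 4) (fun i => ntC5 q g i.1 i.2.1 i.2.2)
    (fun i => nt_sr_C5 h i.1 i.2.1 i.2.2)
  obtain ⟨K5, hK5, b5⟩ := nt_cf_fam1 hq hΛ (ι := Fin 3 × Fin 6) (fun i => ntC0 q g i.1 i.2)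
    (fun i => nt_sr_C0 h i.1 i.2)
  obtain ⟨K6, hK6, b6⟩ := nt_bk_sr0 hq hΛ
    (sr_sub hΛ (sr_of_le (by norm_num) (nt_sr_Ze h)) (sr_const (n := 4) 1))
  refine ⟨K1 + K2 + K3 + K4 + K5 + K6, by positivity, ?_⟩
  intro t ht y hy
  have hr : 0 < rh2 q t y := rh2_pos_dom h.hq1 hD (mem_DW ht hy)
  have hT : 0 < Th t y := Th_pos_dom hD (mem_DW ht hy)
  have m0 : ∀ {a C : ℝ}, C ≤ K1 + K2 + K3 + K4 + K5 + K6 → a ≤ C / Th t y →
      a ≤ (K1 + K2 + K3 + K4 + K5 + K6) / Th t y :=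
    fun hC ha => ha.trans (div_le_div_of_nonneg_right hC hT.le)
  have m1 : ∀ {a C : ℝ}, C ≤ K1 + K2 + K3 + K4 + K5 + K6 → a ≤ C / rh2 q t y →
      a ≤ (K1 + K2 + K3 + K4 + K5 + K6) / rh2 q t y :=
    fun hC ha => ha.trans (div_le_div_of_nonneg_right hC hr.le)
  have m2 : ∀ {a C : ℝ}, C ≤ K1 + K2 + K3 + K4 + K5 + K6 → a ≤ C / Th t y / rh2 q t y →
      a ≤ (K1 + K2 + K3 + K4 + K5 + K6) / Th t y / rh2 q t y :=
    fun hC ha => ha.trans (div_le_div_of_nonneg_right (div_le_div_of_nonneg_right hC hT.le) hr.le)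
  refine ⟨fun j m k => ?_, fun j m l => ?_, ?_, fun j k l => ?_, fun j k => ?_, ?_⟩
  · obtain ⟨c1, c2⟩ := b1 (j, m, k) t ht y hy
    exact ⟨m1 (by linarith) c1, m2 (by linarith) c2⟩
  · obtain ⟨c1, c2⟩ := b2 (j, m, l) t ht y hy
    exact ⟨c1.trans (by linarith), m0 (by linarith) c2⟩
  · obtain ⟨c1, c2⟩ := b3 t ht y hy
    exact ⟨c1.trans (by linarith), m0 (by linarith) c2⟩
  · obtain ⟨c1, c2⟩ := b4 (j, k, l) t ht y hy
    exact ⟨c1.trans (by linarith), m0 (by linarith) c2⟩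
  · exact m2 (by linarith) (b5 (j, k) t ht y hy).2
  · exact m0 (by linarith) (b6 t ht y hy).2

theorem nt_cf_small (h : NtCtx q g Λ₀) : ∃ K : ℝ, 0 ≤ K ∧ ∀ t ∈ Ico (-Λ₀) 0, ∀ y ∈ Icc (-1 : ℝ) 1,
    (∀ j k, ntBk (sl (ntC0 q g j k) t) y ≤ K * (-t) ^ 3 / rh2 q t y) ∧
    ntBk (sl (fun p => ntZe q g p - 1) t) y ≤ K * (-t) ^ 3 := by
  have hq := h.hq
  have hΛ := h.le_one
  have hD : DomOK (DW Λ₀) := domOK_DW hΛ
  -- the array
  have h1 : ∃ C : ℝ, 0 ≤ C ∧ ∀ i : Fin 3 × Fin 6, ∀ p ∈ DW Λ₀,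
      ntBk (sl (ntC0 q g i.1 i.2) p.1) p.2 ≤ C * wt q 1 8 (-1) p := by
    refine nt_fin_unif (P := fun (i : Fin 3 × Fin 6) (C : ℝ) => ∀ p ∈ DW Λ₀,
      ntBk (sl (ntC0 q g i.1 i.2) p.1) p.2 ≤ C * wt q 1 8 (-1) p) ?_ ?_
    · intro i C C' hC hP p hp
      exact (hP p hp).trans (mul_le_mul_of_nonneg_right hC (wt_pos hq hD hp).le)
    · intro i
      obtain ⟨C, _, hC⟩ := nt_bk_of_ts hq hD (nt_ts_C0 h i.1 i.2) (by norm_num)
      exact ⟨C, hC⟩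
  obtain ⟨C, hC0, hC⟩ := h1
  obtain ⟨C', hC'0, hC'⟩ := nt_bk_of_ts hq hD (nt_ts_Ze1 h) (by norm_num)
  refine ⟨2 ^ 14 * (C + C'), by positivity, ?_⟩
  intro t ht y hy
  have hp : (t, y) ∈ DW Λ₀ := mem_DW ht hy
  have hR : 0 < rh2 q t y := rh2_pos_dom (by linarith) hD hp
  have ht0 : t < 0 := ht.2
  have hΛ3 : 0 ≤ (-t) ^ 3 := by
    have : 0 ≤ -t := by linarith
    positivity
  have ht1 : t ∈ Ico (-1 : ℝ) 0 := ⟨by linarith [ht.1], ht.2⟩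
  by_cases hz : NtZone t y
  · have hJ := nt_zone_JJ hq ht1 hy hz
    have hJ0 : 0 ≤ JJ q t y := by
      have := (wt_pos (a := 1) (b := 8) (c := 0) hq hD hp).le
      rwa [wt_JJ] at this
    constructor
    · intro j k
      have := hC (j, k) (t, y) hp
      have hw : wt q 1 8 (-1) (t, y) = JJ q t y / rh2 q t y := by
        have := wt_div_rh2 (a := 1) (b := 8) (c := 0) hq hD hp
        rw [wt_JJ] at this
        simpa using this.symm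
      rw [hw] at this
      refine this.trans ?_
      rw [← mul_div_assoc]
      refine div_le_div_of_nonneg_right ?_ hR.le
      calc C * JJ q t y ≤ C * (2 ^ 14 * (-t) ^ 3) := mul_le_mul_of_nonneg_left hJ hC0
        _ ≤ 2 ^ 14 * (C + C') * (-t) ^ 3 := by nlinarith [mul_nonneg hC'0 hΛ3]
    · have := hC' (t, y) hp
      rw [wt_JJ] at this
      refine this.trans ?_
      calc C' * JJ q t y ≤ C' * (2 ^ 14 * (-t) ^ 3) := mul_le_mul_of_nonneg_left hJ hC'0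
        _ ≤ 2 ^ 14 * (C + C') * (-t) ^ 3 := by nlinarith [mul_nonneg hC0 hΛ3]
  · constructor
    · intro j k
      rw [nt_C0_out q h.s ht0 hz j k]
      positivity
    · rw [nt_Ze1_out q h.s ht0 hz]
      positivity

theorem nt_cf_comm (h : NtCtx q g Λ₀) : ∃ K : ℝ, 0 ≤ K ∧ ∀ t ∈ Ico (-Λ₀) 0, ∀ y ∈ Icc (-1 : ℝ) 1,
    (∀ j k, ntBk (sl (ntL0 q g j k) t) y ≤ K / Th t y / rh2 q t y) ∧ ntBk (sl (ntMu q g) t) y ≤ K / Th t y := by
  have hq := h.hq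
  have hΛ := h.le_one
  have hD : DomOK (DW Λ₀) := domOK_DW hΛ
  have h1 : ∃ C : ℝ, 0 ≤ C ∧ ∀ i : Fin 3 × Fin 6, ∀ p ∈ DW Λ₀,
      ntBk (sl (ntL0 q g i.1 i.2) p.1) p.2 ≤ C * wt q 0 (-1) (-1) p := by
    refine nt_fin_unif (P := fun (i : Fin 3 × Fin 6) (C : ℝ) => ∀ p ∈ DW Λ₀,
      ntBk (sl (ntL0 q g i.1 i.2) p.1) p.2 ≤ C * wt q 0 (-1) (-1) p) ?_ ?_
    · intro i C C' hC hP p hp
      exact (hP p hp).trans (mul_le_mul_of_nonneg_right hC (wt_pos hq hD hp).le)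
    · intro i
      obtain ⟨C, _, hC⟩ := nt_bk_of_ts hq hD (nt_ts_L0 h i.1 i.2) (by norm_num)
      exact ⟨C, hC⟩
  obtain ⟨C, hC0, hC⟩ := h1
  obtain ⟨C', hC'0, hC'⟩ := nt_bk_of_ts hq hD (nt_ts_Mu h) (by norm_num)
  refine ⟨C + C', by positivity, ?_⟩
  intro t ht y hy
  have hp : (t, y) ∈ DW Λ₀ := mem_DW ht hy
  have hR : 0 < rh2 q t y := rh2_pos_dom (by linarith) hD hp
  have hT : 0 < Th t y := Th_pos_dom hD hp
  constructor
  · intro j k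
    have := hC (j, k) (t, y) hp
    have hw : wt q 0 (-1) (-1) (t, y) = 1 / Th t y / rh2 q t y := by
      simp [wt, div_eq_mul_inv]
    rw [hw] at this
    refine this.trans ?_
    rw [div_div, div_div, mul_one_div]
    exact div_le_div_of_nonneg_right (by linarith) (by positivity)
  · have := hC' (t, y) hp
    rw [wc_coefB_wtT] at this
    refine this.trans ?_
    rw [← div_eq_mul_inv]
    exact div_le_div_of_nonneg_right (by linarith) hT.le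

theorem nt_coef_of_ctx (h : NtCtx q g Λ₀) : ∃ K : ℝ, NTCoef q g K Λ₀ := by
  obtain ⟨K₁, hK₁, h1⟩ := nt_cf_size h
  obtain ⟨K₂, hK₂, h2⟩ := nt_cf_small h
  obtain ⟨K₃, hK₃, h3⟩ := nt_cf_comm h
  have hD := domOK_DW h.le_one
  have hz : ∀ t y : ℝ, ntBk (sl (fun _ => (0 : ℝ)) t) y = 0 := fun t y => ntBk_zero y
  refine ⟨1 + K₁ + K₂ + K₃, by linarith, h.L0, h.L1, ?_, ?_, ?_⟩
  · intro t ht y hy
    have hρ : 0 < rh2 q t y := rh2_pos_dom h.hq1 hD (mem_DW ht hy)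
    have hΛ3 : 0 ≤ (-t) ^ 3 := pow_nonneg (by linarith [ht.2]) 3
    obtain ⟨a1, a2, a3, a5, -, -⟩ := h1 t ht y hy
    obtain ⟨b0, b0v⟩ := h2 t ht y hy
    refine ⟨fun j m k => ?_, fun j m l => ?_, fun j => ?_, fun j k l => ?_, fun j k => ?_, fun j => ?_⟩
    · exact (a1 j m k).1.trans (div_le_div_of_nonneg_right (by linarith) hρ.le)
    · exact (a2 j m l).1.trans (by linarith)
    · exact a3.1.trans (by linarith)
    · exact (a5 j k l).1.trans (by linarith)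
    · exact (b0 j k).trans (div_le_div_of_nonneg_right (mul_le_mul_of_nonneg_right (by linarith) hΛ3) hρ.le)
    · exact b0v.trans (mul_le_mul_of_nonneg_right (by linarith) hΛ3)
  · intro t ht y hy
    have hρ : 0 < rh2 q t y := rh2_pos_dom h.hq1 hD (mem_DW ht hy)
    have hΘ : 0 < Th t y := Th_pos_dom hD (mem_DW ht hy)
    have hle : K₁ / Th t y ≤ (1 + K₁ + K₂ + K₃) / Th t y := div_le_div_of_nonneg_right (by linarith) hΘ.le
    obtain ⟨a1, a2, a3, a5, a0, a0v⟩ := h1 t ht y hy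
    refine ⟨fun j m k => ?_, fun j m l => ?_, fun j => ?_, fun j k l => ?_, fun j k => ?_, fun j => ?_⟩
    · exact (a1 j m k).2.trans (div_le_div_of_nonneg_right hle hρ.le)
    · exact (a2 j m l).2.trans hle
    · exact a3.2.trans hle
    · exact (a5 j k l).2.trans hle
    · rw [mul_one]
      exact (a0 j k).trans (div_le_div_of_nonneg_right hle hρ.le)
    · rw [mul_one]
      exact a0v.trans hle
  · intro t ht y hy
    have hρ : 0 < rh2 q t y := rh2_pos_dom h.hq1 hD (mem_DW ht hy)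
    have hΘ : 0 < Th t y := Th_pos_dom hD (mem_DW ht hy)
    have hle : K₃ / Th t y ≤ (1 + K₁ + K₂ + K₃) / Th t y := div_le_div_of_nonneg_right (by linarith) hΘ.le
    have hpos : 0 ≤ (1 + K₁ + K₂ + K₃) / Th t y := div_nonneg (by linarith) hΘ.le
    obtain ⟨c0, c0v⟩ := h3 t ht y hy
    refine ⟨fun j m k => ?_, fun j m l => ?_, fun j => ?_, fun j k l => ?_, fun j k => ?_, fun j => ?_⟩
    · exact (hz t y).le.trans (div_nonneg hpos hρ.le)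
    · exact (hz t y).le.trans hpos
    · exact (hz t y).le.trans hpos
    · exact (hz t y).le.trans hpos
    · rw [mul_one]
      exact (c0 j k).trans (div_le_div_of_nonneg_right hle hρ.le)
    · rw [mul_one]
      exact c0v.trans hle

/-- **the coefficients of `NN`, of `∂_t NN` and of `[∂_t, L̃]` are bounded.** -/
theorem nt_coef_bd (hq : 100 ≤ q) (hg : BgGood q g) : ∃ K Λ₀ : ℝ, NTCoef q g K Λ₀ := by
  obtain ⟨Λ₀, h⟩ := nt_ctx hq hg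
  obtain ⟨K, hK⟩ := nt_coef_of_ctx h
  exact ⟨K, Λ₀, hK⟩

end

end Claimed.Agent.R324.Core
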