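/-
Row 324 (S0582), PDE core, module NT (term calculus of `NN`; architect helper762).   File Int: comparison of the quantities of NT (`ntUb`, `ntS2` of the u-form) with the norms `n2`, `n2t`, `Di` of Core/Defs.lean; continuity on [-1,1].
   `uV (slT U t) i = sl (uT U i) t` (`uV_slT`, Core/W/FormDefs.lean);   `n2 q u y = nk q (fun i => uV u i y)`, `n2t q u y = nk q (fun i => tt (uV u i) y)` (`n2_eq_nk`, `n2t_eq_nk`);   `nk q ξ = (q+1) ξ₀² + 2 ξ₁² + q/(q+1) ξ₂²` (`w_out_nk3`, Core/W/Out.lean),   1/2 ≤ κ_i ≤ q + 1  (q ≥ 1; `w7_kapJ_half`).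
SKETCHES.
* `nt_S2_le_n2`:   Σ_j (s_j² + (tt s_j)²) ≤ 2 (nk s + nk (tt s)).            `nt_n2_le_S2`:   nk (tt s) + q nk s ≤ (q+1) Σ (tt s_j)² + q (q+1) Σ s_j² ≤ q (q+1) Σ_j ntS2 s_j   (q ≥ 1).          `nt_sq_le_S2`: nk s + nk (tt s) ≤ (q+1) Σ_j ntS2 s_j.
* `nt_Ub_sq_le`:   ntUb = Σ_i (|u_i| + |tt u_i|)  (6 terms):   (Σ)² ≤ 6 Σ (u_i² + (tt u_i)²) ≤ 12 (n2 + n2t)     (`Fin.sum_univ_three`, `sq_abs`, nlinarith / `sq_sum_le_card_mul_sum_sq`;  then `nt_S2_le_n2`).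
* continuity:  `(hS j).smI ht : SmI (sl (S j) t)`, `sm_uT`, `SmI.tt`, `SmI.pow`, `SmI.add`, `smI_sum`, `SmI.continuousOn`  (Core/W/TtCalc.lean);    `ntBk` = |·| + |·|: `ContinuousOn.abs`.
      `nt_ci_aa`:  the atoms are slices of smooth functions (`nt_sm_AF`, Core/NT/Smooth.lean);   r̂² = rh2 q t is continuous and > 0 on [-1,1]  (`w0_rh2_pos`; `rh2 q t y = ell2 q t + Xt y`, `w0_contDiff_Xt`);  `ContinuousOn.div`.
* `nt_Di_le`:  `Di q V u = II (fun y => V y * (n2t q u y + q * n2 q u y))`;  `ii_mono` + `ii_const_mul` (Core/W/Ibp.lean), `ci_n2`, `ci_n2t`, `smI_slT`.         `nt_II_S2_le`:  the converse with `nt_S2_le_n2` (q ≥ 1: n2 + n2t ≤ n2t + q n2).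
-/
import Claimed.Agent.R324.Core.NT.Smooth
import Claimed.Agent.R324.Core.W.Out

set_option autoImplicit false

namespace Claimed.Agent.R324.Core

open Set Filter Topology MeasureTheory

noncomputable section

variable {q : ℝ} {g : Bg} {U S : Tri} {t y : ℝ} {V : ℝ → ℝ}

theorem nt_int_aux (q : ℝ) (S : Tri) (t y : ℝ) :
    n2 q (slT S t) y = (q + 1) * (sl (uT S 0) t y) ^ 2 + 2 * (sl (uT S 1) t y) ^ 2
        + q / (q + 1) * (sl (uT S 2) t y) ^ 2 ∧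
    n2t q (slT S t) y = (q + 1) * (tt (sl (uT S 0) t) y) ^ 2 + 2 * (tt (sl (uT S 1) t) y) ^ 2
        + q / (q + 1) * (tt (sl (uT S 2) t) y) ^ 2 := by
  rw [n2_eq_nk, n2t_eq_nk, w_out_nk3, w_out_nk3]
  simp only [uV_slT, and_self]

theorem nt_int_kap (hq : 1 ≤ q) : 1 / 2 ≤ q / (q + 1) ∧ q / (q + 1) ≤ 1 := by
  constructor
  · rw [div_le_div_iff₀ (by norm_num) (by linarith)]
    linarith
  · rw [div_le_one (by linarith)]
    linarith

theorem nt_ci_sumS2 {ι : Type} [Fintype ι] {F : ι → ℝ → ℝ} (h : ∀ i, SmI (F i)) :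
    CI (fun y => ∑ i, ntS2 (F i) y) := by
  unfold ntS2
  exact (smI_sum _ (fun i _ => ((h i).pow 2).add ((h i).tt.pow 2))).continuousOn

theorem nt_S2_le_n2 (hq : 1 ≤ q) (S : Tri) (t y : ℝ) :
    ∑ j, ntS2 (sl (uT S j) t) y ≤ 2 * (n2 q (slT S t) y + n2t q (slT S t) y) := by
  obtain ⟨e1, e2⟩ := nt_int_aux q S t y
  obtain ⟨k1, k2⟩ := nt_int_kap hq
  rw [e1, e2, Fin.sum_univ_three]
  unfold ntS2
  generalize q / (q + 1) = κ at *
  nlinarith [sq_nonneg (sl (uT S 0) t y), sq_nonneg (sl (uT S 1) t y), sq_nonneg (sl (uT S 2) t y),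
    sq_nonneg (tt (sl (uT S 0) t) y), sq_nonneg (tt (sl (uT S 1) t) y), sq_nonneg (tt (sl (uT S 2) t) y)]

theorem nt_sq_le_S2 (hq : 1 ≤ q) (S : Tri) (t y : ℝ) :
    n2 q (slT S t) y + n2t q (slT S t) y ≤ (q + 1) * ∑ j, ntS2 (sl (uT S j) t) y := by
  obtain ⟨e1, e2⟩ := nt_int_aux q S t y
  obtain ⟨k1, k2⟩ := nt_int_kap hq
  rw [e1, e2, Fin.sum_univ_three]
  unfold ntS2
  generalize q / (q + 1) = κ at *
  nlinarith [sq_nonneg (sl (uT S 0) t y), sq_nonneg (sl (uT S 1) t y), sq_nonneg (sl (uT S 2) t y),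
    sq_nonneg (tt (sl (uT S 0) t) y), sq_nonneg (tt (sl (uT S 1) t) y), sq_nonneg (tt (sl (uT S 2) t) y)]

theorem nt_n2_le_S2 (hq : 1 ≤ q) (S : Tri) (t y : ℝ) :
    n2t q (slT S t) y + q * n2 q (slT S t) y ≤ q * (q + 1) * ∑ j, ntS2 (sl (uT S j) t) y := by
  obtain ⟨e1, e2⟩ := nt_int_aux q S t y
  obtain ⟨k1, k2⟩ := nt_int_kap hq
  rw [e1, e2, Fin.sum_univ_three]
  unfold ntS2
  generalize q / (q + 1) = κ at *
  have a0 := sq_nonneg (sl (uT S 0) t y)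
  have a1 := sq_nonneg (sl (uT S 1) t y)
  have a2 := sq_nonneg (sl (uT S 2) t y)
  have b0 := sq_nonneg (tt (sl (uT S 0) t) y)
  have b1 := sq_nonneg (tt (sl (uT S 1) t) y)
  have b2 := sq_nonneg (tt (sl (uT S 2) t) y)
  generalize (sl (uT S 0) t y) ^ 2 = A0 at *
  generalize (sl (uT S 1) t y) ^ 2 = A1 at *
  generalize (sl (uT S 2) t y) ^ 2 = A2 at *
  generalize (tt (sl (uT S 0) t) y) ^ 2 = B0 at *
  generalize (tt (sl (uT S 1) t) y) ^ 2 = B1 at *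
  generalize (tt (sl (uT S 2) t) y) ^ 2 = B2 at *
  have hqq : q + 1 ≤ q * (q + 1) := by nlinarith
  have h1 : (q + 1) * B0 ≤ q * (q + 1) * B0 := mul_le_mul_of_nonneg_right hqq b0
  have h2 : 2 * B1 ≤ q * (q + 1) * B1 := mul_le_mul_of_nonneg_right (by nlinarith) b1
  have h3 : κ * B2 ≤ q * (q + 1) * B2 := mul_le_mul_of_nonneg_right (by nlinarith) b2
  have h4 : q * (2 * A1) ≤ q * (q + 1) * A1 := by
    have : 2 * A1 ≤ (q + 1) * A1 := mul_le_mul_of_nonneg_right (by linarith) a1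
    nlinarith
  have h5 : q * (κ * A2) ≤ q * (q + 1) * A2 := by
    have : κ * A2 ≤ (q + 1) * A2 := mul_le_mul_of_nonneg_right (by linarith) a2
    nlinarith
  nlinarith

theorem nt_Ub_sq_le (hq : 1 ≤ q) (U : Tri) (t y : ℝ) :
    (ntUb U t y) ^ 2 ≤ 12 * (n2 q (slT U t) y + n2t q (slT U t) y) := by
  have h := nt_S2_le_n2 hq U t y
  have h2 : (ntUb U t y) ^ 2 ≤ 6 * ∑ j, ntS2 (sl (uT U j) t) y := by
    unfold ntUb ntBk ntS2
    rw [Fin.sum_univ_three, Fin.sum_univ_three]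
    rw [← sq_abs (sl (uT U 0) t y), ← sq_abs (sl (uT U 1) t y), ← sq_abs (sl (uT U 2) t y),
      ← sq_abs (tt (sl (uT U 0) t) y), ← sq_abs (tt (sl (uT U 1) t) y), ← sq_abs (tt (sl (uT U 2) t) y)]
    generalize |sl (uT U 0) t y| = a0
    generalize |sl (uT U 1) t y| = a1
    generalize |sl (uT U 2) t y| = a2
    generalize |tt (sl (uT U 0) t) y| = b0
    generalize |tt (sl (uT U 1) t) y| = b1
    generalize |tt (sl (uT U 2) t) y| = b2
    nlinarith [sq_nonneg (a0 - a1), sq_nonneg (a0 - a2), sq_nonneg (a0 - b0), sq_nonneg (a0 - b1), sq_nonneg (a0 - b2),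
      sq_nonneg (a1 - a2), sq_nonneg (a1 - b0), sq_nonneg (a1 - b1), sq_nonneg (a1 - b2), sq_nonneg (a2 - b0),
      sq_nonneg (a2 - b1), sq_nonneg (a2 - b2), sq_nonneg (b0 - b1), sq_nonneg (b0 - b2), sq_nonneg (b1 - b2)]
  linarith

theorem nt_ci_S2 (hS : ∀ j, Sm (S j)) (ht : t < 0) : CI (fun y => ∑ j, ntS2 (sl (uT S j) t) y) := by
  exact nt_ci_sumS2 (fun j => (sm_uT hS j).smI ht)

theorem nt_ci_Ub (hU : ∀ j, Sm (U j)) (ht : t < 0) : CI (ntUb U t) := by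
  unfold ntUb
  refine continuousOn_finsetSum _ (fun i _ => ?_)
  have h : SmI (sl (uT U i) t) := (sm_uT hU i).smI ht
  exact h.continuousOn.abs.add h.tt.continuousOn.abs

theorem nt_ci_aa (hq : 1 < q) (hg : BgSm g) (hU : ∀ j, Sm (U j)) (ht : t < 0) : CI (ntAaU q g U t) := by
  have hs := nt_sm_AF hq hg hU
  have h1 : CI (fun y => ∑ j, ntS2 (((ntAF q g U).sl t).v j) y) := nt_ci_sumS2 (fun j => (hs.sv j).smI ht)
  have h2 : CI (fun y => ∑ k, ntS2 (((ntAF q g U).sl t).A k) y) := nt_ci_sumS2 (fun k => (hs.sA k).smI ht)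
  have h3 : CI (fun y => ∑ l, ntS2 (((ntAF q g U).sl t).p l) y) := nt_ci_sumS2 (fun l => (hs.sp l).smI ht)
  have hr : CI (fun y => rh2 q t y ^ 2) := by
    unfold rh2
    exact ((continuous_const.add w0_contDiff_Xt.continuous).pow 2).continuousOn
  have hr0 : ∀ y ∈ Icc (-1 : ℝ) 1, rh2 q t y ^ 2 ≠ 0 := fun y hy => (pow_pos (w0_rh2_pos hq ht hy) 2).ne'
  exact (h1.add (h2.div hr hr0)).add h3

theorem nt_Di_le (hq : 1 ≤ q) (hV : CI V) (h0 : ∀ y ∈ Icc (-1 : ℝ) 1, 0 ≤ V y) (hS : ∀ j, Sm (S j)) (ht : t < 0) :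
    Di q V (slT S t) ≤ q * (q + 1) * II (fun y => V y * ∑ j, ntS2 (sl (uT S j) t) y) := by
  have hu : ∀ j, SmI (slT S t j) := smI_slT hS ht
  have c1 : CI (fun y => V y * (n2t q (slT S t) y + q * n2 q (slT S t) y)) :=
    hV.mul ((ci_n2t hu).add (continuousOn_const.mul (ci_n2 hu)))
  have c2 : CI (fun y => V y * ∑ j, ntS2 (sl (uT S j) t) y) := hV.mul (nt_ci_S2 hS ht)
  have c3 : CI (fun y => q * (q + 1) * (V y * ∑ j, ntS2 (sl (uT S j) t) y)) := continuousOn_const.mul c2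
  rw [← ii_const_mul]
  refine ii_mono c1 c3 (fun y hy => ?_)
  have := mul_le_mul_of_nonneg_left (nt_n2_le_S2 hq S t y) (h0 y hy)
  linarith

theorem nt_II_S2_le (hq : 1 ≤ q) (hV : CI V) (h0 : ∀ y ∈ Icc (-1 : ℝ) 1, 0 ≤ V y) (hS : ∀ j, Sm (S j)) (ht : t < 0) :
    II (fun y => V y * ∑ j, ntS2 (sl (uT S j) t) y) ≤ 2 * Di q V (slT S t) := by
  have hu : ∀ j, SmI (slT S t j) := smI_slT hS ht
  have c1 : CI (fun y => V y * (n2t q (slT S t) y + q * n2 q (slT S t) y)) :=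
    hV.mul ((ci_n2t hu).add (continuousOn_const.mul (ci_n2 hu)))
  have c2 : CI (fun y => V y * ∑ j, ntS2 (sl (uT S j) t) y) := hV.mul (nt_ci_S2 hS ht)
  have c3 : CI (fun y => 2 * (V y * (n2t q (slT S t) y + q * n2 q (slT S t) y))) := continuousOn_const.mul c1
  unfold Di
  rw [← ii_const_mul]
  refine ii_mono c2 c3 (fun y hy => ?_)
  have h1 := nt_S2_le_n2 hq S t y
  have h2 : 0 ≤ n2 q (slT S t) y := n2_nonneg (by linarith) _ y
  have h3 : ∑ j, ntS2 (sl (uT S j) t) y ≤ 2 * (n2t q (slT S t) y + q * n2 q (slT S t) y) := by nlinarith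
  have := mul_le_mul_of_nonneg_left h3 (h0 y hy)
  linarith

end

end Claimed.Agent.R324.Core
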