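/-
Row 324 (S0582), PDE core, module NT (term calculus of `NN`; architect helper762).   File Atoms: properties of the atoms `ntAF q g U` (Core/NT/Defs.lean):
     `A = (u₀,u₁,u₂, tt u₀, tt u₁, tt u₂)`, `u = uT U = (σ, h₃, X b)`;   `v = uT (L̃ U)`;   `p = (σ', h₃', b, X b')`.
SKETCHES.   (calculus of dY, dT on `Sm` functions: Core/PR/Sm.lean;  `ttF f p = -(Xf p.2) * dY f p`, `sl (ttF f) t = tt (sl f t)` (`sl_ttF`);  `ttF_X_mul`, `dY_X_mul` in Core/PR/Jet0.lean.)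
* `nt_Xp_le`  (fin_cases l; `Xf y = 1 - y²` is rfl):    X σ' = -tt u₀;    X h₃' = -tt u₁;    X b = u₂;    X (X b') = 2 y u₂ - tt u₂  (`ttF_X_mul`), |y| ≤ 1.     Each is ≤ 2 [[u_i]] ≤ 2 [[u]] (`Finset.single_le_sum`).
* `nt_atoms_sub`:  the atoms are linear in U.     `NTa.sub`, `NTaF.sl`, `ntAF` unfold;  the three fields by funext + fin_cases:   uT (U - V) i = uT U i - uT V i (simp [uT]; ring),   dY (f - g) = dY f - dY g (`dY_sub`),  ttF likewise,
       `Lt q g (U - V) j = Lt q g U j - Lt q g V j` at (t,y), t < 0  (unfold Lt Lop; `dY_sub` twice, `Finset.sum_sub_distrib`; ring).        To prove an equality of structures use `NTa.mk.injEq` or `congr`/`show NTa.mk _ _ _ = NTa.mk _ _ _`.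
* `nt_atoms_hasDerivAt`:   `(h : Sm f).hasDerivAt_t ht y : HasDerivAt (fun s => f (s,y)) (dT f (t,y)) t`;   then identify  dT (uT U i) = uT (∂_t U) i  (`dT_y_mul` for i = 2),   dT (ttF f) = ttF (dT f)  (`dT_y_mul` + `Sm.dT_dY`),   dT (dY f) = dY (dT f)  (`Sm.dT_dY`)   at (t,y).
       The field `v` of `ntAd` is by definition `dT (uT (L̃ U) j)`.
* `nt_comm`  (= LD0 (c) in u-form):   with Z̃, 𝗐̃₁, c̃ the coefficients of g̃ = bgR q g,  D_j = X U_j'' - d_j y U_j':      (L̃ U)_j = Z̃ D_j + X 𝗐̃₁ U_j' + Σ_k fac c̃_jk U_k.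
       ∂_t:   = [the same with ∂_t U]  +  ∂_t Z̃ D_j + X ∂_t 𝗐̃₁ U_j' + Σ fac ∂_t c̃_jk U_k,     and   ∂_t Z̃ D_j = μ Z̃ D_j = μ ((L̃ U)_j - X 𝗐̃₁ U_j' - Σ fac c̃_jk U_k),    μ = ∂_t Z̃ (1 + X B̃),  Z̃ (1 + X B̃) = 1  (`BgSm.Z_mul`).
       u-form: multiply the component j = 2 by X;   X U_j' = -tt u_j (j < 2),    X · X U₂' = 2 y u₂ - tt u₂.      Expand `ntB0` with `Fin.sum_univ_six` and evaluate the array `ntL0` as in the proof of `nt_struct1` (Core/NT/Struct.lean);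
       dT of the products: `dT_mul`, `dT_add`, `dT_y_mul`, `dT_const_mul` (all factors are Sm: `(bgR_sm hq hg).smZ`, `.smw1`, `.smcf`, `(hU j).dY`, …), `Sm.dT_dY` for ∂_t U_j' = (∂_t U_j)'.     dT (ntCh q g̃ 2 k) = X dT (c̃_2k) for k < 2 (`dT_y_mul`).
-/
import Claimed.Agent.R324.Core.NT.Smooth
import Claimed.Agent.R324.Core.PR.Jet1

set_option autoImplicit false

namespace Claimed.Agent.R324.Core

open Set Filter Topology
open scoped ContDiff

noncomputable section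

variable {q : ℝ} {g : Bg} {U V : Tri} {t y : ℝ}

/-- `|X p_l| ≤ 2 [[u]]`. -/
theorem nt_Xp_le (q : ℝ) (g : Bg) (hU : ∀ j, Sm (U j)) (ht : t < 0) (hy : y ∈ Icc (-1 : ℝ) 1) (l : Fin 4) :
    |(1 - y ^ 2) * ((ntAF q g U).sl t).p l y| ≤ 2 * ntUb U t y := by
  have hnn : ∀ i, 0 ≤ ntBk (sl (uT U i) t) y := fun i => add_nonneg (abs_nonneg _) (abs_nonneg _)
  have hb : ∀ i, ntBk (sl (uT U i) t) y ≤ ntUb U t y := fun i =>
    Finset.single_le_sum (f := fun i => ntBk (sl (uT U i) t) y) (fun i _ => hnn i) (Finset.mem_univ i)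
  have hbk : ∀ i, ntBk (sl (uT U i) t) y = |uT U i (t, y)| + |ttF (uT U i) (t, y)| := fun i => rfl
  have hX : 1 - y ^ 2 = Xf y := rfl
  have hyabs : |y| ≤ 1 := abs_le.2 hy
  fin_cases l
  · show |(1 - y ^ 2) * dY (U 0) (t, y)| ≤ 2 * ntUb U t y
    have h1 : ttF (uT U 0) (t, y) = -(Xf y) * dY (U 0) (t, y) := by rw [uT_zero]; rfl
    have h2 : (1 - y ^ 2) * dY (U 0) (t, y) = -ttF (uT U 0) (t, y) := by rw [h1, hX]; ring
    rw [h2, abs_neg]
    have := hb 0
    rw [hbk] at this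
    have h3 := abs_nonneg (uT U 0 (t, y))
    have h4 := abs_nonneg (ttF (uT U 0) (t, y))
    linarith
  · show |(1 - y ^ 2) * dY (U 1) (t, y)| ≤ 2 * ntUb U t y
    have h1 : ttF (uT U 1) (t, y) = -(Xf y) * dY (U 1) (t, y) := by rw [uT_one]; rfl
    have h2 : (1 - y ^ 2) * dY (U 1) (t, y) = -ttF (uT U 1) (t, y) := by rw [h1, hX]; ring
    rw [h2, abs_neg]
    have := hb 1
    rw [hbk] at this
    have h3 := abs_nonneg (uT U 1 (t, y))
    have h4 := abs_nonneg (ttF (uT U 1) (t, y))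
    linarith
  · show |(1 - y ^ 2) * U 2 (t, y)| ≤ 2 * ntUb U t y
    have h2 : (1 - y ^ 2) * U 2 (t, y) = uT U 2 (t, y) := by rw [uT_two]; rfl
    rw [h2]
    have := hb 2
    rw [hbk] at this
    have h3 := abs_nonneg (uT U 2 (t, y))
    have h4 := abs_nonneg (ttF (uT U 2) (t, y))
    linarith
  · show |(1 - y ^ 2) * (Xf y * dY (U 2) (t, y))| ≤ 2 * ntUb U t y
    have h1 : ttF (uT U 2) (t, y) = 2 * y * Xf y * U 2 (t, y) - (Xf y) ^ 2 * dY (U 2) (t, y) := by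
      rw [uT_two]; exact ttF_X_mul (hU 2) ht y
    have hu2 : uT U 2 (t, y) = Xf y * U 2 (t, y) := by rw [uT_two]
    have h2 : (1 - y ^ 2) * (Xf y * dY (U 2) (t, y)) = 2 * y * uT U 2 (t, y) - ttF (uT U 2) (t, y) := by
      rw [h1, hu2, hX]; ring
    rw [h2]
    have := hb 2
    rw [hbk] at this
    have h3 := abs_nonneg (uT U 2 (t, y))
    have h4 := abs_nonneg (ttF (uT U 2) (t, y))
    have h5 : |2 * y * uT U 2 (t, y) - ttF (uT U 2) (t, y)|
        ≤ |2 * y * uT U 2 (t, y)| + |ttF (uT U 2) (t, y)| := abs_sub _ _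
    have h6 : |2 * y * uT U 2 (t, y)| ≤ 2 * |uT U 2 (t, y)| := by
      rw [abs_mul, abs_mul, abs_two]
      nlinarith
    linarith

theorem nt_uT_sub (U V : Tri) (i : Fin 3) (p : ℝ × ℝ) :
    uT (fun j p => U j p - V j p) i p = uT U i p - uT V i p := by
  simp only [uT]
  split_ifs
  · ring
  · rfl

theorem nt_dY_uT_sub (hU : ∀ j, Sm (U j)) (hV : ∀ j, Sm (V j)) (ht : t < 0) (y : ℝ) (i : Fin 3) :
    dY (uT (fun j p => U j p - V j p) i) (t, y) = dY (uT U i) (t, y) - dY (uT V i) (t, y) := by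
  rw [← dY_sub (sm_uT hU i) (sm_uT hV i) ht y]
  exact dY_congr (fun z => nt_uT_sub U V i (t, z)) y

theorem nt_Lop_sub (q : ℝ) (r : Bg) (hU : ∀ j, Sm (U j)) (hV : ∀ j, Sm (V j)) (ht : t < 0) (y : ℝ) (j : Fin 3) :
    Lop q r (fun j p => U j p - V j p) j (t, y) = Lop q r U j (t, y) - Lop q r V j (t, y) := by
  have h1 : dY (fun p => U j p - V j p) (t, y) = dY (U j) (t, y) - dY (V j) (t, y) :=
    dY_sub (hU j) (hV j) ht y
  have h2 : dY (dY (fun p => U j p - V j p)) (t, y) = dY (dY (U j)) (t, y) - dY (dY (V j)) (t, y) := by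
    rw [← dY_sub (hU j).dY (hV j).dY ht y]
    exact dY_congr (fun z => dY_sub (hU j) (hV j) ht z) y
  simp only [Lop]
  rw [h1, h2]
  have h3 : ∑ k, facJ j k y * r.cf q j k (t, y) * (U k (t, y) - V k (t, y))
      = ∑ k, facJ j k y * r.cf q j k (t, y) * U k (t, y) - ∑ k, facJ j k y * r.cf q j k (t, y) * V k (t, y) := by
    rw [← Finset.sum_sub_distrib]
    exact Finset.sum_congr rfl (fun k _ => by ring)
  rw [h3]
  ring

/-- the atoms are linear. -/
theorem nt_atoms_sub (hq : 1 < q) (hg : BgSm g) (hU : ∀ j, Sm (U j)) (hV : ∀ j, Sm (V j)) (ht : t < 0) :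
    ((ntAF q g U).sl t).sub ((ntAF q g V).sl t) = (ntAF q g (fun j p => U j p - V j p)).sl t := by
  have hu : ∀ (i : Fin 3) (y : ℝ), uT U i (t, y) - uT V i (t, y) = uT (fun j p => U j p - V j p) i (t, y) :=
    fun i y => (nt_uT_sub U V i (t, y)).symm
  have htu : ∀ (i : Fin 3) (y : ℝ), ttF (uT U i) (t, y) - ttF (uT V i) (t, y)
      = ttF (uT (fun j p => U j p - V j p) i) (t, y) := fun i y => by
    rw [ttF_apply, ttF_apply, ttF_apply, nt_dY_uT_sub hU hV ht y i]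
    ring
  have hd : ∀ (i : Fin 3) (y : ℝ), dY (U i) (t, y) - dY (V i) (t, y) = dY (fun p => U i p - V i p) (t, y) :=
    fun i y => (dY_sub (hU i) (hV i) ht y).symm
  have hA : (fun (k : Fin 6) (y : ℝ) => ((ntAF q g U).sl t).A k y - ((ntAF q g V).sl t).A k y)
      = ((ntAF q g (fun j p => U j p - V j p)).sl t).A := by
    funext k y
    fin_cases k
    · exact hu 0 y
    · exact hu 1 y
    · exact hu 2 y
    · exact htu 0 y
    · exact htu 1 y
    · exact htu 2 y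
  have hv : (fun (j : Fin 3) (y : ℝ) => ((ntAF q g U).sl t).v j y - ((ntAF q g V).sl t).v j y)
      = ((ntAF q g (fun j p => U j p - V j p)).sl t).v := by
    funext j y
    show uT (Lt q g U) j (t, y) - uT (Lt q g V) j (t, y) = uT (Lt q g (fun j p => U j p - V j p)) j (t, y)
    have hL : ∀ j, Lt q g (fun j p => U j p - V j p) j (t, y) = Lt q g U j (t, y) - Lt q g V j (t, y) :=
      fun j => nt_Lop_sub q (bgR q g) hU hV ht y j
    simp only [uT]
    split_ifs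
    · rw [hL 2]; ring
    · rw [hL j]
  have hp : (fun (l : Fin 4) (y : ℝ) => ((ntAF q g U).sl t).p l y - ((ntAF q g V).sl t).p l y)
      = ((ntAF q g (fun j p => U j p - V j p)).sl t).p := by
    funext l y
    fin_cases l
    · exact hd 0 y
    · exact hd 1 y
    · rfl
    · show Xf y * dY (U 2) (t, y) - Xf y * dY (V 2) (t, y) = Xf y * dY (fun p => U 2 p - V 2 p) (t, y)
      rw [← hd 2 y]; ring
  show NTa.mk _ _ _ = _
  rw [hA, hv, hp]

theorem nt_dT_uT (hU : ∀ j, Sm (U j)) (ht : t < 0) (y : ℝ) (i : Fin 3) :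
    dT (uT U i) (t, y) = uT (fun j => dT (U j)) i (t, y) := by
  fin_cases i
  · show dT (uT U 0) (t, y) = uT (fun j => dT (U j)) 0 (t, y)
    rw [uT_zero, uT_zero]
  · show dT (uT U 1) (t, y) = uT (fun j => dT (U j)) 1 (t, y)
    rw [uT_one, uT_one]
  · show dT (uT U 2) (t, y) = uT (fun j => dT (U j)) 2 (t, y)
    rw [uT_two, uT_two]
    exact dT_y_mul Xf (hU 2) ht y

theorem nt_dT_ttF_uT (hU : ∀ j, Sm (U j)) (ht : t < 0) (y : ℝ) (i : Fin 3) :
    dT (ttF (uT U i)) (t, y) = ttF (uT (fun j => dT (U j)) i) (t, y) := by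
  have h1 : dT (ttF (uT U i)) (t, y) = -(Xf y) * dT (dY (uT U i)) (t, y) :=
    dT_y_mul (fun z => -(Xf z)) (sm_uT hU i).dY ht y
  rw [h1, (sm_uT hU i).dT_dY ht y, ttF_apply]
  congr 1
  exact dY_congr (fun z => nt_dT_uT hU ht z i) y

/-- time derivative of the atoms. -/
theorem nt_atoms_hasDerivAt (hq : 1 < q) (hg : BgSm g) (hU : ∀ j, Sm (U j)) (ht : t < 0) (y : ℝ) :
    (∀ k, HasDerivAt (fun s => ((ntAF q g U).sl s).A k y) ((ntAd q g U t).A k y) t) ∧
    (∀ j, HasDerivAt (fun s => ((ntAF q g U).sl s).v j y) ((ntAd q g U t).v j y) t) ∧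
    (∀ l, HasDerivAt (fun s => ((ntAF q g U).sl s).p l y) ((ntAd q g U t).p l y) t) := by
  have hu : ∀ i, HasDerivAt (fun s => uT U i (s, y)) (uT (fun j => dT (U j)) i (t, y)) t := fun i => by
    rw [← nt_dT_uT hU ht y i]
    exact (sm_uT hU i).hasDerivAt_t ht y
  have htu : ∀ i, HasDerivAt (fun s => ttF (uT U i) (s, y)) (ttF (uT (fun j => dT (U j)) i) (t, y)) t := fun i => by
    rw [← nt_dT_ttF_uT hU ht y i]
    exact (sm_uT hU i).ttF.hasDerivAt_t ht y
  have hd : ∀ i, HasDerivAt (fun s => dY (U i) (s, y)) (dY (dT (U i)) (t, y)) t := fun i => by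
    rw [← (hU i).dT_dY ht y]
    exact (hU i).dY.hasDerivAt_t ht y
  refine ⟨fun k => ?_, fun j => ?_, fun l => ?_⟩
  · fin_cases k
    · exact hu 0
    · exact hu 1
    · exact hu 2
    · exact htu 0
    · exact htu 1
    · exact htu 2
  · exact (sm_uT (sm_Lt hq hg hU) j).hasDerivAt_t ht y
  · fin_cases l
    · exact hd 0
    · exact hd 1
    · exact (hU 2).hasDerivAt_t ht y
    · exact (hd 2).const_mul (Xf y)

/-- `∂_t` of `Lop q r U`:  the same operator on `∂_t U` plus the terms with the differentiated coefficients. -/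
theorem nt_dT_Lop {r : Bg} (q : ℝ) (hr : BgSm r) (hU : ∀ j, Sm (U j)) (ht : t < 0) (y : ℝ) (j : Fin 3) :
    dT (Lop q r U j) (t, y) = Lop q r (fun j => dT (U j)) j (t, y)
      + dT r.Z (t, y) * (Xf y * dY (dY (U j)) (t, y) - dimJ q j * y * dY (U j) (t, y))
      + Xf y * dT r.w1 (t, y) * dY (U j) (t, y)
      + ∑ k, facJ j k y * dT (r.cf q j k) (t, y) * U k (t, y) := by
  have hZ := hr.smZ.hasDerivAt_t ht y
  have hw := hr.smw1.hasDerivAt_t ht y
  have h1 := (hU j).dY.hasDerivAt_t ht y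
  have h2 := (hU j).dY.dY.hasDerivAt_t ht y
  have hc := fun k => (hr.smcf q j k).hasDerivAt_t ht y
  have hu := fun k => (hU k).hasDerivAt_t ht y
  have e1 : dT (dY (U j)) (t, y) = dY (dT (U j)) (t, y) := (hU j).dT_dY ht y
  have e2 : dT (dY (dY (U j))) (t, y) = dY (dY (dT (U j))) (t, y) := by
    rw [(hU j).dY.dT_dY ht y]
    exact dY_congr (fun z => (hU j).dT_dY ht z) y
  have H := (((hZ.mul_const (Xf y)).mul h2).add
    (((hZ.const_mul (-(dimJ q j) * y)).add (hw.const_mul (Xf y))).mul h1)).add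
    (HasDerivAt.fun_sum (u := Finset.univ) (fun k _ => ((hc k).const_mul (facJ j k y)).mul (hu k)))
  have H' : dT (Lop q r U j) (t, y) = _ := H.deriv
  rw [H', e1, e2]
  simp only [Lop, Finset.sum_add_distrib, Pi.add_apply]
  ring

/-- the commutator `[∂_t, L̃]` in u-form. -/
theorem nt_comm (hq : 1 < q) (hg : BgSm g) (hU : ∀ j, Sm (U j)) (ht : t < 0) (y : ℝ) (j : Fin 3) :
    dT (uT (Lt q g U) j) (t, y)
      = uT (Lt q g (fun j => dT (U j))) j (t, y) + ntB0 ((ntCL q g).sl t) ((ntAF q g U).sl t) j y := by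
  have hr := bgR_sm hq hg
  have hZt := hr.Z_mul ht y
  have hch : ∀ (j k : Fin 3), ¬ (j = 2 ∧ k ≠ 2) → ntCh q (bgR q g) j k = (bgR q g).cf q j k := by
    intro j k h
    funext p
    simp only [ntCh, if_neg h]
  have hch2 : ∀ (k : Fin 3), k ≠ 2 → ntCh q (bgR q g) 2 k = fun p => Xf p.2 * (bgR q g).cf q 2 k p := by
    intro k h
    funext p
    simp [ntCh, h]
  have hu0 : uT U 0 (t, y) = U 0 (t, y) := by simp [uT]
  have hu1 : uT U 1 (t, y) = U 1 (t, y) := by simp [uT]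
  have hu2 : uT U 2 (t, y) = Xf y * U 2 (t, y) := by simp [uT]
  have ht0 : ttF (uT U 0) (t, y) = -(Xf y) * dY (U 0) (t, y) := by
    rw [uT_zero]; rfl
  have ht1 : ttF (uT U 1) (t, y) = -(Xf y) * dY (U 1) (t, y) := by
    rw [uT_one]; rfl
  have ht2 : ttF (uT U 2) (t, y) = 2 * y * Xf y * U 2 (t, y) - (Xf y) ^ 2 * dY (U 2) (t, y) := by
    rw [uT_two]; exact ttF_X_mul (hU 2) ht y
  simp only [ntB0, Fin.sum_univ_six]
  simp only [ntCL, NTcF.sl, NTaF.sl, ntL0, ntAF, sl]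
  have hX : 1 - y ^ 2 = Xf y := rfl
  fin_cases j
  · simp only [Fin.zero_eta, Fin.isValue, Matrix.cons_val_zero, Matrix.cons_val_one, Matrix.cons_val]
    simp only [zero_mul, add_zero]
    rw [hch 0 0 (by decide), hch 0 1 (by decide), hch 0 2 (by decide), hu0, hu1, hu2, ht0]
    rw [uT_zero, uT_zero]
    have h := nt_dT_Lop q hr hU ht y 0
    have hL : Lt q g U 0 (t, y) = (bgR q g).Z (t, y) * Xf y * dY (dY (U 0)) (t, y)
        + (-(q + 1) * y * (bgR q g).Z (t, y) + Xf y * (bgR q g).w1 (t, y)) * dY (U 0) (t, y)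
        + ((bgR q g).cf q 0 0 (t, y) * U 0 (t, y) + (bgR q g).cf q 0 1 (t, y) * U 1 (t, y)
          + Xf y * (bgR q g).cf q 0 2 (t, y) * U 2 (t, y)) := by
      simp [Lt, Lop, Fin.sum_univ_three, facJ, dimJ, Xf]
    simp [Fin.sum_univ_three, facJ, dimJ, hX] at h
    beta_reduce
    rw [hL]
    simp only [Lt, ntMu]
    linear_combination h - (dT (bgR q g).Z (t, y) * (Xf y * dY (dY (U 0)) (t, y) - (q + 1) * y * dY (U 0) (t, y))) * hZt
  · simp only [Fin.mk_one, Fin.isValue, Matrix.cons_val_zero, Matrix.cons_val_one, Matrix.cons_val]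
    simp only [zero_mul, add_zero]
    rw [hch 1 0 (by decide), hch 1 1 (by decide), hch 1 2 (by decide), hu0, hu1, hu2, ht1]
    rw [uT_one, uT_one]
    have h := nt_dT_Lop q hr hU ht y 1
    have hL : Lt q g U 1 (t, y) = (bgR q g).Z (t, y) * Xf y * dY (dY (U 1)) (t, y)
        + (-(q + 1) * y * (bgR q g).Z (t, y) + Xf y * (bgR q g).w1 (t, y)) * dY (U 1) (t, y)
        + ((bgR q g).cf q 1 0 (t, y) * U 0 (t, y) + (bgR q g).cf q 1 1 (t, y) * U 1 (t, y)
          + Xf y * (bgR q g).cf q 1 2 (t, y) * U 2 (t, y)) := by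
      simp [Lt, Lop, Fin.sum_univ_three, facJ, dimJ, Xf]
    simp [Fin.sum_univ_three, facJ, dimJ, hX] at h
    beta_reduce
    rw [hL]
    simp only [Lt, ntMu]
    linear_combination h - (dT (bgR q g).Z (t, y) * (Xf y * dY (dY (U 1)) (t, y) - (q + 1) * y * dY (U 1) (t, y))) * hZt
  · simp only [Fin.reduceFinMk, Fin.isValue, Matrix.cons_val_zero, Matrix.cons_val_one, Matrix.cons_val]
    simp only [zero_mul, add_zero]
    rw [hch2 0 (by decide), hch2 1 (by decide), hch 2 2 (by decide), hu0, hu1, hu2, ht2]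
    rw [dT_y_mul Xf (hr.smcf q 2 0) ht y, dT_y_mul Xf (hr.smcf q 2 1) ht y]
    rw [uT_two, uT_two, dT_y_mul Xf (sm_Lt hq hg hU 2) ht y]
    have h := nt_dT_Lop q hr hU ht y 2
    have hL : Lt q g U 2 (t, y) = (bgR q g).Z (t, y) * Xf y * dY (dY (U 2)) (t, y)
        + (-(q + 5) * y * (bgR q g).Z (t, y) + Xf y * (bgR q g).w1 (t, y)) * dY (U 2) (t, y)
        + ((bgR q g).cf q 2 0 (t, y) * U 0 (t, y) + (bgR q g).cf q 2 1 (t, y) * U 1 (t, y)
          + (bgR q g).cf q 2 2 (t, y) * U 2 (t, y)) := by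
      simp [Lt, Lop, Fin.sum_univ_three, facJ, dimJ, Xf]
    simp [Fin.sum_univ_three, facJ, dimJ, hX] at h
    beta_reduce
    rw [hL]
    simp only [Lt, ntMu]
    linear_combination (Xf y) * h - (Xf y * dT (bgR q g).Z (t, y) * (Xf y * dY (dY (U 2)) (t, y) - (q + 5) * y * dY (U 2) (t, y))) * hZt

end

end Claimed.Agent.R324.Core
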