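/-
Row 324 (S0582), PDE core, module NT (term calculus of `NN`; architect helper762).   File FormAlg: multilinearity (differences) and the derivative of the term sum with respect to a parameter.
SKETCHES.
* `nt_F_sub`:  unfold ntF ntB1 ntB5 ntB0 NTa.sub;  bring everything to one side, `simp only [← Finset.sum_sub_distrib, ← Finset.sum_add_distrib]`, then termwise `ring`
     (e.g. prove the three identities for B1, B5, B0 separately:  `Finset.sum_congr rfl fun m _ => Finset.sum_congr rfl fun k _ => by ring` after rewriting the right side as ONE double sum with `Finset.sum_add_distrib`).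
        c Ψ A - c Ψ' A' = c Ψ (A - A') + c (Ψ - Ψ') A';         e p p̃ - e' p' p̃' = (e - e') p' p̃' + e (p - p') p̃ + e p' (p̃ - p̃').
* `nt_F_hasDerivAt`:  `HasDerivAt.sum` (or `HasDerivAt.fun_sum`), `.mul`, `.add`, `.const_mul` for the factor (1 - y²);  then `HasDerivAt.congr_deriv` and the same termwise `ring` as above:
        (c Ψ A)' = c' Ψ A + c Ψ' A + c Ψ A'.
-/
import Claimed.Agent.R324.Core.NT.Forms

set_option autoImplicit false

namespace Claimed.Agent.R324.Core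

open Set Filter Topology

noncomputable section

theorem nt_B1_sub (c : NTc) (Ps Ps' : Fin 7 → ℝ → ℝ) (a a' : NTa) (j : Fin 3) (y : ℝ) :
    ntB1 c Ps a j y - ntB1 c Ps' a' j y
      = ntB1 c Ps (a.sub a') j y + ntB1 c (fun m z => Ps m z - Ps' m z) a' j y := by
  unfold ntB1 NTa.sub
  have e1 : (∑ m, ∑ k, c.c1 j m k y * Ps m y * a.A k y) - (∑ m, ∑ k, c.c1 j m k y * Ps' m y * a'.A k y)
      = (∑ m, ∑ k, c.c1 j m k y * Ps m y * (a.A k y - a'.A k y))
        + ∑ m, ∑ k, c.c1 j m k y * (Ps m y - Ps' m y) * a'.A k y := by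
    simp only [← Finset.sum_sub_distrib, ← Finset.sum_add_distrib]
    exact Finset.sum_congr rfl fun m _ => Finset.sum_congr rfl fun k _ => by ring
  have e2 : (∑ m, ∑ l, c.c2 j m l y * Ps m y * a.p l y) - (∑ m, ∑ l, c.c2 j m l y * Ps' m y * a'.p l y)
      = (∑ m, ∑ l, c.c2 j m l y * Ps m y * (a.p l y - a'.p l y))
        + ∑ m, ∑ l, c.c2 j m l y * (Ps m y - Ps' m y) * a'.p l y := by
    simp only [← Finset.sum_sub_distrib, ← Finset.sum_add_distrib]
    exact Finset.sum_congr rfl fun m _ => Finset.sum_congr rfl fun k _ => by ring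
  simp only
  linear_combination e1 + e2

theorem nt_B5_sub (c : NTc) (e e' : ℝ → ℝ) (p p' : Fin 4 → ℝ → ℝ) (j : Fin 3) (y : ℝ) :
    ntB5 c e p p j y - ntB5 c e' p' p' j y
      = ntB5 c (fun z => e z - e' z) p' p' j y + ntB5 c e (fun l z => p l z - p' l z) p j y
        + ntB5 c e p' (fun l z => p l z - p' l z) j y := by
  unfold ntB5
  simp only [← Finset.sum_sub_distrib, ← Finset.sum_add_distrib]
  exact Finset.sum_congr rfl fun m _ => Finset.sum_congr rfl fun k _ => by ring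

theorem nt_B0_sub (c : NTc) (a a' : NTa) (j : Fin 3) (y : ℝ) :
    ntB0 c a j y - ntB0 c a' j y = ntB0 c (a.sub a') j y := by
  unfold ntB0 NTa.sub
  have e1 : (∑ k, c.c0 j k y * a.A k y) - (∑ k, c.c0 j k y * a'.A k y)
      = ∑ k, c.c0 j k y * (a.A k y - a'.A k y) := by
    simp only [← Finset.sum_sub_distrib]
    exact Finset.sum_congr rfl fun m _ => by ring
  simp only
  linear_combination e1

theorem nt_F_sub (c : NTc) (Ps Ps' : Fin 7 → ℝ → ℝ) (e e' : ℝ → ℝ) (a a' : NTa) (j : Fin 3) (y : ℝ) :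
    ntF c Ps e a j y - ntF c Ps' e' a' j y
      = ntB1 c Ps (a.sub a') j y + ntB1 c (fun m z => Ps m z - Ps' m z) a' j y
        + ntB5 c (fun z => e z - e' z) a'.p a'.p j y + ntB5 c e (a.sub a').p a.p j y
        + ntB5 c e a'.p (a.sub a').p j y + ntB0 c (a.sub a') j y := by
  have h1 := nt_B1_sub c Ps Ps' a a' j y
  have h5 := nt_B5_sub c e e' a.p a'.p j y
  have h0 := nt_B0_sub c a a' j y
  have hp : (a.sub a').p = fun l z => a.p l z - a'.p l z := rfl
  rw [hp]
  unfold ntF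
  linear_combination h1 + h5 + h0

theorem nt_F_hasDerivAt {c : ℝ → NTc} {cd : NTc} {Ps : ℝ → Fin 7 → ℝ → ℝ} {Pd : Fin 7 → ℝ → ℝ} {e : ℝ → ℝ → ℝ}
    {ed : ℝ → ℝ} {a : ℝ → NTa} {ad : NTa} {t y : ℝ} (j : Fin 3)
    (h1 : ∀ m k, HasDerivAt (fun s => (c s).c1 j m k y) (cd.c1 j m k y) t)
    (h2 : ∀ m l, HasDerivAt (fun s => (c s).c2 j m l y) (cd.c2 j m l y) t)
    (h3 : HasDerivAt (fun s => (c s).c3 j y) (cd.c3 j y) t)
    (h5 : ∀ k l, HasDerivAt (fun s => (c s).c5 j k l y) (cd.c5 j k l y) t)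
    (h0 : ∀ k, HasDerivAt (fun s => (c s).c0 j k y) (cd.c0 j k y) t)
    (h0v : HasDerivAt (fun s => (c s).c0v j y) (cd.c0v j y) t)
    (hP : ∀ m, HasDerivAt (fun s => Ps s m y) (Pd m y) t) (he : HasDerivAt (fun s => e s y) (ed y) t)
    (hA : ∀ k, HasDerivAt (fun s => (a s).A k y) (ad.A k y) t)
    (hv : HasDerivAt (fun s => (a s).v j y) (ad.v j y) t)
    (hp : ∀ l, HasDerivAt (fun s => (a s).p l y) (ad.p l y) t) :
    HasDerivAt (fun s => ntF (c s) (Ps s) (e s) (a s) j y)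
      (ntDF (c t) cd (Ps t) Pd (e t) ed (a t) ad j y) t := by
  have d1 : HasDerivAt (fun s => ∑ m, ∑ k, (c s).c1 j m k y * Ps s m y * (a s).A k y) _ t :=
    HasDerivAt.fun_sum fun m _ => HasDerivAt.fun_sum fun k _ => ((h1 m k).mul (hP m)).mul (hA k)
  have d2 : HasDerivAt (fun s => ∑ m, ∑ l, (c s).c2 j m l y * Ps s m y * (a s).p l y) _ t :=
    HasDerivAt.fun_sum fun m _ => HasDerivAt.fun_sum fun l _ => ((h2 m l).mul (hP m)).mul (hp l)
  have d3 : HasDerivAt (fun s => (c s).c3 j y * Ps s 0 y * (a s).v j y) _ t := (h3.mul (hP 0)).mul hv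
  have d5 : HasDerivAt (fun s => ∑ k, ∑ l, (c s).c5 j k l y * e s y * ((1 - y ^ 2) * (a s).p k y * (a s).p l y)) _ t :=
    HasDerivAt.fun_sum fun k _ => HasDerivAt.fun_sum fun l _ =>
      ((h5 k l).mul he).mul (((hp k).const_mul (1 - y ^ 2)).mul (hp l))
  have d0 : HasDerivAt (fun s => ∑ k, (c s).c0 j k y * (a s).A k y) _ t :=
    HasDerivAt.fun_sum fun k _ => (h0 k).mul (hA k)
  have d0v : HasDerivAt (fun s => (c s).c0v j y * (a s).v j y) _ t := h0v.mul hv
  have D := (((d1.add d2).add d3).add d5).add (d0.add d0v)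
  refine HasDerivAt.congr_deriv (f := fun s => ntF (c s) (Ps s) (e s) (a s) j y) D ?_
  unfold ntDF ntF ntB1 ntB5 ntB0
  simp only [Pi.mul_apply]
  have q1 : (∑ m, ∑ k, ((cd.c1 j m k y * Ps t m y + (c t).c1 j m k y * Pd m y) * (a t).A k y
        + (c t).c1 j m k y * Ps t m y * ad.A k y))
      = (∑ m, ∑ k, cd.c1 j m k y * Ps t m y * (a t).A k y) + (∑ m, ∑ k, (c t).c1 j m k y * Pd m y * (a t).A k y)
        + ∑ m, ∑ k, (c t).c1 j m k y * Ps t m y * ad.A k y := by
    simp only [← Finset.sum_add_distrib]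
    exact Finset.sum_congr rfl fun m _ => Finset.sum_congr rfl fun k _ => by ring
  have q2 : (∑ m, ∑ l, ((cd.c2 j m l y * Ps t m y + (c t).c2 j m l y * Pd m y) * (a t).p l y
        + (c t).c2 j m l y * Ps t m y * ad.p l y))
      = (∑ m, ∑ l, cd.c2 j m l y * Ps t m y * (a t).p l y) + (∑ m, ∑ l, (c t).c2 j m l y * Pd m y * (a t).p l y)
        + ∑ m, ∑ l, (c t).c2 j m l y * Ps t m y * ad.p l y := by
    simp only [← Finset.sum_add_distrib]
    exact Finset.sum_congr rfl fun m _ => Finset.sum_congr rfl fun k _ => by ring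
  have q5 : (∑ k, ∑ l, ((cd.c5 j k l y * e t y + (c t).c5 j k l y * ed y) * ((1 - y ^ 2) * (a t).p k y * (a t).p l y)
        + (c t).c5 j k l y * e t y * ((1 - y ^ 2) * ad.p k y * (a t).p l y + (1 - y ^ 2) * (a t).p k y * ad.p l y)))
      = (∑ k, ∑ l, cd.c5 j k l y * e t y * ((1 - y ^ 2) * (a t).p k y * (a t).p l y))
        + (∑ k, ∑ l, (c t).c5 j k l y * ed y * ((1 - y ^ 2) * (a t).p k y * (a t).p l y))
        + (∑ k, ∑ l, (c t).c5 j k l y * e t y * ((1 - y ^ 2) * ad.p k y * (a t).p l y))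
        + ∑ k, ∑ l, (c t).c5 j k l y * e t y * ((1 - y ^ 2) * (a t).p k y * ad.p l y) := by
    simp only [← Finset.sum_add_distrib]
    exact Finset.sum_congr rfl fun m _ => Finset.sum_congr rfl fun k _ => by ring
  have q0 : (∑ k, (cd.c0 j k y * (a t).A k y + (c t).c0 j k y * ad.A k y))
      = (∑ k, cd.c0 j k y * (a t).A k y) + ∑ k, (c t).c0 j k y * ad.A k y := by
    simp only [← Finset.sum_add_distrib]
  linear_combination q1 + q2 + q5 + q0

end

end Claimed.Agent.R324.Core
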