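/-
Row 324 (S0582), PDE core, module NT (term calculus of `NN`; architect helper762).   File FormB: differentiability and the three BASIC BOUNDS of the multilinear forms of Core/NT/Forms.lean.
Tools (Core/NT/Basic.lean, all proved):  `ntS2_sum` (ntS2 (Σ_{i∈s} F i) ≤ |s| Σ ntS2 (F i)),  `ntS2_add`,  `ntS2_mul` (ntS2 (μ A) ≤ 2 [[μ]]² ntS2 A),  `ntBk_mul` ([[f g]] ≤ [[f]] [[g]]),  `ntS2_Xpp`.
SKETCHES.
* differentiability:  unfold;  `Differentiable.fun_sum`/`Differentiable.sum`, `.mul`, `.add`  (or `fun_prop` after `intro`-ducing the hypotheses as local facts).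
* `nt_B1_bound`.   ntB1 = S₁ + S₂ + T (as FUNCTIONS: `show ntS2 (fun z => (S₁ z + S₂ z) + T z) y ≤ _`).   ntS2 (S₁+S₂+T) ≤ 2 (2 (ntS2 S₁ + ntS2 S₂) + ntS2 T)  (`ntS2_add` twice).
     ntS2 S₁ ≤ 7 Σ_m ntS2 (Σ_k ..) ≤ 7·6 Σ_m Σ_k ntS2 (c1 j m k · Ps m · A k)   (`ntS2_sum` twice, `Finset.card_univ`, `Fintype.card_fin`);
     one term:  ntS2 ((c1 · Ps) · A) ≤ 2 [[c1 · Ps]]² ntS2 A ≤ 2 ((K/ρ) μ)² ntS2 (A k)    (`ntS2_mul`, `ntBk_mul`, `mul_le_mul`, `pow_le_pow_left₀`);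
     so ntS2 S₁ ≤ 42 · 7 · 2 (K/ρ)² μ² Σ_k ntS2 (A k) = 588 K² μ² (Σ_k ntS2 (A k))/ρ².    Same: ntS2 S₂ ≤ 28 · 7 · 2 K² μ² Σ_l ntS2 (p l);   ntS2 T ≤ 2 K² μ² ntS2 (v j) ≤ 2 K² μ² Σ_j ntS2 (v j) (`Finset.single_le_sum`).
     Total ≤ 4 · 588 ≤ 2400.
* `nt_B5_bound`.   16 terms:  ntS2 (Σ_k Σ_l ..) ≤ 4·4 Σ Σ ntS2 ((c5 · e) · (X p k p' l)) ≤ 16 Σ Σ 2 (K ε)² (13 ξ² ntS2 (p' l) + 3 ξ'² ntS2 (p k))   (`ntS2_Xpp`;  ((1-y²) p k y)² ≤ ξ² by `sq_le_sq'`/`abs_le`)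
                   = 32 K² ε² (52 ξ² Σ_l ntS2 (p' l) + 12 ξ'² Σ_k ntS2 (p k)).
* `nt_B0_bound`.   ntS2 (S + T) ≤ 2 (ntS2 S + ntS2 T),  ntS2 S ≤ 6 Σ_k 2 (K κ/ρ)² ntS2 (A k),   ntS2 T ≤ 2 (K κ)² ntS2 (v j).
-/
import Claimed.Agent.R324.Core.NT.Forms

set_option autoImplicit false

namespace Claimed.Agent.R324.Core

open Set Filter Topology

noncomputable section

variable {c : NTc} {Ps : Fin 7 → ℝ → ℝ} {e : ℝ → ℝ} {a : NTa} {p p' : Fin 4 → ℝ → ℝ}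

theorem nt_B1_differentiable (hc : c.Df) (hP : ∀ m, Differentiable ℝ (Ps m)) (ha : a.Df) (j : Fin 3) :
    Differentiable ℝ (ntB1 c Ps a j) := by
  have h1 := hc.d1
  have h2 := hc.d2
  have h3 := hc.d3
  have h4 := ha.dA
  have h5 := ha.dp
  have h6 := ha.dv
  unfold ntB1
  exact ((Differentiable.fun_sum fun m _ => Differentiable.fun_sum fun k _ => ((h1 j m k).mul (hP m)).mul (h4 k)).add
    (Differentiable.fun_sum fun m _ => Differentiable.fun_sum fun l _ => ((h2 j m l).mul (hP m)).mul (h5 l))).add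
    (((h3 j).mul (hP 0)).mul (h6 j))

theorem nt_B5_differentiable (hc : c.Df) (he : Differentiable ℝ e) (hp : ∀ l, Differentiable ℝ (p l))
    (hp' : ∀ l, Differentiable ℝ (p' l)) (j : Fin 3) : Differentiable ℝ (ntB5 c e p p' j) := by
  have h1 := hc.d5
  have hX : Differentiable ℝ (fun z : ℝ => 1 - z ^ 2) := by fun_prop
  unfold ntB5
  exact Differentiable.fun_sum fun k _ => Differentiable.fun_sum fun l _ =>
    ((h1 j k l).mul he).mul ((hX.mul (hp k)).mul (hp' l))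

theorem nt_B0_differentiable (hc : c.Df) (ha : a.Df) (j : Fin 3) : Differentiable ℝ (ntB0 c a j) := by
  have h1 := hc.d0
  have h2 := hc.d0v
  have h4 := ha.dA
  have h6 := ha.dv
  unfold ntB0
  exact (Differentiable.fun_sum fun k _ => (h1 j k).mul (h4 k)).add ((h2 j).mul (h6 j))

theorem nt_F_differentiable (hc : c.Df) (hP : ∀ m, Differentiable ℝ (Ps m)) (he : Differentiable ℝ e) (ha : a.Df)
    (j : Fin 3) : Differentiable ℝ (ntF c Ps e a j) :=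
  ((nt_B1_differentiable hc hP ha j).add (nt_B5_differentiable hc he ha.dp ha.dp j)).add
    (nt_B0_differentiable hc ha j)

/-- one trilinear term `f g A`. -/
theorem nt_term3_bound {f g A : ℝ → ℝ} {y M N : ℝ} (hf : DifferentiableAt ℝ f y) (hg : DifferentiableAt ℝ g y)
    (hA : DifferentiableAt ℝ A y) (hM : ntBk f y ≤ M) (hN : ntBk g y ≤ N) :
    ntS2 (fun z => f z * g z * A z) y ≤ 2 * (M * N) ^ 2 * ntS2 A y := by
  have h1 := ntS2_mul (μ := fun z => f z * g z) (hf.mul hg) hA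
  have h2 := ntBk_mul hf hg
  have h3 : ntBk (fun z => f z * g z) y ≤ M * N :=
    h2.trans (mul_le_mul hM hN (ntBk_nonneg _ _) ((ntBk_nonneg _ _).trans hM))
  have h4 : (ntBk (fun z => f z * g z) y) ^ 2 ≤ (M * N) ^ 2 := pow_le_pow_left₀ (ntBk_nonneg _ _) h3 2
  refine h1.trans (mul_le_mul_of_nonneg_right ?_ (ntS2_nonneg _ _))
  linarith

/-- one bilinear term `f A`. -/
theorem nt_term2_bound {f A : ℝ → ℝ} {y M : ℝ} (hf : DifferentiableAt ℝ f y)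
    (hA : DifferentiableAt ℝ A y) (hM : ntBk f y ≤ M) :
    ntS2 (fun z => f z * A z) y ≤ 2 * M ^ 2 * ntS2 A y := by
  have h1 := ntS2_mul hf hA
  have h4 : (ntBk f y) ^ 2 ≤ M ^ 2 := pow_le_pow_left₀ (ntBk_nonneg _ _) hM 2
  refine h1.trans (mul_le_mul_of_nonneg_right ?_ (ntS2_nonneg _ _))
  linarith

/-- a double sum of trilinear terms `C m k · P m · A k`. -/
theorem nt_dsum_bound {n₁ n₂ : ℕ} {C : Fin n₁ → Fin n₂ → ℝ → ℝ} {P : Fin n₁ → ℝ → ℝ} {A : Fin n₂ → ℝ → ℝ}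
    {y M N : ℝ} (hC : ∀ m k, DifferentiableAt ℝ (C m k) y) (hP : ∀ m, DifferentiableAt ℝ (P m) y)
    (hA : ∀ k, DifferentiableAt ℝ (A k) y) (hM : ∀ m k, ntBk (C m k) y ≤ M) (hN : ∀ m, ntBk (P m) y ≤ N) :
    ntS2 (fun z => ∑ m, ∑ k, C m k z * P m z * A k z) y
      ≤ (n₁ : ℝ) * (n₁ : ℝ) * (n₂ : ℝ) * (2 * (M * N) ^ 2) * ∑ k, ntS2 (A k) y := by
  have h1 := ntS2_sum (y := y) (Finset.univ : Finset (Fin n₁)) (F := fun m z => ∑ k, C m k z * P m z * A k z)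
    (fun m _ => DifferentiableAt.fun_sum fun k _ => ((hC m k).mul (hP m)).mul (hA k))
  have h2 : ∀ m, ntS2 (fun z => ∑ k, C m k z * P m z * A k z) y
      ≤ (n₂ : ℝ) * ((2 * (M * N) ^ 2) * ∑ k, ntS2 (A k) y) := by
    intro m
    have h3 := ntS2_sum (y := y) (Finset.univ : Finset (Fin n₂)) (F := fun k z => C m k z * P m z * A k z)
      (fun k _ => ((hC m k).mul (hP m)).mul (hA k))
    rw [Finset.card_univ, Fintype.card_fin] at h3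
    refine h3.trans (mul_le_mul_of_nonneg_left ?_ (Nat.cast_nonneg _))
    rw [Finset.mul_sum]
    exact Finset.sum_le_sum fun k _ => nt_term3_bound (hC m k) (hP m) (hA k) (hM m k) (hN m)
  rw [Finset.card_univ, Fintype.card_fin] at h1
  have h4 : ∑ m : Fin n₁, ntS2 (fun z => ∑ k, C m k z * P m z * A k z) y
      ≤ ∑ _m : Fin n₁, (n₂ : ℝ) * ((2 * (M * N) ^ 2) * ∑ k, ntS2 (A k) y) :=
    Finset.sum_le_sum fun m _ => h2 m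
  rw [Finset.sum_const, Finset.card_univ, Fintype.card_fin, nsmul_eq_mul] at h4
  have h5 := mul_le_mul_of_nonneg_left h4 (Nat.cast_nonneg (α := ℝ) n₁)
  refine h1.trans (h5.trans (le_of_eq ?_))
  ring

theorem nt_B1_bound (hc : c.Df) (hP : ∀ m, Differentiable ℝ (Ps m)) (ha : a.Df) {K κ ρ μ y : ℝ} (hρ : 0 < ρ)
    (hK : 0 ≤ K) (hμ : 0 ≤ μ) (hb : c.Bd K κ ρ y) (hPs : ∀ m, ntBk (Ps m) y ≤ μ) (j : Fin 3) :
    ntS2 (ntB1 c Ps a j) y ≤ 2400 * K ^ 2 * μ ^ 2 * ntAa ρ a y := by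
  have hS1 := nt_dsum_bound (y := y) (C := c.c1 j) (P := Ps) (A := a.A) (fun m k => hc.d1 j m k y) (fun m => hP m y)
    (fun k => ha.dA k y) (hb.b1 j) hPs
  have hS2 := nt_dsum_bound (y := y) (C := c.c2 j) (P := Ps) (A := a.p) (fun m l => hc.d2 j m l y) (fun m => hP m y)
    (fun l => ha.dp l y) (hb.b2 j) hPs
  have hT := nt_term3_bound (hc.d3 j y) (hP 0 y) (ha.dv j y) (hb.b3 j) (hPs 0)
  have hT' : ntS2 (a.v j) y ≤ ∑ i, ntS2 (a.v i) y :=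
    Finset.single_le_sum (f := fun i => ntS2 (a.v i) y) (fun i _ => ntS2_nonneg _ _) (Finset.mem_univ j)
  have d1 : DifferentiableAt ℝ (fun z => ∑ m, ∑ k, c.c1 j m k z * Ps m z * a.A k z) y :=
    DifferentiableAt.fun_sum fun m _ => DifferentiableAt.fun_sum fun k _ =>
      ((hc.d1 j m k y).mul (hP m y)).mul (ha.dA k y)
  have d2 : DifferentiableAt ℝ (fun z => ∑ m, ∑ l, c.c2 j m l z * Ps m z * a.p l z) y :=
    DifferentiableAt.fun_sum fun m _ => DifferentiableAt.fun_sum fun l _ =>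
      ((hc.d2 j m l y).mul (hP m y)).mul (ha.dp l y)
  have d3 : DifferentiableAt ℝ (fun z => c.c3 j z * Ps 0 z * a.v j z) y :=
    ((hc.d3 j y).mul (hP 0 y)).mul (ha.dv j y)
  have hA1 := ntS2_add d1 d2
  have hA2 := ntS2_add (d1.add d2) d3
  have hgoal : ntS2 (ntB1 c Ps a j) y
      = ntS2 (fun z => ((fun z => ∑ m, ∑ k, c.c1 j m k z * Ps m z * a.A k z) z
          + (fun z => ∑ m, ∑ l, c.c2 j m l z * Ps m z * a.p l z) z) + c.c3 j z * Ps 0 z * a.v j z) y := rfl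
  have hA2' : ntS2 (ntB1 c Ps a j) y
      ≤ 2 * (ntS2 (fun z => (∑ m, ∑ k, c.c1 j m k z * Ps m z * a.A k z)
          + ∑ m, ∑ l, c.c2 j m l z * Ps m z * a.p l z) y + ntS2 (fun z => c.c3 j z * Ps 0 z * a.v j z) y) := by
    rw [hgoal]
    exact hA2
  obtain ⟨SA, hSA⟩ : ∃ SA, SA = ∑ k, ntS2 (a.A k) y := ⟨_, rfl⟩
  obtain ⟨Sp, hSp⟩ : ∃ Sp, Sp = ∑ l, ntS2 (a.p l) y := ⟨_, rfl⟩
  obtain ⟨Sv, hSv⟩ : ∃ Sv, Sv = ∑ i, ntS2 (a.v i) y := ⟨_, rfl⟩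
  have hSA0 : 0 ≤ SA := hSA ▸ Finset.sum_nonneg fun k _ => ntS2_nonneg _ _
  have hSp0 : 0 ≤ Sp := hSp ▸ Finset.sum_nonneg fun k _ => ntS2_nonneg _ _
  have hSv0 : 0 ≤ Sv := hSv ▸ Finset.sum_nonneg fun k _ => ntS2_nonneg _ _
  unfold ntAa
  rw [← hSA, ← hSp, ← hSv]
  rw [← hSA] at hS1
  rw [← hSp] at hS2
  rw [← hSv] at hT'
  have e1 : ((7 : ℕ) : ℝ) * ((7 : ℕ) : ℝ) * ((6 : ℕ) : ℝ) * (2 * (K / ρ * μ) ^ 2) * SA
      = 588 * (K ^ 2 * μ ^ 2) * (SA / ρ ^ 2) := by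
    field_simp
    ring
  have e2 : ((7 : ℕ) : ℝ) * ((7 : ℕ) : ℝ) * ((4 : ℕ) : ℝ) * (2 * (K * μ) ^ 2) * Sp
      = 392 * (K ^ 2 * μ ^ 2) * Sp := by
    push_cast
    ring
  rw [e1] at hS1
  rw [e2] at hS2
  have hKμ : 0 ≤ K ^ 2 * μ ^ 2 := by positivity
  have hq : 0 ≤ SA / ρ ^ 2 := div_nonneg hSA0 (sq_nonneg _)
  have hT2 : 2 * (K * μ) ^ 2 * ntS2 (a.v j) y ≤ 2 * (K ^ 2 * μ ^ 2) * Sv := by
    have : 2 * (K * μ) ^ 2 = 2 * (K ^ 2 * μ ^ 2) := by ring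
    rw [this]
    exact mul_le_mul_of_nonneg_left hT' (by positivity)
  have p1 : 0 ≤ (K ^ 2 * μ ^ 2) * (SA / ρ ^ 2) := mul_nonneg hKμ hq
  have p2 : 0 ≤ (K ^ 2 * μ ^ 2) * Sp := mul_nonneg hKμ hSp0
  have p3 : 0 ≤ (K ^ 2 * μ ^ 2) * Sv := mul_nonneg hKμ hSv0
  nlinarith

theorem nt_B5_bound (hc : c.Df) (he : Differentiable ℝ e) (hp : ∀ l, Differentiable ℝ (p l))
    (hp' : ∀ l, Differentiable ℝ (p' l)) {K κ ρ ε ξ ξ' y : ℝ} (hy : y ∈ Icc (-1 : ℝ) 1) (hK : 0 ≤ K) (hε : 0 ≤ ε)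
    (hb : c.Bd K κ ρ y) (hee : ntBk e y ≤ ε) (hξ : ∀ k, |(1 - y ^ 2) * p k y| ≤ ξ)
    (hξ' : ∀ l, |(1 - y ^ 2) * p' l y| ≤ ξ') (j : Fin 3) :
    ntS2 (ntB5 c e p p' j) y
      ≤ 2000 * K ^ 2 * ε ^ 2 * (ξ ^ 2 * ∑ l, ntS2 (p' l) y + ξ' ^ 2 * ∑ k, ntS2 (p k) y) := by
  have hX : DifferentiableAt ℝ (fun z : ℝ => 1 - z ^ 2) y := by fun_prop
  have dX : ∀ k l, DifferentiableAt ℝ (fun z => (1 - z ^ 2) * p k z * p' l z) y := fun k l =>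
    (hX.mul (hp k y)).mul (hp' l y)
  have dT : ∀ k l, DifferentiableAt ℝ (fun z => c.c5 j k l z * e z * ((1 - z ^ 2) * p k z * p' l z)) y := fun k l =>
    ((hc.d5 j k l y).mul (he y)).mul (dX k l)
  have hKε : 0 ≤ 2 * (K * ε) ^ 2 := by positivity
  have hterm : ∀ k l, ntS2 (fun z => c.c5 j k l z * e z * ((1 - z ^ 2) * p k z * p' l z)) y
      ≤ 2 * (K * ε) ^ 2 * (13 * ξ ^ 2 * ntS2 (p' l) y + 3 * ξ' ^ 2 * ntS2 (p k) y) := by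
    intro k l
    have h1 := nt_term3_bound (A := fun z => (1 - z ^ 2) * p k z * p' l z) (hc.d5 j k l y) (he y) (dX k l)
      (hb.b5 j k l) hee
    have h2 := ntS2_Xpp hy (hp k y) (hp' l y)
    have h3 : ((1 - y ^ 2) * p k y) ^ 2 ≤ ξ ^ 2 := sq_le_sq' (abs_le.1 (hξ k)).1 (abs_le.1 (hξ k)).2
    have h4 : ((1 - y ^ 2) * p' l y) ^ 2 ≤ ξ' ^ 2 := sq_le_sq' (abs_le.1 (hξ' l)).1 (abs_le.1 (hξ' l)).2
    have h5 : 13 * ((1 - y ^ 2) * p k y) ^ 2 * ntS2 (p' l) y ≤ 13 * ξ ^ 2 * ntS2 (p' l) y :=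
      mul_le_mul_of_nonneg_right (by linarith) (ntS2_nonneg _ _)
    have h6 : 3 * ((1 - y ^ 2) * p' l y) ^ 2 * ntS2 (p k) y ≤ 3 * ξ' ^ 2 * ntS2 (p k) y :=
      mul_le_mul_of_nonneg_right (by linarith) (ntS2_nonneg _ _)
    exact h1.trans (mul_le_mul_of_nonneg_left (by linarith) hKε)
  have h1 := ntS2_sum (y := y) (Finset.univ : Finset (Fin 4))
    (F := fun k z => ∑ l, c.c5 j k l z * e z * ((1 - z ^ 2) * p k z * p' l z))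
    (fun k _ => DifferentiableAt.fun_sum fun l _ => dT k l)
  rw [Finset.card_univ, Fintype.card_fin] at h1
  have h2 : ∀ k, ntS2 (fun z => ∑ l, c.c5 j k l z * e z * ((1 - z ^ 2) * p k z * p' l z)) y
      ≤ ((4 : ℕ) : ℝ) * ∑ l, 2 * (K * ε) ^ 2 * (13 * ξ ^ 2 * ntS2 (p' l) y + 3 * ξ' ^ 2 * ntS2 (p k) y) := by
    intro k
    have h3 := ntS2_sum (y := y) (Finset.univ : Finset (Fin 4))
      (F := fun l z => c.c5 j k l z * e z * ((1 - z ^ 2) * p k z * p' l z)) (fun l _ => dT k l)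
    rw [Finset.card_univ, Fintype.card_fin] at h3
    exact h3.trans (mul_le_mul_of_nonneg_left (Finset.sum_le_sum fun l _ => hterm k l) (Nat.cast_nonneg _))
  have h4 : ∑ k, ntS2 (fun z => ∑ l, c.c5 j k l z * e z * ((1 - z ^ 2) * p k z * p' l z)) y
      ≤ ∑ k, ((4 : ℕ) : ℝ) * ∑ l, 2 * (K * ε) ^ 2 * (13 * ξ ^ 2 * ntS2 (p' l) y + 3 * ξ' ^ 2 * ntS2 (p k) y) :=
    Finset.sum_le_sum fun k _ => h2 k
  have h5 := h1.trans (mul_le_mul_of_nonneg_left h4 (Nat.cast_nonneg _))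
  have h6 : ntS2 (ntB5 c e p p' j) y
      = ntS2 (fun z => ∑ k, ∑ l, c.c5 j k l z * e z * ((1 - z ^ 2) * p k z * p' l z)) y := rfl
  rw [h6]
  refine h5.trans ?_
  have e1 : ∑ k : Fin 4, ((4 : ℕ) : ℝ) * ∑ l : Fin 4,
        2 * (K * ε) ^ 2 * (13 * ξ ^ 2 * ntS2 (p' l) y + 3 * ξ' ^ 2 * ntS2 (p k) y)
      = 8 * (K ^ 2 * ε ^ 2) * (52 * (ξ ^ 2 * ∑ l, ntS2 (p' l) y) + 12 * (ξ' ^ 2 * ∑ k, ntS2 (p k) y)) := by
    simp only [Fin.sum_univ_four]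
    push_cast
    ring
  rw [e1]
  have q1 : 0 ≤ ξ ^ 2 * ∑ l, ntS2 (p' l) y :=
    mul_nonneg (sq_nonneg _) (Finset.sum_nonneg fun l _ => ntS2_nonneg _ _)
  have q2 : 0 ≤ ξ' ^ 2 * ∑ k, ntS2 (p k) y :=
    mul_nonneg (sq_nonneg _) (Finset.sum_nonneg fun l _ => ntS2_nonneg _ _)
  have hKε2 : 0 ≤ K ^ 2 * ε ^ 2 := by positivity
  have r1 := mul_nonneg hKε2 q1
  have r2 := mul_nonneg hKε2 q2
  push_cast
  nlinarith

theorem nt_B0_bound (hc : c.Df) (ha : a.Df) {K κ ρ y : ℝ} (hρ : 0 < ρ) (hK : 0 ≤ K) (hκ : 0 ≤ κ)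
    (hb : c.Bd K κ ρ y) (j : Fin 3) :
    ntS2 (ntB0 c a j) y ≤ 100 * K ^ 2 * κ ^ 2 * ntAa ρ a y := by
  have dS : DifferentiableAt ℝ (fun z => ∑ k, c.c0 j k z * a.A k z) y :=
    DifferentiableAt.fun_sum fun k _ => (hc.d0 j k y).mul (ha.dA k y)
  have dT : DifferentiableAt ℝ (fun z => c.c0v j z * a.v j z) y := (hc.d0v j y).mul (ha.dv j y)
  have h0 : ntS2 (ntB0 c a j) y
      = ntS2 (fun z => (fun z => ∑ k, c.c0 j k z * a.A k z) z + (fun z => c.c0v j z * a.v j z) z) y := rfl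
  have h1 := ntS2_add dS dT
  rw [← h0] at h1
  have h2 := ntS2_sum (y := y) (Finset.univ : Finset (Fin 6)) (F := fun k z => c.c0 j k z * a.A k z)
    (fun k _ => (hc.d0 j k y).mul (ha.dA k y))
  rw [Finset.card_univ, Fintype.card_fin] at h2
  have h3 : ∑ k, ntS2 (fun z => c.c0 j k z * a.A k z) y ≤ ∑ k, 2 * (K * κ / ρ) ^ 2 * ntS2 (a.A k) y :=
    Finset.sum_le_sum fun k _ => nt_term2_bound (hc.d0 j k y) (ha.dA k y) (hb.b0 j k)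
  rw [← Finset.mul_sum] at h3
  have h4 := h2.trans (mul_le_mul_of_nonneg_left h3 (Nat.cast_nonneg _))
  have h5 := nt_term2_bound (hc.d0v j y) (ha.dv j y) (hb.b0v j)
  have hT' : ntS2 (a.v j) y ≤ ∑ i, ntS2 (a.v i) y :=
    Finset.single_le_sum (f := fun i => ntS2 (a.v i) y) (fun i _ => ntS2_nonneg _ _) (Finset.mem_univ j)
  obtain ⟨SA, hSA⟩ : ∃ SA, SA = ∑ k, ntS2 (a.A k) y := ⟨_, rfl⟩
  obtain ⟨Sp, hSp⟩ : ∃ Sp, Sp = ∑ l, ntS2 (a.p l) y := ⟨_, rfl⟩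
  obtain ⟨Sv, hSv⟩ : ∃ Sv, Sv = ∑ i, ntS2 (a.v i) y := ⟨_, rfl⟩
  have hSA0 : 0 ≤ SA := hSA ▸ Finset.sum_nonneg fun k _ => ntS2_nonneg _ _
  have hSp0 : 0 ≤ Sp := hSp ▸ Finset.sum_nonneg fun k _ => ntS2_nonneg _ _
  have hSv0 : 0 ≤ Sv := hSv ▸ Finset.sum_nonneg fun k _ => ntS2_nonneg _ _
  unfold ntAa
  rw [← hSA, ← hSp, ← hSv]
  rw [← hSA] at h4
  rw [← hSv] at hT'
  have e1 : ((6 : ℕ) : ℝ) * (2 * (K * κ / ρ) ^ 2 * SA) = 12 * (K ^ 2 * κ ^ 2) * (SA / ρ ^ 2) := by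
    field_simp
    ring
  rw [e1] at h4
  have hKκ : 0 ≤ K ^ 2 * κ ^ 2 := by positivity
  have hq : 0 ≤ SA / ρ ^ 2 := div_nonneg hSA0 (sq_nonneg _)
  have hT2 : 2 * (K * κ) ^ 2 * ntS2 (a.v j) y ≤ 2 * (K ^ 2 * κ ^ 2) * Sv := by
    have : 2 * (K * κ) ^ 2 = 2 * (K ^ 2 * κ ^ 2) := by ring
    rw [this]
    exact mul_le_mul_of_nonneg_left hT' (by positivity)
  have p1 : 0 ≤ (K ^ 2 * κ ^ 2) * (SA / ρ ^ 2) := mul_nonneg hKκ hq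
  have p2 : 0 ≤ (K ^ 2 * κ ^ 2) * Sp := mul_nonneg hKκ hSp0
  have p3 : 0 ≤ (K ^ 2 * κ ^ 2) * Sv := mul_nonneg hKκ hSv0
  nlinarith

end

end Claimed.Agent.R324.Core
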