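/-
Row 324 (S0582), PDE core, module NT (term calculus of `NN`; architect helper762).   File FormD: the two GENERIC ESTIMATES of the term sum.
   `nt_diff`     (difference of two states; gives N0 of blueprint 7.5)
   `nt_DF_bound` (derivative with respect to a parameter; gives N0T of CL and the step J = 1 of HI H4)
`α ~ [[u]] (+ [[u']])`,  `δ ~ [[u - u']]` resp. `[[∂_t u]]`,  `M` = constant of the multipliers (Core/NT/Mult.lean),  `K`, `Kd` = sizes of the coefficients and of their derivatives,  `κ` = smallness of the linear terms.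
SKETCHES   (basic bounds `nt_B1_bound` (2400), `nt_B5_bound` (2000), `nt_B0_bound` (100) in Core/NT/FormB.lean;  Σ_l ntS2 (a.p l) y ≤ ntAa ρ a y).
* `nt_diff`:  rewrite the function with `nt_F_sub` (funext) as a sum of 6 functions;  ntS2 (Σ of 6) ≤ 6 Σ ntS2  (`ntS2_sum` with `s = Finset.univ`, `F = ![f₁,…,f₆]`, `Fin.sum_univ_six`),  or `ntS2_add` repeatedly (factors 32,32,16,8,4,2): the constant 10^7 leaves room for both.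
     1. B1(c,Ps,a-a')      ≤ 2400 K² M² α² aa(a-a')
     2. B1(c,Ps-Ps',a')    ≤ 2400 K² M² δ² aa(a')
     3. B5(c,e-e',p',p')   ≤ 2000 K² M² δ² (4α² + 4α²) aa(a') ≤ 16000 K² M² δ² aa(a')         (α ≤ 1)
     4. B5(c,e,p-p',p)     ≤ 2000 K² M² (4δ² aa(a) + 4α² aa(a-a'))
     5. B5(c,e,p',p-p')    ≤ 2000 K² M² (4α² aa(a-a') + 4δ² aa(a'))
     6. B0(c,a-a')         ≤ 100 K² κ² aa(a-a') ≤ 100 K² M² κ² aa(a-a')                          (M ≥ 1)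
     α² ≤ (α+κ)², κ² ≤ (α+κ)².   Total:  6 · max(18500, 8000, 26400) ≤ 200000 ≤ 10^7.
* `nt_DF_bound`:  ntDF is a sum of 9 functions (`ntF cd ..` = 3 of them):
     1. B1(cd,Ps,a) ≤ 2400 Kd² M² aa(a)   2. B5(cd,e,p,p) ≤ 16000 Kd² M² aa(a)   3. B0(cd,a) ≤ 100 Kd² aa(a)  (κ = 1)
     4. B1(c,Pd,a) ≤ 2400 K² M² δ² aa(a)  5. B5(c,ed,p,p) ≤ 16000 K² M² δ² aa(a)
     6. B1(c,Ps,ad) ≤ 2400 K² M² α² aa(ad)   7.,8. B5(c,e,ad.p,a.p), B5(c,e,a.p,ad.p) ≤ 2000 K² M² (4δ² aa(a) + 4α² aa(ad))    9. B0(c,ad) ≤ 100 K² κ² aa(ad).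
     Total ≤ 9 · 34400 ≤ 400000 ≤ 10^8   (with `ntS2_add` repeatedly: factors ≤ 256, 256 · 34400 ≤ 10^7: group the terms as in the definition of ntDF).
-/
import Claimed.Agent.R324.Core.NT.FormB
import Claimed.Agent.R324.Core.NT.FormAlg

set_option autoImplicit false

namespace Claimed.Agent.R324.Core

open Set Filter Topology

noncomputable section

theorem ntAa_p_le (ρ : ℝ) (a : NTa) (y : ℝ) : ∑ l, ntS2 (a.p l) y ≤ ntAa ρ a y := by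
  unfold ntAa
  have h1 : 0 ≤ ∑ j, ntS2 (a.v j) y := Finset.sum_nonneg fun j _ => ntS2_nonneg _ _
  have h2 : 0 ≤ ∑ k, ntS2 (a.A k) y := Finset.sum_nonneg fun j _ => ntS2_nonneg _ _
  have h4 : 0 ≤ (∑ k, ntS2 (a.A k) y) / ρ ^ 2 := div_nonneg h2 (sq_nonneg _)
  linarith

/-- scalar arithmetic of `nt_diff`. -/
theorem nt_diff_arith {K κ M α δ D A A' PD PA PA' S1 S2 S3 S4 S5 S6 T : ℝ} (hκ : 0 ≤ κ) (hM : 1 ≤ M)
    (hα : 0 ≤ α) (hα1 : α ≤ 1) (pD : PD ≤ D) (pA : PA ≤ A) (pA' : PA' ≤ A')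
    (qD : 0 ≤ PD) (qA : 0 ≤ PA) (qA' : 0 ≤ PA')
    (b1 : S1 ≤ 2400 * K ^ 2 * (M * α) ^ 2 * D) (b2 : S2 ≤ 2400 * K ^ 2 * (M * δ) ^ 2 * A')
    (b3 : S3 ≤ 2000 * K ^ 2 * (M * δ) ^ 2 * ((2 * α) ^ 2 * PA' + (2 * α) ^ 2 * PA'))
    (b4 : S4 ≤ 2000 * K ^ 2 * M ^ 2 * ((2 * δ) ^ 2 * PA + (2 * α) ^ 2 * PD))
    (b5 : S5 ≤ 2000 * K ^ 2 * M ^ 2 * ((2 * α) ^ 2 * PD + (2 * δ) ^ 2 * PA'))
    (b6 : S6 ≤ 100 * K ^ 2 * κ ^ 2 * D)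
    (hT : T ≤ 32 * S1 + 32 * S2 + 16 * S3 + 8 * S4 + 4 * S5 + 2 * S6) :
    T ≤ 10 ^ 7 * K ^ 2 * M ^ 2 * ((α + κ) ^ 2 * D + δ ^ 2 * (A + A')) := by
  have nD : 0 ≤ D := qD.trans pD
  have nA : 0 ≤ A := qA.trans pA
  have nA' : 0 ≤ A' := qA'.trans pA'
  have hX : 0 ≤ K ^ 2 * M ^ 2 := by positivity
  have hα2 : α ^ 2 ≤ (α + κ) ^ 2 := pow_le_pow_left₀ hα (by linarith) 2
  have hκ2 : κ ^ 2 ≤ (α + κ) ^ 2 := pow_le_pow_left₀ hκ (by linarith) 2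
  have hα21 : α ^ 2 ≤ 1 := pow_le_one₀ hα hα1
  have hM2 : 1 ≤ M ^ 2 := one_le_pow₀ hM
  have hδ2 : 0 ≤ δ ^ 2 := sq_nonneg _
  have hακ : 0 ≤ (α + κ) ^ 2 := sq_nonneg _
  have eu : 0 ≤ K ^ 2 * M ^ 2 * ((α + κ) ^ 2 * D) := by positivity
  have ev : 0 ≤ K ^ 2 * M ^ 2 * (δ ^ 2 * A) := by positivity
  have ew : 0 ≤ K ^ 2 * M ^ 2 * (δ ^ 2 * A') := by positivity
  have t1 : 2400 * K ^ 2 * (M * α) ^ 2 * D ≤ 2400 * (K ^ 2 * M ^ 2 * ((α + κ) ^ 2 * D)) := by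
    have h : K ^ 2 * M ^ 2 * (α ^ 2 * D) ≤ K ^ 2 * M ^ 2 * ((α + κ) ^ 2 * D) :=
      mul_le_mul_of_nonneg_left (mul_le_mul_of_nonneg_right hα2 nD) hX
    have e : 2400 * K ^ 2 * (M * α) ^ 2 * D = 2400 * (K ^ 2 * M ^ 2 * (α ^ 2 * D)) := by ring
    rw [e]; linarith
  have t2 : 2400 * K ^ 2 * (M * δ) ^ 2 * A' = 2400 * (K ^ 2 * M ^ 2 * (δ ^ 2 * A')) := by ring
  have t3 : 2000 * K ^ 2 * (M * δ) ^ 2 * ((2 * α) ^ 2 * PA' + (2 * α) ^ 2 * PA')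
      ≤ 16000 * (K ^ 2 * M ^ 2 * (δ ^ 2 * A')) := by
    have h : α ^ 2 * PA' ≤ 1 * A' := mul_le_mul hα21 pA' qA' (by norm_num)
    rw [one_mul] at h
    have h' : K ^ 2 * M ^ 2 * (δ ^ 2 * (α ^ 2 * PA')) ≤ K ^ 2 * M ^ 2 * (δ ^ 2 * A') :=
      mul_le_mul_of_nonneg_left (mul_le_mul_of_nonneg_left h hδ2) hX
    have e : 2000 * K ^ 2 * (M * δ) ^ 2 * ((2 * α) ^ 2 * PA' + (2 * α) ^ 2 * PA')
        = 16000 * (K ^ 2 * M ^ 2 * (δ ^ 2 * (α ^ 2 * PA'))) := by ring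
    rw [e]; linarith
  have hαD : K ^ 2 * M ^ 2 * (α ^ 2 * PD) ≤ K ^ 2 * M ^ 2 * ((α + κ) ^ 2 * D) :=
    mul_le_mul_of_nonneg_left (mul_le_mul hα2 pD qD hακ) hX
  have t4 : 2000 * K ^ 2 * M ^ 2 * ((2 * δ) ^ 2 * PA + (2 * α) ^ 2 * PD)
      ≤ 8000 * (K ^ 2 * M ^ 2 * (δ ^ 2 * A)) + 8000 * (K ^ 2 * M ^ 2 * ((α + κ) ^ 2 * D)) := by
    have g' : K ^ 2 * M ^ 2 * (δ ^ 2 * PA) ≤ K ^ 2 * M ^ 2 * (δ ^ 2 * A) :=
      mul_le_mul_of_nonneg_left (mul_le_mul_of_nonneg_left pA hδ2) hX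
    have e : 2000 * K ^ 2 * M ^ 2 * ((2 * δ) ^ 2 * PA + (2 * α) ^ 2 * PD)
        = 8000 * (K ^ 2 * M ^ 2 * (δ ^ 2 * PA)) + 8000 * (K ^ 2 * M ^ 2 * (α ^ 2 * PD)) := by ring
    rw [e]; linarith
  have t5 : 2000 * K ^ 2 * M ^ 2 * ((2 * α) ^ 2 * PD + (2 * δ) ^ 2 * PA')
      ≤ 8000 * (K ^ 2 * M ^ 2 * (δ ^ 2 * A')) + 8000 * (K ^ 2 * M ^ 2 * ((α + κ) ^ 2 * D)) := by
    have g' : K ^ 2 * M ^ 2 * (δ ^ 2 * PA') ≤ K ^ 2 * M ^ 2 * (δ ^ 2 * A') :=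
      mul_le_mul_of_nonneg_left (mul_le_mul_of_nonneg_left pA' hδ2) hX
    have e : 2000 * K ^ 2 * M ^ 2 * ((2 * α) ^ 2 * PD + (2 * δ) ^ 2 * PA')
        = 8000 * (K ^ 2 * M ^ 2 * (δ ^ 2 * PA')) + 8000 * (K ^ 2 * M ^ 2 * (α ^ 2 * PD)) := by ring
    rw [e]; linarith
  have t6 : 100 * K ^ 2 * κ ^ 2 * D ≤ 100 * (K ^ 2 * M ^ 2 * ((α + κ) ^ 2 * D)) := by
    have h : κ ^ 2 * D ≤ (α + κ) ^ 2 * D := mul_le_mul_of_nonneg_right hκ2 nD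
    have h0 : 0 ≤ κ ^ 2 * D := by positivity
    have hK2 : K ^ 2 * 1 ≤ K ^ 2 * M ^ 2 := mul_le_mul_of_nonneg_left hM2 (sq_nonneg _)
    have g : K ^ 2 * 1 * (κ ^ 2 * D) ≤ K ^ 2 * M ^ 2 * ((α + κ) ^ 2 * D) := mul_le_mul hK2 h h0 hX
    have e : 100 * K ^ 2 * κ ^ 2 * D = 100 * (K ^ 2 * 1 * (κ ^ 2 * D)) := by ring
    rw [e]; linarith
  have fin : 10 ^ 7 * K ^ 2 * M ^ 2 * ((α + κ) ^ 2 * D + δ ^ 2 * (A + A'))
      = 10 ^ 7 * (K ^ 2 * M ^ 2 * ((α + κ) ^ 2 * D)) + 10 ^ 7 * (K ^ 2 * M ^ 2 * (δ ^ 2 * A))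
        + 10 ^ 7 * (K ^ 2 * M ^ 2 * (δ ^ 2 * A')) := by ring
  rw [fin]
  linarith

/-- **the generic difference estimate.** -/
theorem nt_diff {c : NTc} {Ps Ps' : Fin 7 → ℝ → ℝ} {e e' : ℝ → ℝ} {a a' : NTa} (hc : c.Df)
    (hP : ∀ m, Differentiable ℝ (Ps m)) (hP' : ∀ m, Differentiable ℝ (Ps' m)) (he : Differentiable ℝ e)
    (he' : Differentiable ℝ e') (ha : a.Df) (ha' : a'.Df) {K κ ρ M α δ y : ℝ} (hy : y ∈ Icc (-1 : ℝ) 1) (hρ : 0 < ρ)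
    (hK : 0 ≤ K) (hκ : 0 ≤ κ) (hM : 1 ≤ M) (hα : 0 ≤ α) (hα1 : α ≤ 1) (hδ : 0 ≤ δ) (hb : c.Bd K κ ρ y)
    (h1 : ∀ m, ntBk (Ps m) y ≤ M * α) (h2 : ∀ m, ntBk (fun z => Ps m z - Ps' m z) y ≤ M * δ)
    (h3 : ntBk e y ≤ M) (h4 : ntBk (fun z => e z - e' z) y ≤ M * δ)
    (h5 : ∀ l, |(1 - y ^ 2) * a.p l y| ≤ 2 * α) (h6 : ∀ l, |(1 - y ^ 2) * a'.p l y| ≤ 2 * α)
    (h7 : ∀ l, |(1 - y ^ 2) * (a.sub a').p l y| ≤ 2 * δ) (j : Fin 3) :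
    ntS2 (fun z => ntF c Ps e a j z - ntF c Ps' e' a' j z) y
      ≤ 10 ^ 7 * K ^ 2 * M ^ 2 * ((α + κ) ^ 2 * ntAa ρ (a.sub a') y + δ ^ 2 * (ntAa ρ a y + ntAa ρ a' y)) := by
  have hsub : (a.sub a').Df := ha.sub ha'
  have hPd : ∀ m, Differentiable ℝ (fun z => Ps m z - Ps' m z) := fun m => (hP m).sub (hP' m)
  have hed : Differentiable ℝ (fun z => e z - e' z) := he.sub he'
  have hM0 : 0 ≤ M := by linarith
  have d1 : Differentiable ℝ (ntB1 c Ps (a.sub a') j) := nt_B1_differentiable hc hP hsub j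
  have d2 : Differentiable ℝ (ntB1 c (fun m z => Ps m z - Ps' m z) a' j) := nt_B1_differentiable hc hPd ha' j
  have d3 : Differentiable ℝ (ntB5 c (fun z => e z - e' z) a'.p a'.p j) :=
    nt_B5_differentiable hc hed ha'.dp ha'.dp j
  have d4 : Differentiable ℝ (ntB5 c e (a.sub a').p a.p j) := nt_B5_differentiable hc he hsub.dp ha.dp j
  have d5 : Differentiable ℝ (ntB5 c e a'.p (a.sub a').p j) := nt_B5_differentiable hc he ha'.dp hsub.dp j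
  have d6 : Differentiable ℝ (ntB0 c (a.sub a') j) := nt_B0_differentiable hc hsub j
  have b1 := nt_B1_bound (y := y) hc hP hsub hρ hK (mul_nonneg hM0 hα) hb h1 j
  have b2 := nt_B1_bound (y := y) hc hPd ha' hρ hK (mul_nonneg hM0 hδ) hb h2 j
  have b3 := nt_B5_bound hc hed ha'.dp ha'.dp hy hK (mul_nonneg hM0 hδ) hb h4 h6 h6 j
  have b4 := nt_B5_bound hc he hsub.dp ha.dp hy hK hM0 hb h3 h7 h5 j
  have b5 := nt_B5_bound hc he ha'.dp hsub.dp hy hK hM0 hb h3 h6 h7 j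
  have b6 := nt_B0_bound (y := y) hc hsub hρ hK hκ hb j
  have hfun : (fun z => ntF c Ps e a j z - ntF c Ps' e' a' j z)
      = fun z => ((((ntB1 c Ps (a.sub a') j z + ntB1 c (fun m z => Ps m z - Ps' m z) a' j z)
        + ntB5 c (fun z => e z - e' z) a'.p a'.p j z) + ntB5 c e (a.sub a').p a.p j z)
        + ntB5 c e a'.p (a.sub a').p j z) + ntB0 c (a.sub a') j z :=
    funext fun z => nt_F_sub c Ps Ps' e e' a a' j z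
  rw [hfun]
  have s1 := ntS2_add (d1 y) (d2 y)
  have s2 := ntS2_add ((d1.fun_add d2) y) (d3 y)
  have s3 := ntS2_add (((d1.fun_add d2).fun_add d3) y) (d4 y)
  have s4 := ntS2_add ((((d1.fun_add d2).fun_add d3).fun_add d4) y) (d5 y)
  have s5 := ntS2_add (((((d1.fun_add d2).fun_add d3).fun_add d4).fun_add d5) y) (d6 y)
  refine nt_diff_arith hκ hM hα hα1 (ntAa_p_le ρ (a.sub a') y) (ntAa_p_le ρ a y) (ntAa_p_le ρ a' y)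
    (Finset.sum_nonneg fun l _ => ntS2_nonneg _ _) (Finset.sum_nonneg fun l _ => ntS2_nonneg _ _)
    (Finset.sum_nonneg fun l _ => ntS2_nonneg _ _) b1 b2 b3 b4 b5 b6 ?_
  linarith

/-- **the generic estimate of the derivative.** -/
theorem nt_DF_bound {c cd : NTc} {Ps Pd : Fin 7 → ℝ → ℝ} {e ed : ℝ → ℝ} {a ad : NTa} (hc : c.Df) (hcd : cd.Df)
    (hP : ∀ m, Differentiable ℝ (Ps m)) (hPd : ∀ m, Differentiable ℝ (Pd m)) (he : Differentiable ℝ e)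
    (hed : Differentiable ℝ ed) (ha : a.Df) (had : ad.Df) {K Kd κ ρ M α δ y : ℝ} (hy : y ∈ Icc (-1 : ℝ) 1)
    (hρ : 0 < ρ) (hK : 0 ≤ K) (hKd : 0 ≤ Kd) (hκ : 0 ≤ κ) (hM : 1 ≤ M) (hα : 0 ≤ α) (hα1 : α ≤ 1) (hδ : 0 ≤ δ)
    (hb : c.Bd K κ ρ y) (hbd : cd.Bd Kd 1 ρ y)
    (h1 : ∀ m, ntBk (Ps m) y ≤ M * α) (h2 : ∀ m, ntBk (Pd m) y ≤ M * δ)
    (h3 : ntBk e y ≤ M) (h4 : ntBk ed y ≤ M * δ)
    (h5 : ∀ l, |(1 - y ^ 2) * a.p l y| ≤ 2 * α) (h6 : ∀ l, |(1 - y ^ 2) * ad.p l y| ≤ 2 * δ) (j : Fin 3) :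
    ntS2 (ntDF c cd Ps Pd e ed a ad j) y
      ≤ 10 ^ 8 * M ^ 2 * ((Kd ^ 2 + K ^ 2 * δ ^ 2) * ntAa ρ a y + K ^ 2 * (α + κ) ^ 2 * ntAa ρ ad y) := by
  have hM0 : 0 ≤ M := by linarith
  have hAa := ntAa_nonneg ρ a y
  have hAd := ntAa_nonneg ρ ad y
  have hpa := ntAa_p_le ρ a y
  have hpd := ntAa_p_le ρ ad y
  have hpa0 : 0 ≤ ∑ l, ntS2 (a.p l) y := Finset.sum_nonneg fun l _ => ntS2_nonneg _ _
  have hpd0 : 0 ≤ ∑ l, ntS2 (ad.p l) y := Finset.sum_nonneg fun l _ => ntS2_nonneg _ _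
  -- differentiability of the nine terms
  have d1 := nt_B1_differentiable hcd hP ha j
  have d2 := nt_B5_differentiable hcd he ha.dp ha.dp j
  have d3 := nt_B0_differentiable hcd ha j
  have d4 := nt_B1_differentiable hc hPd ha j
  have d5 := nt_B5_differentiable hc hed ha.dp ha.dp j
  have d6 := nt_B1_differentiable hc hP had j
  have d7 := nt_B5_differentiable hc he had.dp ha.dp j
  have d8 := nt_B5_differentiable hc he ha.dp had.dp j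
  have d9 := nt_B0_differentiable hc had j
  -- the nine basic bounds
  have s1 := nt_B1_bound (a := a) hcd hP ha hρ hKd (mul_nonneg hM0 hα) hbd h1 j
  have s2 := nt_B5_bound hcd he ha.dp ha.dp hy hKd hM0 hbd h3 h5 h5 j
  have s3 := nt_B0_bound hcd ha hρ hKd zero_le_one hbd j
  have s4 := nt_B1_bound (a := a) hc hPd ha hρ hK (mul_nonneg hM0 hδ) hb h2 j
  have s5 := nt_B5_bound hc hed ha.dp ha.dp hy hK (mul_nonneg hM0 hδ) hb h4 h5 h5 j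
  have s6 := nt_B1_bound (a := ad) hc hP had hρ hK (mul_nonneg hM0 hα) hb h1 j
  have s7 := nt_B5_bound hc he had.dp ha.dp hy hK hM0 hb h3 h6 h5 j
  have s8 := nt_B5_bound hc he ha.dp had.dp hy hK hM0 hb h3 h5 h6 j
  have s9 := nt_B0_bound hc had hρ hK hκ hb j
  -- the sum
  have t1 := ntS2_add (y := y) (d1 y) (d2 y)
  have t2 := ntS2_add (y := y) ((d1.add d2) y) (d3 y)
  have t3 := ntS2_add (y := y) (d4 y) (d5 y)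
  have t4 := ntS2_add (y := y) (((d1.add d2).add d3) y) ((d4.add d5) y)
  have t5 := ntS2_add (y := y) (d6 y) (d7 y)
  have t6 := ntS2_add (y := y) ((d6.add d7) y) (d8 y)
  have t7 := ntS2_add (y := y) (((d6.add d7).add d8) y) (d9 y)
  have t8 := ntS2_add (y := y) ((((d1.add d2).add d3).add (d4.add d5)) y) ((((d6.add d7).add d8).add d9) y)
  have hsum : ntS2 (ntDF c cd Ps Pd e ed a ad j) y
      ≤ 16 * ntS2 (ntB1 cd Ps a j) y + 16 * ntS2 (ntB5 cd e a.p a.p j) y + 8 * ntS2 (ntB0 cd a j) y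
        + 8 * ntS2 (ntB1 c Pd a j) y + 8 * ntS2 (ntB5 c ed a.p a.p j) y + 16 * ntS2 (ntB1 c Ps ad j) y
        + 16 * ntS2 (ntB5 c e ad.p a.p j) y + 8 * ntS2 (ntB5 c e a.p ad.p j) y + 4 * ntS2 (ntB0 c ad j) y := by
    have e0 : ntDF c cd Ps Pd e ed a ad j = fun z =>
        (((ntB1 cd Ps a j + ntB5 cd e a.p a.p j) + ntB0 cd a j) + (ntB1 c Pd a j + ntB5 c ed a.p a.p j)) z
          + (((ntB1 c Ps ad j + ntB5 c e ad.p a.p j) + ntB5 c e a.p ad.p j) + ntB0 c ad j) z := by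
      funext z
      simp only [ntDF, ntF, Pi.add_apply]
    rw [e0]
    have u1 : (fun z => ntB1 cd Ps a j z + ntB5 cd e a.p a.p j z) = ntB1 cd Ps a j + ntB5 cd e a.p a.p j := rfl
    have u2 : (fun z => (ntB1 cd Ps a j + ntB5 cd e a.p a.p j) z + ntB0 cd a j z)
        = (ntB1 cd Ps a j + ntB5 cd e a.p a.p j) + ntB0 cd a j := rfl
    have u3 : (fun z => ntB1 c Pd a j z + ntB5 c ed a.p a.p j z) = ntB1 c Pd a j + ntB5 c ed a.p a.p j := rfl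
    have u4 : (fun z => ((ntB1 cd Ps a j + ntB5 cd e a.p a.p j) + ntB0 cd a j) z
          + (ntB1 c Pd a j + ntB5 c ed a.p a.p j) z)
        = ((ntB1 cd Ps a j + ntB5 cd e a.p a.p j) + ntB0 cd a j) + (ntB1 c Pd a j + ntB5 c ed a.p a.p j) := rfl
    have u5 : (fun z => ntB1 c Ps ad j z + ntB5 c e ad.p a.p j z) = ntB1 c Ps ad j + ntB5 c e ad.p a.p j := rfl
    have u6 : (fun z => (ntB1 c Ps ad j + ntB5 c e ad.p a.p j) z + ntB5 c e a.p ad.p j z)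
        = (ntB1 c Ps ad j + ntB5 c e ad.p a.p j) + ntB5 c e a.p ad.p j := rfl
    have u7 : (fun z => ((ntB1 c Ps ad j + ntB5 c e ad.p a.p j) + ntB5 c e a.p ad.p j) z + ntB0 c ad j z)
        = ((ntB1 c Ps ad j + ntB5 c e ad.p a.p j) + ntB5 c e a.p ad.p j) + ntB0 c ad j := rfl
    rw [u1] at t1
    rw [u2] at t2
    rw [u3] at t3
    rw [u4] at t4
    rw [u5] at t5
    rw [u6] at t6
    rw [u7] at t7
    linarith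
  -- the four monomials
  obtain ⟨x1, hx1⟩ : ∃ x, x = Kd ^ 2 * M ^ 2 * ntAa ρ a y := ⟨_, rfl⟩
  obtain ⟨x2, hx2⟩ : ∃ x, x = K ^ 2 * M ^ 2 * δ ^ 2 * ntAa ρ a y := ⟨_, rfl⟩
  obtain ⟨x3, hx3⟩ : ∃ x, x = K ^ 2 * M ^ 2 * α ^ 2 * ntAa ρ ad y := ⟨_, rfl⟩
  obtain ⟨x4, hx4⟩ : ∃ x, x = K ^ 2 * M ^ 2 * κ ^ 2 * ntAa ρ ad y := ⟨_, rfl⟩
  have hx1' : 0 ≤ x1 := by rw [hx1]; positivity
  have hx2' : 0 ≤ x2 := by rw [hx2]; positivity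
  have hx3' : 0 ≤ x3 := by rw [hx3]; positivity
  have hx4' : 0 ≤ x4 := by rw [hx4]; positivity
  have hα2 : α ^ 2 ≤ 1 := pow_le_one₀ hα hα1
  have hM2 : 1 ≤ M ^ 2 := one_le_pow₀ hM
  have r1 : ntS2 (ntB1 cd Ps a j) y ≤ 2400 * x1 := by
    refine s1.trans ?_
    have : 2400 * Kd ^ 2 * (M * α) ^ 2 * ntAa ρ a y = 2400 * (Kd ^ 2 * M ^ 2 * ntAa ρ a y) * α ^ 2 := by ring
    rw [this, ← hx1]
    exact mul_le_of_le_one_right (by linarith) hα2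
  have r2 : ntS2 (ntB5 cd e a.p a.p j) y ≤ 16000 * x1 := by
    refine s2.trans ?_
    have e1 : 2000 * Kd ^ 2 * M ^ 2 * ((2 * α) ^ 2 * ∑ l, ntS2 (a.p l) y + (2 * α) ^ 2 * ∑ k, ntS2 (a.p k) y)
        = 16000 * (Kd ^ 2 * M ^ 2) * (α ^ 2 * ∑ l, ntS2 (a.p l) y) := by ring
    rw [e1, hx1]
    have e2 : α ^ 2 * ∑ l, ntS2 (a.p l) y ≤ ntAa ρ a y := (mul_le_of_le_one_left hpa0 hα2).trans hpa
    have e3 : 0 ≤ 16000 * (Kd ^ 2 * M ^ 2) := by positivity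
    calc 16000 * (Kd ^ 2 * M ^ 2) * (α ^ 2 * ∑ l, ntS2 (a.p l) y) ≤ 16000 * (Kd ^ 2 * M ^ 2) * ntAa ρ a y :=
          mul_le_mul_of_nonneg_left e2 e3
      _ = 16000 * (Kd ^ 2 * M ^ 2 * ntAa ρ a y) := by ring
  have r3 : ntS2 (ntB0 cd a j) y ≤ 100 * x1 := by
    refine s3.trans ?_
    rw [hx1]
    have e3 : 0 ≤ 100 * (Kd ^ 2 * ntAa ρ a y) := by positivity
    calc 100 * Kd ^ 2 * 1 ^ 2 * ntAa ρ a y = 100 * (Kd ^ 2 * ntAa ρ a y) := by ring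
      _ ≤ 100 * (Kd ^ 2 * ntAa ρ a y) * M ^ 2 := le_mul_of_one_le_right e3 hM2
      _ = 100 * (Kd ^ 2 * M ^ 2 * ntAa ρ a y) := by ring
  have r4 : ntS2 (ntB1 c Pd a j) y ≤ 2400 * x2 := by
    refine s4.trans (le_of_eq ?_)
    rw [hx2]; ring
  have r5 : ntS2 (ntB5 c ed a.p a.p j) y ≤ 16000 * x2 := by
    refine s5.trans ?_
    have e1 : 2000 * K ^ 2 * (M * δ) ^ 2 * ((2 * α) ^ 2 * ∑ l, ntS2 (a.p l) y + (2 * α) ^ 2 * ∑ k, ntS2 (a.p k) y)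
        = 16000 * (K ^ 2 * M ^ 2 * δ ^ 2) * (α ^ 2 * ∑ l, ntS2 (a.p l) y) := by ring
    rw [e1, hx2]
    have e2 : α ^ 2 * ∑ l, ntS2 (a.p l) y ≤ ntAa ρ a y := (mul_le_of_le_one_left hpa0 hα2).trans hpa
    have e3 : 0 ≤ 16000 * (K ^ 2 * M ^ 2 * δ ^ 2) := by positivity
    calc 16000 * (K ^ 2 * M ^ 2 * δ ^ 2) * (α ^ 2 * ∑ l, ntS2 (a.p l) y)
        ≤ 16000 * (K ^ 2 * M ^ 2 * δ ^ 2) * ntAa ρ a y := mul_le_mul_of_nonneg_left e2 e3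
      _ = 16000 * (K ^ 2 * M ^ 2 * δ ^ 2 * ntAa ρ a y) := by ring
  have r6 : ntS2 (ntB1 c Ps ad j) y ≤ 2400 * x3 := by
    refine s6.trans (le_of_eq ?_)
    rw [hx3]; ring
  have q1 : K ^ 2 * M ^ 2 * δ ^ 2 * ∑ l, ntS2 (a.p l) y ≤ x2 := by
    rw [hx2]
    exact mul_le_mul_of_nonneg_left hpa (by positivity)
  have q2 : K ^ 2 * M ^ 2 * α ^ 2 * ∑ l, ntS2 (ad.p l) y ≤ x3 := by
    rw [hx3]
    exact mul_le_mul_of_nonneg_left hpd (by positivity)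
  have r7 : ntS2 (ntB5 c e ad.p a.p j) y ≤ 8000 * x2 + 8000 * x3 := by
    refine s7.trans ?_
    have e1 : 2000 * K ^ 2 * M ^ 2 * ((2 * δ) ^ 2 * ∑ l, ntS2 (a.p l) y + (2 * α) ^ 2 * ∑ k, ntS2 (ad.p k) y)
        = 8000 * (K ^ 2 * M ^ 2 * δ ^ 2 * ∑ l, ntS2 (a.p l) y) + 8000 * (K ^ 2 * M ^ 2 * α ^ 2 * ∑ l, ntS2 (ad.p l) y) := by
      ring
    rw [e1]
    linarith
  have r8 : ntS2 (ntB5 c e a.p ad.p j) y ≤ 8000 * x2 + 8000 * x3 := by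
    refine s8.trans ?_
    have e1 : 2000 * K ^ 2 * M ^ 2 * ((2 * α) ^ 2 * ∑ l, ntS2 (ad.p l) y + (2 * δ) ^ 2 * ∑ k, ntS2 (a.p k) y)
        = 8000 * (K ^ 2 * M ^ 2 * δ ^ 2 * ∑ l, ntS2 (a.p l) y) + 8000 * (K ^ 2 * M ^ 2 * α ^ 2 * ∑ l, ntS2 (ad.p l) y) := by
      ring
    rw [e1]
    linarith
  have r9 : ntS2 (ntB0 c ad j) y ≤ 100 * x4 := by
    refine s9.trans ?_
    rw [hx4]
    have e3 : 0 ≤ 100 * (K ^ 2 * κ ^ 2 * ntAa ρ ad y) := by positivity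
    calc 100 * K ^ 2 * κ ^ 2 * ntAa ρ ad y = 100 * (K ^ 2 * κ ^ 2 * ntAa ρ ad y) := by ring
      _ ≤ 100 * (K ^ 2 * κ ^ 2 * ntAa ρ ad y) * M ^ 2 := le_mul_of_one_le_right e3 hM2
      _ = 100 * (K ^ 2 * M ^ 2 * κ ^ 2 * ntAa ρ ad y) := by ring
  have hfin : x1 + x2 + x3 + x4
      ≤ M ^ 2 * ((Kd ^ 2 + K ^ 2 * δ ^ 2) * ntAa ρ a y + K ^ 2 * (α + κ) ^ 2 * ntAa ρ ad y) := by
    have e1 : M ^ 2 * ((Kd ^ 2 + K ^ 2 * δ ^ 2) * ntAa ρ a y + K ^ 2 * (α + κ) ^ 2 * ntAa ρ ad y)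
        = x1 + x2 + x3 + x4 + 2 * (K ^ 2 * M ^ 2 * (α * κ) * ntAa ρ ad y) := by
      rw [hx1, hx2, hx3, hx4]; ring
    rw [e1]
    have : 0 ≤ K ^ 2 * M ^ 2 * (α * κ) * ntAa ρ ad y := by positivity
    linarith
  have hfin' : 10 ^ 8 * M ^ 2 * ((Kd ^ 2 + K ^ 2 * δ ^ 2) * ntAa ρ a y + K ^ 2 * (α + κ) ^ 2 * ntAa ρ ad y)
      = 10 ^ 8 * (M ^ 2 * ((Kd ^ 2 + K ^ 2 * δ ^ 2) * ntAa ρ a y + K ^ 2 * (α + κ) ^ 2 * ntAa ρ ad y)) := by ring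
  rw [hfin']
  linarith

end

end Claimed.Agent.R324.Core
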