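/-
Row 324 (S0582), PDE core, module NT (term calculus of `NN`; architect helper762).   File Comp: `[[ψ∘h]]` for a smooth function `ψ` of one variable, `|h| ≤ 1`.
`ntBk μ y = |μ y| + |tt μ y|`,   `tt (ψ∘h) = ψ'(h) tt h`  (`tt_comp`, Core/W/TtCalc.lean).
SKETCHES.   `I = Icc (-1) 1` is convex;  mean value inequality: `Convex.norm_image_sub_le_of_norm_deriv_le` (f differentiable on I, ‖deriv f‖ ≤ M on I ⟹ ‖f b - f a‖ ≤ M ‖b - a‖).   `|s| ≤ 1 ↔ s ∈ Icc (-1) 1` (`abs_le`).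
* `nt_comp_bk`:      |ψ(h)| = |ψ(h) - ψ(0)| ≤ M |h|;    |tt(ψ∘h)| = |ψ'(h)| |tt h| ≤ M |tt h|.
* `nt_comp_bk'`:     |ψ(h)| ≤ M₀;   |tt(ψ∘h)| ≤ M |tt h| ≤ M [[h]].
* `nt_comp_bk_sub`:  |ψ(h) - ψ(k)| ≤ M |h - k|;    tt(ψ∘h - ψ∘k) = ψ'(h) tt h - ψ'(k) tt k = ψ'(h) (tt h - tt k) + (ψ'(h) - ψ'(k)) tt k,   |ψ'(h) - ψ'(k)| ≤ M |h - k| (mean value inequality for ψ' = deriv ψ, whose derivative is `deriv (deriv ψ)`),  |tt k| ≤ [[k]] ≤ 1;
                     tt (h - k) = tt h - tt k (`tt_sub`).     Total ≤ M |h-k| + M |tt(h-k)| + M |h-k| ≤ 2 M [[h-k]].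
* `nt_comp_bk_deriv`:  `ntBk_mul` + `nt_comp_bk'` for ψ' :   [[ψ'(h)]] ≤ M + M [[h]] ≤ 2 M.
-/
import Claimed.Agent.R324.Core.NT.Basic

set_option autoImplicit false

namespace Claimed.Agent.R324.Core

open Set Filter Topology
open scoped ContDiff

noncomputable section

variable {ψ h k h1 : ℝ → ℝ} {M M₀ y : ℝ}

theorem nt_mvt {φ : ℝ → ℝ} {M a b : ℝ} (hφ : Differentiable ℝ φ) (hM : ∀ s, |s| ≤ 1 → |deriv φ s| ≤ M)
    (ha : |a| ≤ 1) (hb : |b| ≤ 1) : |φ b - φ a| ≤ M * |b - a| := by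
  have hc : Convex ℝ (Icc (-1 : ℝ) 1) := convex_Icc _ _
  have h := hc.norm_image_sub_le_of_norm_deriv_le (f := φ) (C := M) (x := a) (y := b)
    (fun x _ => hφ x) (fun x hx => by rw [Real.norm_eq_abs]; exact hM x (abs_le.2 hx))
    (abs_le.1 ha) (abs_le.1 hb)
  simpa [Real.norm_eq_abs] using h

theorem nt_comp_bk (hψ : ContDiff ℝ ∞ ψ) (h0 : ψ 0 = 0) (hM : ∀ s, |s| ≤ 1 → |deriv ψ s| ≤ M)
    (hh : DifferentiableAt ℝ h y) (hy : |h y| ≤ 1) : ntBk (fun z => ψ (h z)) y ≤ M * ntBk h y := by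
  have hd : Differentiable ℝ ψ := hψ.differentiable (by simp)
  unfold ntBk
  rw [tt_comp (hd _) hh, abs_mul]
  have h1 := nt_mvt hd hM (a := 0) (b := h y) (by simp) hy
  rw [h0, sub_zero, sub_zero] at h1
  have h2 := hM _ hy
  have h3 := mul_le_mul_of_nonneg_right h2 (abs_nonneg (tt h y))
  beta_reduce
  linarith

theorem nt_comp_bk' (hψ : ContDiff ℝ ∞ ψ) (hM0 : ∀ s, |s| ≤ 1 → |ψ s| ≤ M₀) (hM : ∀ s, |s| ≤ 1 → |deriv ψ s| ≤ M)
    (hh : DifferentiableAt ℝ h y) (hy : |h y| ≤ 1) : ntBk (fun z => ψ (h z)) y ≤ M₀ + M * ntBk h y := by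
  have hd : Differentiable ℝ ψ := hψ.differentiable (by simp)
  have hM' : 0 ≤ M := (abs_nonneg _).trans (hM _ hy)
  unfold ntBk
  rw [tt_comp (hd _) hh, abs_mul]
  have h1 := hM0 _ hy
  have h2 := hM _ hy
  have h3 := mul_le_mul_of_nonneg_right h2 (abs_nonneg (tt h y))
  have h4 := mul_nonneg hM' (abs_nonneg (h y))
  beta_reduce
  linarith

theorem nt_comp_bk_sub (hψ : ContDiff ℝ ∞ ψ) (hM : ∀ s, |s| ≤ 1 → |deriv ψ s| ≤ M)
    (hM2 : ∀ s, |s| ≤ 1 → |deriv (deriv ψ) s| ≤ M) (hh : DifferentiableAt ℝ h y) (hk : DifferentiableAt ℝ k y)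
    (hy : |h y| ≤ 1) (hk1 : ntBk k y ≤ 1) :
    ntBk (fun z => ψ (h z) - ψ (k z)) y ≤ 2 * M * ntBk (fun z => h z - k z) y := by
  have hd : Differentiable ℝ ψ := hψ.differentiable (by simp)
  have hψ' : ContDiff ℝ ∞ (deriv ψ) := by
    have : ContDiff ℝ (∞ + 1) ψ := by simpa using hψ
    exact (contDiff_succ_iff_deriv.1 this).2.2
  have hd' : Differentiable ℝ (deriv ψ) := hψ'.differentiable (by simp)
  have hM' : 0 ≤ M := (abs_nonneg _).trans (hM _ hy)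
  have hky : |k y| ≤ 1 := (ntBk_abs_le k y).trans hk1
  have hkt : |tt k y| ≤ 1 := (ntBk_tt_le k y).trans hk1
  have c1 : DifferentiableAt ℝ (fun z => ψ (h z)) y := (hd _).comp y hh
  have c2 : DifferentiableAt ℝ (fun z => ψ (k z)) y := (hd _).comp y hk
  unfold ntBk
  rw [tt_sub c1 c2, tt_comp (hd _) hh, tt_comp (hd _) hk, tt_sub hh hk]
  beta_reduce
  have h1 := nt_mvt hd hM hky hy
  have h2 := nt_mvt hd' hM2 hky hy
  have e : deriv ψ (h y) * tt h y - deriv ψ (k y) * tt k y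
      = deriv ψ (h y) * (tt h y - tt k y) + (deriv ψ (h y) - deriv ψ (k y)) * tt k y := by ring
  rw [e]
  have h3 := abs_add_le (deriv ψ (h y) * (tt h y - tt k y)) ((deriv ψ (h y) - deriv ψ (k y)) * tt k y)
  rw [abs_mul, abs_mul] at h3
  have h4 := mul_le_mul_of_nonneg_right (hM _ hy) (abs_nonneg (tt h y - tt k y))
  have h5 : |deriv ψ (h y) - deriv ψ (k y)| * |tt k y| ≤ (M * |h y - k y|) * 1 :=
    mul_le_mul h2 hkt (abs_nonneg _) (mul_nonneg hM' (abs_nonneg _))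
  have h6 := mul_nonneg hM' (abs_nonneg (tt h y - tt k y))
  linarith

theorem nt_comp_bk_deriv (hψ : ContDiff ℝ ∞ ψ) (hM : ∀ s, |s| ≤ 1 → |deriv ψ s| ≤ M)
    (hM2 : ∀ s, |s| ≤ 1 → |deriv (deriv ψ) s| ≤ M) (hh : DifferentiableAt ℝ h y) (hh1 : DifferentiableAt ℝ h1 y)
    (hy : ntBk h y ≤ 1) :
    ntBk (fun z => deriv ψ (h z) * h1 z) y ≤ 2 * M * ntBk h1 y := by
  have hψ' : ContDiff ℝ ∞ (deriv ψ) := by
    have : ContDiff ℝ (∞ + 1) ψ := by simpa using hψ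
    exact (contDiff_succ_iff_deriv.1 this).2.2
  have hd' : Differentiable ℝ (deriv ψ) := hψ'.differentiable (by simp)
  have hhy : |h y| ≤ 1 := (ntBk_abs_le h y).trans hy
  have hM' : 0 ≤ M := (abs_nonneg _).trans (hM _ hhy)
  have c1 : DifferentiableAt ℝ (fun z => deriv ψ (h z)) y := (hd' _).comp y hh
  have h1 := ntBk_mul c1 hh1
  have h2 := nt_comp_bk' hψ' hM hM2 hh hhy
  have h3 : ntBk (fun z => deriv ψ (h z)) y ≤ 2 * M := by
    have := mul_le_mul_of_nonneg_left hy hM'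
    linarith
  exact h1.trans (mul_le_mul_of_nonneg_right h3 (ntBk_nonneg _ _))

end

end Claimed.Agent.R324.Core
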