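/-
Row 324 (S0582), PDE core, module NT (term calculus of `NN`; architect helper762).   File Mult: THE MULTIPLIERS   `ntPsF q U = (e₁-1, e₂-1, e₃-1, 1-Φ₁(h₁), 1-Φ₁(h₂), 1-Φ₁(h₃), e₂ Φ₁(β) - 1)`   and `e₁`.
   `u = uT U = (σ, h₃, β)`, `β = X b`;    `h₁ = u₀ + q/(q+1) u₂`,  `h₂ = u₀ - 1/(q+1) u₂`,  `h₃ = u₁`;     `[[u]] = ntUb U t y = Σ_i [[u_i]]`.
SKETCHES.   Generic lemmas: Core/NT/Comp.lean (`nt_comp_bk`, `nt_comp_bk'`, `nt_comp_bk_sub`, `nt_comp_bk_deriv`), `ntBk_mul, ntBk_add, ntBk_sub, ntBk_const_mul, ntBk_const` (Core/NT/Basic.lean).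
* the slices:  `sl (h1F q U) t = fun z => sl (uT U 0) t z + q/(q+1) * sl (uT U 2) t z`  (funext; simp [sl, h1F, uT]);   same for h₂, β = `sl (uT U 2) t`, h₃ = `sl (uT U 1) t`.
     Hence (`nt_h_bk`)  [[h_i]] ≤ [[u]]  and [[β]] ≤ [[u]]   (0 ≤ q/(q+1) ≤ 1, 0 ≤ 1/(q+1) ≤ 1 for q ≥ 0;  `Fin.sum_univ_three`).     In particular |h_i(y)| ≤ [[u]] ≤ 1.
* ψ_E(s) = exp(-s) - 1:  ψ_E 0 = 0,  ψ_E' = -exp(-s), ψ_E'' = exp(-s),  both ≤ e ≤ 3 in absolute value on [-1,1]  (`Real.exp_one_lt_d9`).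
  ψ_G(s) = 1 - Ph1 s:     ψ_G 0 = 0 (`ph1_zero`),  |ψ_G'|, |ψ_G''| ≤ 3 on [-1,1]  (`ph_iteratedDeriv_abs_le`, `iteratedDeriv_one`, `iteratedDeriv_two`/`iteratedDeriv_succ`; Core/PR/Ph.lean), smooth by `ph1_contDiff`.
* (a) `nt_mult_bound`:   [[E_i]], [[G_i]] ≤ 3 [[u]].     K₀ = e₂ Φ₁(β) - 1 = E₂ P + E₂ + P with P = Φ₁(β) - 1 = -ψ_G(β):   [[K₀]] ≤ 9 [[u]]² + 6 [[u]] ≤ 15 [[u]].       e₁ = E₁ + 1:  [[e₁]] ≤ 1 + 3 = 4.
* (b) `nt_mult_diff`:    [[ψ(h) - ψ(k)]] ≤ 6 [[h - k]] ≤ 6 δ,  δ = [[u - v]]  (h_i is linear in u: the slice of h_i(U) - h_i(V) is h_i(U - V));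
                         K₀ - K₀' = (E₂ - E₂') P + E₂' (P - P') + (E₂ - E₂') + (P - P'):   ≤ 6δ·3 + 3·6δ + 12 δ = 48 δ.
* (c) `nt_mult_dT`:      ∂_t ψ(h) = ψ'(h) ∂_t h   (`dT_comp`/`dT_exp`, Core/PR/Sm.lean; as FUNCTIONS of y at fixed t < 0: funext),    ∂_t h_i(U) = h_i(∂_t U)  (`dT_h1F, dT_h2F`, Core/PR/Jet1.lean; `dT_y_mul`),   `nt_comp_bk_deriv`: ≤ 6 δ, δ = [[∂_t u]];
                         ∂_t K₀ = (∂_t E₂) P + E₂ ∂_t P + ∂_t E₂ + ∂_t P ≤ 48 δ.         ∂_t e₁ = ∂_t E₁.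
-/
import Claimed.Agent.R324.Core.NT.Comp
import Claimed.Agent.R324.Core.NT.Smooth
import Claimed.Agent.R324.Core.PR.Jet1

set_option autoImplicit false

namespace Claimed.Agent.R324.Core

open Set Filter Topology
open scoped ContDiff

noncomputable section

variable {q : ℝ} {U V : Tri} {t y : ℝ}

theorem ntUb_nonneg (U : Tri) (t y : ℝ) : 0 ≤ ntUb U t y := Finset.sum_nonneg fun _ _ => ntBk_nonneg _ _

theorem nt_ma_Ub_eq (U : Tri) (t y : ℝ) :
    ntUb U t y = ntBk (sl (U 0) t) y + ntBk (sl (U 1) t) y + ntBk (sl (beF U) t) y := by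
  unfold ntUb
  rw [Fin.sum_univ_three, uT_zero, uT_one, uT_two]
  rfl

/-- `[[h₁]], [[h₂]], [[h₃]], [[β]] ≤ [[u]]`. -/
theorem nt_h_bk (hq : 0 ≤ q) (hU : ∀ j, Sm (U j)) (ht : t < 0) (y : ℝ) :
    ntBk (sl (h1F q U) t) y ≤ ntUb U t y ∧ ntBk (sl (h2F q U) t) y ≤ ntUb U t y ∧
      ntBk (sl (U 1) t) y ≤ ntUb U t y ∧ ntBk (sl (beF U) t) y ≤ ntUb U t y := by
  have d0 : DifferentiableAt ℝ (sl (U 0) t) y := nt_sl_differentiable (hU 0) ht y
  have d2 : DifferentiableAt ℝ (sl (beF U) t) y := nt_sl_differentiable (sm_beF hU) ht y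
  have n0 := ntBk_nonneg (sl (U 0) t) y
  have n1 := ntBk_nonneg (sl (U 1) t) y
  have n2 := ntBk_nonneg (sl (beF U) t) y
  have hq1 : 0 < q + 1 := by linarith
  have c1 : |q / (q + 1)| ≤ 1 := by
    rw [abs_of_nonneg (div_nonneg hq hq1.le), div_le_one hq1]
    linarith
  have c2 : |1 / (q + 1)| ≤ 1 := by
    rw [abs_of_nonneg (div_nonneg zero_le_one hq1.le), div_le_one hq1]
    linarith
  rw [nt_ma_Ub_eq]
  refine ⟨?_, ?_, by linarith, by linarith⟩
  · have e : sl (h1F q U) t = fun z => sl (U 0) t z + q / (q + 1) * sl (beF U) t z := rfl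
    rw [e]
    have h1 := ntBk_add d0 (d2.const_mul (q / (q + 1)))
    rw [ntBk_const_mul _ d2] at h1
    nlinarith
  · have e : sl (h2F q U) t = fun z => sl (U 0) t z - 1 / (q + 1) * sl (beF U) t z := rfl
    rw [e]
    have h1 := ntBk_sub d0 (d2.const_mul (1 / (q + 1)))
    rw [ntBk_const_mul _ d2] at h1
    nlinarith

theorem nt_ma_psiE_contDiff : ContDiff ℝ ∞ (fun s : ℝ => Real.exp (-s) - 1) := by fun_prop

theorem nt_ma_psiE_deriv_le {s : ℝ} (hs : |s| ≤ 1) : |deriv (fun s : ℝ => Real.exp (-s) - 1) s| ≤ 3 := by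
  have h1 : HasDerivAt (fun s : ℝ => Real.exp (-s) - 1) (Real.exp (-s) * (-1)) s :=
    ((hasDerivAt_neg s).exp).sub_const 1
  rw [h1.deriv, mul_neg_one, abs_neg, abs_of_pos (Real.exp_pos _)]
  have h2 : Real.exp (-s) ≤ Real.exp 1 := Real.exp_le_exp.2 (by linarith [(abs_le.1 hs).1])
  have h3 := Real.exp_one_lt_d9
  linarith

theorem nt_ma_psiG_contDiff : ContDiff ℝ ∞ (fun s : ℝ => 1 - Ph1 s) := contDiff_const.sub ph1_contDiff

theorem nt_ma_psiG_deriv_le {s : ℝ} (hs : |s| ≤ 1) : |deriv (fun s : ℝ => 1 - Ph1 s) s| ≤ 3 := by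
  have hd : DifferentiableAt ℝ Ph1 s := (ph1_contDiff.differentiable (by simp)) s
  rw [deriv_const_sub, abs_neg]
  have := (ph_iteratedDeriv_abs_le 1 hs).1
  rwa [iteratedDeriv_one] at this

/-- (a) size of the multipliers. -/
theorem nt_mult_bound (hq : 0 ≤ q) (hU : ∀ j, Sm (U j)) (ht : t < 0) (h : ntUb U t y ≤ 1) :
    (∀ m, ntBk (ntPs q U t m) y ≤ 50 * ntUb U t y) ∧ ntBk (sl (e1F q U) t) y ≤ 50 := by
  obtain ⟨b1, b2, b3, b4⟩ := nt_h_bk hq hU ht y
  have hu := ntUb_nonneg U t y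
  have d1 : DifferentiableAt ℝ (sl (h1F q U) t) y := nt_sl_differentiable (sm_h1F q hU) ht y
  have d2 : DifferentiableAt ℝ (sl (h2F q U) t) y := nt_sl_differentiable (sm_h2F q hU) ht y
  have d3 : DifferentiableAt ℝ (sl (U 1) t) y := nt_sl_differentiable (hU 1) ht y
  have d4 : DifferentiableAt ℝ (sl (beF U) t) y := nt_sl_differentiable (sm_beF hU) ht y
  have a1 : |sl (h1F q U) t y| ≤ 1 := (ntBk_abs_le _ _).trans (b1.trans h)
  have a2 : |sl (h2F q U) t y| ≤ 1 := (ntBk_abs_le _ _).trans (b2.trans h)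
  have a3 : |sl (U 1) t y| ≤ 1 := (ntBk_abs_le _ _).trans (b3.trans h)
  have a4 : |sl (beF U) t y| ≤ 1 := (ntBk_abs_le _ _).trans (b4.trans h)
  have E0 : (fun s : ℝ => Real.exp (-s) - 1) 0 = 0 := by simp
  have G0 : (fun s : ℝ => 1 - Ph1 s) 0 = 0 := by simp [ph1_zero]
  have E1 := nt_comp_bk nt_ma_psiE_contDiff E0 (fun s hs => nt_ma_psiE_deriv_le hs) d1 a1
  have E2 := nt_comp_bk nt_ma_psiE_contDiff E0 (fun s hs => nt_ma_psiE_deriv_le hs) d2 a2
  have E3 := nt_comp_bk nt_ma_psiE_contDiff E0 (fun s hs => nt_ma_psiE_deriv_le hs) d3 a3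
  have G1 := nt_comp_bk nt_ma_psiG_contDiff G0 (fun s hs => nt_ma_psiG_deriv_le hs) d1 a1
  have G2 := nt_comp_bk nt_ma_psiG_contDiff G0 (fun s hs => nt_ma_psiG_deriv_le hs) d2 a2
  have G3 := nt_comp_bk nt_ma_psiG_contDiff G0 (fun s hs => nt_ma_psiG_deriv_le hs) d3 a3
  have G4 := nt_comp_bk nt_ma_psiG_contDiff G0 (fun s hs => nt_ma_psiG_deriv_le hs) d4 a4
  beta_reduce at E1 E2 E3 G1 G2 G3 G4
  have dE1 : DifferentiableAt ℝ (fun z => Real.exp (-sl (h1F q U) t z) - 1) y := by fun_prop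
  have dE2 : DifferentiableAt ℝ (fun z => Real.exp (-sl (h2F q U) t z) - 1) y := by fun_prop
  have dG4 : DifferentiableAt ℝ (fun z => 1 - Ph1 (sl (beF U) t z)) y :=
    (differentiableAt_const _).sub (((ph1_contDiff.differentiable (by simp)) _).comp y d4)
  constructor
  · intro m
    fin_cases m
    · have e : ntPs q U t 0 = fun z => Real.exp (-sl (h1F q U) t z) - 1 := rfl
      show ntBk (ntPs q U t 0) y ≤ _
      rw [e]; linarith
    · have e : ntPs q U t 1 = fun z => Real.exp (-sl (h2F q U) t z) - 1 := rfl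
      show ntBk (ntPs q U t 1) y ≤ _
      rw [e]; linarith
    · have e : ntPs q U t 2 = fun z => Real.exp (-sl (U 1) t z) - 1 := rfl
      show ntBk (ntPs q U t 2) y ≤ _
      rw [e]; linarith
    · have e : ntPs q U t 3 = fun z => 1 - Ph1 (sl (h1F q U) t z) := rfl
      show ntBk (ntPs q U t 3) y ≤ _
      rw [e]; linarith
    · have e : ntPs q U t 4 = fun z => 1 - Ph1 (sl (h2F q U) t z) := rfl
      show ntBk (ntPs q U t 4) y ≤ _
      rw [e]; linarith
    · have e : ntPs q U t 5 = fun z => 1 - Ph1 (sl (U 1) t z) := rfl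
      show ntBk (ntPs q U t 5) y ≤ _
      rw [e]; linarith
    · have e : ntPs q U t 6 = fun z => ((Real.exp (-sl (h2F q U) t z) - 1)
          - (Real.exp (-sl (h2F q U) t z) - 1) * (1 - Ph1 (sl (beF U) t z))) - (1 - Ph1 (sl (beF U) t z)) := by
        funext z
        have : ntPs q U t 6 z = Real.exp (-sl (h2F q U) t z) * Ph1 (sl (beF U) t z) - 1 := rfl
        rw [this]; ring
      show ntBk (ntPs q U t 6) y ≤ _
      rw [e]
      have dM : DifferentiableAt ℝ (fun z => (Real.exp (-sl (h2F q U) t z) - 1) * (1 - Ph1 (sl (beF U) t z))) y :=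
        dE2.mul dG4
      have dS : DifferentiableAt ℝ (fun z => (Real.exp (-sl (h2F q U) t z) - 1)
          - (Real.exp (-sl (h2F q U) t z) - 1) * (1 - Ph1 (sl (beF U) t z))) y := dE2.sub dM
      have k1 := ntBk_mul dE2 dG4
      have k2 := ntBk_sub dE2 dM
      have k3 := ntBk_sub dS dG4
      have n1 := ntBk_nonneg (fun z => Real.exp (-sl (h2F q U) t z) - 1) y
      have n2 := ntBk_nonneg (fun z => 1 - Ph1 (sl (beF U) t z)) y
      have k4 : ntBk (fun z => Real.exp (-sl (h2F q U) t z) - 1) y * ntBk (fun z => 1 - Ph1 (sl (beF U) t z)) y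
          ≤ (3 * ntUb U t y) * 3 := by
        apply mul_le_mul (by linarith) (by linarith) n2 (by linarith)
      linarith
  · have e : sl (e1F q U) t = fun z => (Real.exp (-sl (h1F q U) t z) - 1) + 1 := by
      funext z
      have : sl (e1F q U) t z = Real.exp (-sl (h1F q U) t z) := rfl
      rw [this]; ring
    rw [e]
    have k1 := ntBk_add dE1 (differentiableAt_const (1 : ℝ))
    rw [ntBk_const] at k1
    simp only [abs_one] at k1
    linarith

/-! ### auxiliary lemmas for (b), (c)  (helper737; prefix `nt_md_`) -/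

/-- `ψ_E(s) = exp(-s) - 1`. -/
def ntMdE (s : ℝ) : ℝ := Real.exp (-s) - 1

/-- `ψ_G(s) = 1 - Φ₁(s)`. -/
def ntMdG (s : ℝ) : ℝ := 1 - Ph1 s

/-- hygiene. -/
theorem core_nt_mult_md_hygiene : True := by
  have := @ntMdE.eq_1
  have := @ntMdG.eq_1
  trivial

/-- the properties of `ψ_E`, `ψ_G` which are used. -/
structure NtMdOk (ψ : ℝ → ℝ) : Prop where
  cd : ContDiff ℝ ∞ ψ
  z : ψ 0 = 0
  d1 : ∀ s, |s| ≤ 1 → |deriv ψ s| ≤ 3
  d2 : ∀ s, |s| ≤ 1 → |deriv (deriv ψ) s| ≤ 3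

theorem nt_md_exp_le {s : ℝ} (hs : |s| ≤ 1) : Real.exp (-s) ≤ 3 := by
  have h1 : -s ≤ |s| := neg_le_abs s
  exact (Real.exp_le_exp.2 h1).trans (ph_c_exp_le hs)

theorem nt_md_E_hasDerivAt (s : ℝ) : HasDerivAt ntMdE (-Real.exp (-s)) s := by
  have h1 : HasDerivAt (fun s : ℝ => -s) (-1) s := (hasDerivAt_id s).neg
  have h2 := (h1.exp).sub_const 1
  have e : Real.exp (-s) * -1 = -Real.exp (-s) := by ring
  rw [e] at h2
  exact h2

theorem nt_md_E_deriv : deriv ntMdE = fun s => -Real.exp (-s) := by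
  funext s
  exact (nt_md_E_hasDerivAt s).deriv

theorem nt_md_E_deriv2 : deriv (deriv ntMdE) = fun s => Real.exp (-s) := by
  rw [nt_md_E_deriv]
  funext s
  have h1 : HasDerivAt (fun s : ℝ => -s) (-1) s := (hasDerivAt_id s).neg
  have h2 := (h1.exp).neg
  have e : -(Real.exp (-s) * -1) = Real.exp (-s) := by ring
  rw [e] at h2
  exact h2.deriv

theorem nt_md_E : NtMdOk ntMdE where
  cd := by
    unfold ntMdE
    fun_prop
  z := by simp [ntMdE]
  d1 := fun s hs => by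
    rw [nt_md_E_deriv]
    simp only []
    rw [abs_neg, abs_of_pos (Real.exp_pos _)]
    exact nt_md_exp_le hs
  d2 := fun s hs => by
    rw [nt_md_E_deriv2]
    simp only []
    rw [abs_of_pos (Real.exp_pos _)]
    exact nt_md_exp_le hs

theorem nt_md_G_deriv : deriv ntMdG = fun s => -iteratedDeriv 1 Ph1 s := by
  funext s
  have h1 : HasDerivAt Ph1 (deriv Ph1 s) s :=
    (ph1_contDiff.differentiable (by simp) s).hasDerivAt
  rw [iteratedDeriv_one]
  exact (h1.const_sub 1).deriv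

theorem nt_md_G_deriv2 : deriv (deriv ntMdG) = fun s => -iteratedDeriv 2 Ph1 s := by
  rw [nt_md_G_deriv]
  funext s
  have h0 : ContDiff ℝ ∞ (iteratedDeriv 1 Ph1) := by
    rw [iteratedDeriv_eq_iterate]
    exact ContDiff.iterate_deriv 1 ph1_contDiff
  have h1 : HasDerivAt (iteratedDeriv 1 Ph1) (deriv (iteratedDeriv 1 Ph1) s) s :=
    (h0.differentiable (by simp) s).hasDerivAt
  have e2 : iteratedDeriv 2 Ph1 s = deriv (iteratedDeriv 1 Ph1) s := by
    rw [iteratedDeriv_succ]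
  rw [e2]
  exact h1.fun_neg.deriv

theorem nt_md_G : NtMdOk ntMdG where
  cd := by
    unfold ntMdG
    exact contDiff_const.sub ph1_contDiff
  z := by simp [ntMdG, ph1_zero]
  d1 := fun s hs => by
    rw [nt_md_G_deriv]
    simp only []
    rw [abs_neg]
    exact (ph_iteratedDeriv_abs_le 1 hs).1
  d2 := fun s hs => by
    rw [nt_md_G_deriv2]
    simp only []
    rw [abs_neg]
    exact (ph_iteratedDeriv_abs_le 2 hs).1

/-- the properties of `h₁, h₂, h₃, β` (linear functions of `u`) which are used. -/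
structure NtMdLin (H : Tri → Fn) : Prop where
  sm : ∀ U : Tri, (∀ j, Sm (U j)) → Sm (H U)
  bk : ∀ U : Tri, (∀ j, Sm (U j)) → ∀ t : ℝ, t < 0 → ∀ y, ntBk (sl (H U) t) y ≤ ntUb U t y
  sub : ∀ (U V : Tri) (p : ℝ × ℝ), H U p - H V p = H (fun j p => U j p - V j p) p
  dt : ∀ U : Tri, (∀ j, Sm (U j)) → ∀ t : ℝ, t < 0 → ∀ y, dT (H U) (t, y) = H (fun j => dT (U j)) (t, y)

theorem nt_md_lin1 (hq : 0 ≤ q) : NtMdLin (h1F q) where
  sm := fun U hU => sm_h1F q hU
  bk := fun U hU t ht y => (nt_h_bk hq hU ht y).1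
  sub := fun U V p => by
    unfold h1F
    ring
  dt := fun U hU t ht y => by
    rw [dT_h1F q hU ht y]
    rfl

theorem nt_md_lin2 (hq : 0 ≤ q) : NtMdLin (h2F q) where
  sm := fun U hU => sm_h2F q hU
  bk := fun U hU t ht y => (nt_h_bk hq hU ht y).2.1
  sub := fun U V p => by
    unfold h2F
    ring
  dt := fun U hU t ht y => by
    rw [dT_h2F q hU ht y]
    rfl

theorem nt_md_lin3 : NtMdLin (fun U => U 1) where
  sm := fun _ hU => hU 1
  bk := fun _ hU _ ht y => (nt_h_bk (q := 0) le_rfl hU ht y).2.2.1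
  sub := fun _ _ _ => rfl
  dt := fun _ _ _ _ _ => rfl

theorem nt_md_lin4 : NtMdLin beF where
  sm := fun U hU => sm_beF hU
  bk := fun U hU t ht y => (nt_h_bk (q := 0) le_rfl hU ht y).2.2.2
  sub := fun U V p => by
    unfold beF
    ring
  dt := fun U hU t ht y => by
    show dT (fun p => Xf p.2 * U 2 p) (t, y) = _
    rw [dT_y_mul Xf (hU 2) ht y]
    rfl

section
variable {ψ : ℝ → ℝ} {H : Tri → Fn}

theorem nt_md_df (hψ : NtMdOk ψ) (hH : NtMdLin H) (hU : ∀ j, Sm (U j)) (ht : t < 0) (y : ℝ) :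
    DifferentiableAt ℝ (fun z => ψ (H U (t, z))) y :=
  nt_sl_differentiable (Sm.comp hψ.cd (hH.sm U hU)) ht y

theorem nt_md_comp_bound (hψ : NtMdOk ψ) (hH : NtMdLin H) (hU : ∀ j, Sm (U j)) (ht : t < 0)
    (h : ntUb U t y ≤ 1) : ntBk (fun z => ψ (H U (t, z))) y ≤ 3 * ntUb U t y := by
  have h1 := hH.bk U hU t ht y
  have h2 : |sl (H U) t y| ≤ 1 := (ntBk_abs_le _ _).trans (h1.trans h)
  have h3 := nt_comp_bk (h := sl (H U) t) hψ.cd hψ.z hψ.d1 (nt_sl_differentiable (hH.sm U hU) ht y) h2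
  exact h3.trans (by linarith)

theorem nt_md_comp_diff (hψ : NtMdOk ψ) (hH : NtMdLin H) (hU : ∀ j, Sm (U j)) (hV : ∀ j, Sm (V j)) (ht : t < 0)
    (h : ntUb U t y ≤ 1) (h' : ntUb V t y ≤ 1) :
    ntBk (fun z => ψ (H U (t, z)) - ψ (H V (t, z))) y ≤ 6 * ntUb (fun j p => U j p - V j p) t y := by
  have h1 := hH.bk U hU t ht y
  have h1' := hH.bk V hV t ht y
  have h2 : |sl (H U) t y| ≤ 1 := (ntBk_abs_le _ _).trans (h1.trans h)
  have h3 := nt_comp_bk_sub (h := sl (H U) t) (k := sl (H V) t) hψ.cd hψ.d1 hψ.d2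
    (nt_sl_differentiable (hH.sm U hU) ht y) (nt_sl_differentiable (hH.sm V hV) ht y) h2 (h1'.trans h')
  have e : (fun z => sl (H U) t z - sl (H V) t z) = sl (H (fun j p => U j p - V j p)) t := by
    funext z
    exact hH.sub U V (t, z)
  rw [e] at h3
  have h4 := hH.bk (fun j p => U j p - V j p) (fun j => (hU j).sub (hV j)) t ht y
  exact h3.trans (by linarith)

theorem nt_md_dT_eq (hψ : NtMdOk ψ) (hH : NtMdLin H) (hU : ∀ j, Sm (U j)) (ht : t < 0) :
    sl (dT (fun p => ψ (H U p))) t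
      = fun z => deriv ψ (sl (H U) t z) * sl (H (fun j => dT (U j))) t z := by
  funext z
  show dT (fun p => ψ (H U p)) (t, z) = _
  rw [dT_comp (hψ.cd.differentiable (by simp)) (hH.sm U hU) ht z, hH.dt U hU t ht z]
  rfl

theorem nt_md_comp_dT (hψ : NtMdOk ψ) (hH : NtMdLin H) (hU : ∀ j, Sm (U j)) (ht : t < 0)
    (h : ntUb U t y ≤ 1) :
    ntBk (sl (dT (fun p => ψ (H U p))) t) y ≤ 6 * ntUb (fun j => dT (U j)) t y := by
  rw [nt_md_dT_eq hψ hH hU ht]
  have h1 := hH.bk U hU t ht y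
  have h3 := nt_comp_bk_deriv (h := sl (H U) t) (h1 := sl (H (fun j => dT (U j))) t) hψ.cd hψ.d1 hψ.d2
    (nt_sl_differentiable (hH.sm U hU) ht y)
    (nt_sl_differentiable (hH.sm _ (fun j => (hU j).dT)) ht y) (h1.trans h)
  have h4 := hH.bk (fun j => dT (U j)) (fun j => (hU j).dT) t ht y
  exact h3.trans (by linarith)

end

/-- the combination which occurs in `K₀ - K₀'` and in `∂_t K₀`. -/
theorem nt_md_comb {a b G E : ℝ → ℝ} {δ : ℝ} (ha : DifferentiableAt ℝ a y) (hb : DifferentiableAt ℝ b y)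
    (hG : DifferentiableAt ℝ G y) (hE : DifferentiableAt ℝ E y) (h1 : ntBk a y ≤ 6 * δ) (h2 : ntBk b y ≤ 6 * δ)
    (h3 : ntBk G y ≤ 3) (h4 : ntBk E y ≤ 3) :
    ntBk (fun z => a z - b z - (a z * G z + E z * b z)) y ≤ 48 * δ := by
  have k1 := ntBk_sub (f := fun z => a z - b z) (g := fun z => a z * G z + E z * b z) (ha.sub hb)
    ((ha.mul hG).add (hE.mul hb))
  have k2 := ntBk_sub ha hb
  have k3 := ntBk_add (f := fun z => a z * G z) (g := fun z => E z * b z) (ha.mul hG) (hE.mul hb)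
  have k4 := ntBk_mul ha hG
  have k5 := ntBk_mul hE hb
  have k6 : ntBk a y * ntBk G y ≤ 6 * δ * 3 :=
    mul_le_mul h1 h3 (ntBk_nonneg _ _) ((ntBk_nonneg _ _).trans h1)
  have k7 : ntBk E y * ntBk b y ≤ 3 * (6 * δ) :=
    mul_le_mul h4 h2 (ntBk_nonneg _ _) (by norm_num)
  linarith

/-- (b) differences. -/
theorem nt_mult_diff (hq : 0 ≤ q) (hU : ∀ j, Sm (U j)) (hV : ∀ j, Sm (V j)) (ht : t < 0) (h : ntUb U t y ≤ 1)
    (h' : ntUb V t y ≤ 1) :
    (∀ m, ntBk (fun z => ntPs q U t m z - ntPs q V t m z) y ≤ 50 * ntUb (fun j p => U j p - V j p) t y) ∧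
      ntBk (fun z => sl (e1F q U) t z - sl (e1F q V) t z) y ≤ 50 * ntUb (fun j p => U j p - V j p) t y := by
  have hδ : 0 ≤ ntUb (fun j p => U j p - V j p) t y := ntUb_nonneg _ _ _
  have a1 := nt_md_comp_diff nt_md_E (nt_md_lin1 hq) hU hV ht h h'
  have a2 := nt_md_comp_diff nt_md_E (nt_md_lin2 hq) hU hV ht h h'
  have a3 := nt_md_comp_diff nt_md_E nt_md_lin3 hU hV ht h h'
  have b1 := nt_md_comp_diff nt_md_G (nt_md_lin1 hq) hU hV ht h h'
  have b2 := nt_md_comp_diff nt_md_G (nt_md_lin2 hq) hU hV ht h h'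
  have b3 := nt_md_comp_diff nt_md_G nt_md_lin3 hU hV ht h h'
  have b4 := nt_md_comp_diff nt_md_G nt_md_lin4 hU hV ht h h'
  refine ⟨fun m => ?_, ?_⟩
  · fin_cases m
    · exact le_trans a1 (by linarith)
    · exact le_trans a2 (by linarith)
    · exact le_trans a3 (by linarith)
    · exact le_trans b1 (by linarith)
    · exact le_trans b2 (by linarith)
    · exact le_trans b3 (by linarith)
    · have e : (fun z => ntPs q U t 6 z - ntPs q V t 6 z)
          = fun z => (ntMdE (h2F q U (t, z)) - ntMdE (h2F q V (t, z)))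
              - (ntMdG (beF U (t, z)) - ntMdG (beF V (t, z)))
              - ((ntMdE (h2F q U (t, z)) - ntMdE (h2F q V (t, z))) * ntMdG (beF U (t, z))
                  + ntMdE (h2F q V (t, z)) * (ntMdG (beF U (t, z)) - ntMdG (beF V (t, z)))) := by
        funext z
        show e2F q U (t, z) * Ph1 (beF U (t, z)) - 1 - (e2F q V (t, z) * Ph1 (beF V (t, z)) - 1) = _
        unfold ntMdE ntMdG e2F
        ring
      have c1 := nt_md_comp_bound nt_md_G nt_md_lin4 hU ht h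
      have c2 := nt_md_comp_bound nt_md_E (nt_md_lin2 hq) hV ht h'
      have k := nt_md_comb (y := y)
        ((nt_md_df nt_md_E (nt_md_lin2 hq) hU ht y).sub (nt_md_df nt_md_E (nt_md_lin2 hq) hV ht y))
        ((nt_md_df nt_md_G nt_md_lin4 hU ht y).sub (nt_md_df nt_md_G nt_md_lin4 hV ht y))
        (nt_md_df nt_md_G nt_md_lin4 hU ht y) (nt_md_df nt_md_E (nt_md_lin2 hq) hV ht y)
        a2 b4 (c1.trans (by linarith)) (c2.trans (by linarith))
      show ntBk (fun z => ntPs q U t 6 z - ntPs q V t 6 z) y ≤ _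
      rw [e]
      exact le_trans k (by linarith)
  · have e : (fun z => sl (e1F q U) t z - sl (e1F q V) t z)
        = fun z => ntMdE (h1F q U (t, z)) - ntMdE (h1F q V (t, z)) := by
      funext z
      show e1F q U (t, z) - e1F q V (t, z) = _
      unfold ntMdE e1F
      ring
    rw [e]
    exact le_trans a1 (by linarith)

/-- (c) time derivatives. -/
theorem nt_mult_dT (hq : 0 ≤ q) (hU : ∀ j, Sm (U j)) (ht : t < 0) (h : ntUb U t y ≤ 1) :
    (∀ m, ntBk (sl (dT (ntPsF q U m)) t) y ≤ 50 * ntUb (fun j => dT (U j)) t y) ∧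
      ntBk (sl (dT (e1F q U)) t) y ≤ 50 * ntUb (fun j => dT (U j)) t y := by
  have hδ : 0 ≤ ntUb (fun j => dT (U j)) t y := ntUb_nonneg _ _ _
  have a1 := nt_md_comp_dT nt_md_E (nt_md_lin1 hq) hU ht h
  have a2 := nt_md_comp_dT nt_md_E (nt_md_lin2 hq) hU ht h
  have a3 := nt_md_comp_dT nt_md_E nt_md_lin3 hU ht h
  have b1 := nt_md_comp_dT nt_md_G (nt_md_lin1 hq) hU ht h
  have b2 := nt_md_comp_dT nt_md_G (nt_md_lin2 hq) hU ht h
  have b3 := nt_md_comp_dT nt_md_G nt_md_lin3 hU ht h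
  have b4 := nt_md_comp_dT nt_md_G nt_md_lin4 hU ht h
  refine ⟨fun m => ?_, ?_⟩
  · fin_cases m
    · exact le_trans a1 (by linarith)
    · exact le_trans a2 (by linarith)
    · exact le_trans a3 (by linarith)
    · exact le_trans b1 (by linarith)
    · exact le_trans b2 (by linarith)
    · exact le_trans b3 (by linarith)
    · have sE : Sm (fun p => ntMdE (h2F q U p)) := Sm.comp nt_md_E.cd (sm_h2F q hU)
      have sG : Sm (fun p => ntMdG (beF U p)) := Sm.comp nt_md_G.cd (sm_beF hU)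
      have e0 : ntPsF q U 6
          = fun p => (ntMdE (h2F q U p) - ntMdG (beF U p)) - ntMdE (h2F q U p) * ntMdG (beF U p) := by
        funext p
        show e2F q U p * Ph1 (beF U p) - 1 = _
        unfold ntMdE ntMdG e2F
        ring
      have e : sl (dT (ntPsF q U 6)) t
          = fun z => sl (dT (fun p => ntMdE (h2F q U p))) t z - sl (dT (fun p => ntMdG (beF U p))) t z
              - (sl (dT (fun p => ntMdE (h2F q U p))) t z * ntMdG (beF U (t, z))
                  + ntMdE (h2F q U (t, z)) * sl (dT (fun p => ntMdG (beF U p))) t z) := by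
        funext z
        rw [e0]
        show dT (fun p => (ntMdE (h2F q U p) - ntMdG (beF U p)) - ntMdE (h2F q U p) * ntMdG (beF U p)) (t, z) = _
        rw [dT_sub (sE.sub sG) (sE.mul sG) ht z, dT_sub sE sG ht z, dT_mul sE sG ht z]
        rfl
      have c1 := nt_md_comp_bound nt_md_G nt_md_lin4 hU ht h
      have c2 := nt_md_comp_bound nt_md_E (nt_md_lin2 hq) hU ht h
      have k := nt_md_comb (y := y) (nt_sl_differentiable sE.dT ht y) (nt_sl_differentiable sG.dT ht y)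
        (nt_md_df nt_md_G nt_md_lin4 hU ht y) (nt_md_df nt_md_E (nt_md_lin2 hq) hU ht y)
        a2 b4 (c1.trans (by linarith)) (c2.trans (by linarith))
      show ntBk (sl (dT (ntPsF q U 6)) t) y ≤ _
      rw [e]
      exact le_trans k (by linarith)
  · have e : sl (dT (e1F q U)) t = sl (dT (fun p => ntMdE (h1F q U p))) t := by
      funext z
      show dT (e1F q U) (t, z) = dT (fun p => e1F q U p - 1) (t, z)
      rw [dT_sub (sm_e1F q hU) (sm_const 1) ht z, dT_const]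
      ring
    rw [e]
    exact le_trans a1 (by linarith)

end

end Claimed.Agent.R324.Core
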