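/-
Row 324 (S0582), PDE core, module NT.   File Struct0: the structure identity for `j = 0` (helper386; subtask NT.6).
-/
import Claimed.Agent.R324.Core.NT.Defs
import Claimed.Agent.R324.Core.PR.Jet1

set_option autoImplicit false

namespace Claimed.Agent.R324.Core

open Set Filter Topology

noncomputable section

variable {q : ℝ} {g : Bg} {U : Tri} {t : ℝ}

theorem nt0_dY_Zd (hg : BgSm g) (ht : t < 0) (y : ℝ) :
    dY (ntZd g) (t, y)
      = (2 * g.Z (t, y) * dY g.Z (t, y) * g.dd (t, y) + g.Z (t, y) ^ 2 * dY g.dd (t, y)) / 2 := by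
  have hZ := hg.smZ.hasDerivAt_y ht y
  have hdd := hg.smdd.hasDerivAt_y ht y
  have H := ((hZ.pow 2).mul hdd).div_const 2
  refine (dY_of_hasDerivAt (f := ntZd g) H).trans ?_
  simp only [Pi.pow_apply]
  push_cast
  ring

theorem nt0_dY_Zw (hg : BgSm g) (ht : t < 0) (y : ℝ) :
    dY (ntZw g) (t, y) = dY g.Z (t, y) * g.wp (t, y) + g.Z (t, y) * g.wpp (t, y) := by
  have hZ := hg.smZ.hasDerivAt_y ht y
  have hwp : HasDerivAt (fun z => g.wp (t, z)) (g.wpp (t, y)) y := hg.smwp.hasDerivAt_y ht y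
  exact dY_of_hasDerivAt (f := ntZw g) (hZ.mul hwp)

theorem nt_struct0_aux (hq : 1 < q) (hg : BgSm g) (hU : ∀ j, Sm (U j)) (ht : t < 0) (y : ℝ) :
    uT (NN q g U) 0 (t, y)
      = ntF ((ntCF q g).sl t) (ntPs q U t) (sl (e1F q U) t) ((ntAF q g U).sl t) 0 y := by
  have hZt := (bgR_sm hq hg).Z_mul ht y
  have r1 : (U 0 (t, y) + q / (q + 1) * (Xf y * U 2 (t, y))) * Ph1 (h1F q U (t, y)) = 1 - e1F q U (t, y) :=
    ph1_mul (h1F q U (t, y))
  have r2 : (U 0 (t, y) - 1 / (q + 1) * (Xf y * U 2 (t, y))) * Ph1 (h2F q U (t, y)) = 1 - e2F q U (t, y) :=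
    ph1_mul (h2F q U (t, y))
  have r3 : U 1 (t, y) * Ph1 (U 1 (t, y)) = 1 - e3F U (t, y) := ph1_mul (U 1 (t, y))
  have hq1 : q + 1 ≠ 0 := by linarith
  have rb : Xf y * (U 2 (t, y) * e2F q U (t, y) * Ph1 (beF U (t, y))) = e2F q U (t, y) - e1F q U (t, y) :=
    X_mul_bPh hq1 U (t, y)
  have hi : (q + 1) * (q + 1)⁻¹ = 1 := mul_inv_cancel₀ hq1
  simp only [ntF, ntB1, ntB5, ntB0, Fin.sum_univ_seven, Fin.sum_univ_six, Fin.sum_univ_four]
  simp only [ntCF, NTcF.sl, NTaF.sl, ntC1, ntC2, ntC5, ntC0, ntPs, ntPsF, ntAF, sl]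
  simp only [Matrix.cons_val_zero, Matrix.cons_val_one, Matrix.cons_val]
  simp only [zero_mul, add_zero, zero_add]
  have hch : ∀ (g' : Bg) (k : Fin 3), ntCh q g' 0 k (t, y) = g'.cf q 0 k (t, y) := by
    intro g' k
    simp [ntCh]
  simp only [hch]
  have hv : uT (Lt q g U) 0 (t, y) = (bgR q g).Z (t, y) * Xf y * dY (dY (U 0)) (t, y)
      + (-(q + 1) * y * (bgR q g).Z (t, y) + Xf y * (bgR q g).w1 (t, y)) * dY (U 0) (t, y)
      + ((bgR q g).cf q 0 0 (t, y) * U 0 (t, y) + (bgR q g).cf q 0 1 (t, y) * U 1 (t, y)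
        + Xf y * (bgR q g).cf q 0 2 (t, y) * U 2 (t, y)) := by
    simp [uT, Lt, Lop, Fin.sum_univ_three, facJ, dimJ, Xf]
  have hN : uT (NN q g U) 0 (t, y)
      = (R1F q g U (t, y) + q * R2F q g U (t, y)) / (q + 1) - uT (Lt q g U) 0 (t, y) := by
    simp [uT, NN, Rhs]
  rw [hN, hv]
  have hu0 : uT U 0 (t, y) = U 0 (t, y) := by simp [uT]
  have hu1 : uT U 1 (t, y) = U 1 (t, y) := by simp [uT]
  have hu2 : uT U 2 (t, y) = Xf y * U 2 (t, y) := by simp [uT]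
  have ht0 : ttF (uT U 0) (t, y) = -(Xf y) * dY (U 0) (t, y) := by
    rw [uT_zero]; rfl
  have ht1 : ttF (uT U 1) (t, y) = -(Xf y) * dY (U 1) (t, y) := by
    rw [uT_one]; rfl
  rw [hu0, hu1, hu2, ht0, ht1]
  have c00 : g.cf q 0 0 (t, y) = (-g.Z (t, y) * Xf y * g.wp (t, y) ^ 2 - 2 * q * y * g.Z (t, y) ^ 2 * g.dd (t, y)
      + 2 * q * g.Z (t, y) * ((q - 1) * g.B (t, y) + q + 1)) / (q + 1) := by
    simp [Bg.cf]
  have c01 : g.cf q 0 1 (t, y) = g.Z (t, y) * ((2 * q + 2) * y * g.wp (t, y)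
      + Xf y * g.Z (t, y) * g.dd (t, y) * g.wp (t, y) - 2 * Xf y * g.wpp (t, y)) / (q + 1) := by
    simp [Bg.cf]
  have c02 : g.cf q 0 2 (t, y) = q / (q + 1) * g.Z (t, y) * (-Xf y * g.wp (t, y) ^ 2
      - (q - 1) * y * g.Z (t, y) * g.dd (t, y) - 2 * (q - 1) * g.B (t, y)) / (q + 1) := by
    simp [Bg.cf]
  rw [c00, c01, c02]
  have C0 : ntCC q g 0 0 (t, y) = (g.Z (t, y) * (Xf y * g.app (t, y) - y * g.ap (t, y) - Xf y * g.ap (t, y) ^ 2 / 2
        + Xf y * g.wp (t, y) ^ 2) - 2 * q * g.Z (t, y) - Xf y * g.ap (t, y) * ntZd g (t, y)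
        + 2 * (q + 1) * y * ntZd g (t, y) - 2 * Xf y * dY (ntZd g) (t, y)) / (q + 1) := by
    simp [ntCC]
  have C1 : ntCC q g 0 1 (t, y) = (-q * y * g.Z (t, y) * g.ap (t, y) + 2 * q * y * g.Z (t, y) ^ 2 * g.dd (t, y)
        - q * g.Z (t, y) * (2 * (q - 1) * g.B (t, y) + 2 * q)) / (q + 1) := by
    simp [ntCC]
  have C2 : ntCC q g 0 2 (t, y) = (Xf y * g.ap (t, y) * ntZw g (t, y) - 2 * (q + 1) * y * ntZw g (t, y)
        + 2 * Xf y * dY (ntZw g) (t, y)) / (q + 1) := by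
    simp [ntCC]
  rw [C0, C1, C2]
  clear hN hv hch c00 c01 c02 C0 C1 C2 hu0 hu1 hu2 ht0 ht1
  simp only [R1F, R2F]
  rw [dY_GGF q hg hU ht y, dY_ggF q hg hU ht y, nt0_dY_Zd hg ht y, nt0_dY_Zw hg ht y]
  simp only [DD]
  rw [dY_dY_h1F q hU ht y, dY_dY_h2F q hU ht y, dY_h1F q hU ht y, dY_h2F q hU ht y,
    dY_e1F q hU ht y, dY_e2F q hU ht y, dY_e3F hU ht y, dY_h1F q hU ht y, dY_h2F q hU ht y,
    hg.app_eq ht y, hg.dY_Z ht y]
  generalize (bgR q g).w1 (t, y) = w1t at *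
  simp only [GGF, ggF, Bg.w0, Bg.w1, Bg.ap, ntZe, ntZd, ntZw, bPh] at *
  generalize Ph1 (h1F q U (t, y)) = P1 at *
  generalize Ph1 (h2F q U (t, y)) = P2 at *
  generalize Ph1 (U 1 (t, y)) = P3 at *
  generalize Ph1 (beF U (t, y)) = Pb at *
  generalize e1F q U (t, y) = e1 at *
  generalize e2F q U (t, y) = e2 at *
  generalize e3F U (t, y) = e3 at *
  generalize (bgR q g).Z (t, y) = Zt at *
  generalize (bgR q g).B (t, y) = Bt at *
  generalize (bgR q g).cf q 0 0 (t, y) = ca at *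
  generalize (bgR q g).cf q 0 1 (t, y) = cb at *
  generalize (bgR q g).cf q 0 2 (t, y) = cc at *
  generalize dY g.dd (t, y) = dp at *
  generalize g.dd (t, y) = d at *
  generalize g.Z (t, y) = Z at *
  generalize g.B (t, y) = B at *
  generalize g.W (t, y) = W at *
  generalize g.wp (t, y) = wa at *
  generalize g.wpp (t, y) = wb at *
  generalize dY (dY (U 0)) (t, y) = sa at *
  generalize dY (dY (U 2)) (t, y) = sc at *
  generalize dY (U 0) (t, y) = pa at *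
  generalize dY (U 1) (t, y) = pb at *
  generalize dY (U 2) (t, y) = pc at *
  generalize U 0 (t, y) = ua at *
  generalize U 1 (t, y) = ub at *
  generalize U 2 (t, y) = uc at *
  simp only [Xf, div_eq_mul_inv, mul_inv, ← inv_pow] at *
  generalize (q + 1)⁻¹ = i at *
  clear hq1 hU hg ht hq
  linear_combination (-(Z * e1 * ((1 - y ^ 2) * sa - (q + 1) * y * pa))) * hZt
    + ((Z * ((1 - y ^ 2) * (-Z ^ 2 * d ^ 2 + Z * dp) - y * (Z * d) - (1 - y ^ 2) * (Z * d) ^ 2 * 2⁻¹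
          + (1 - y ^ 2) * wa ^ 2) - 2 * q * Z - (1 - y ^ 2) * (Z * d) * (Z ^ 2 * d * 2⁻¹)
          + 2 * (q + 1) * y * (Z ^ 2 * d * 2⁻¹)
          - 2 * (1 - y ^ 2) * ((2 * Z * (-Z ^ 2 * d) * d + Z ^ 2 * dp) * 2⁻¹)) * i) * r1
    + ((-q * y * Z * (Z * d) + 2 * q * y * Z ^ 2 * d - q * Z * (2 * (q - 1) * B + 2 * q)) * i) * r2
    + (((1 - y ^ 2) * (Z * d) * (Z * wa) - 2 * (q + 1) * y * (Z * wa)
          + 2 * (1 - y ^ 2) * (-Z ^ 2 * d * wa + Z * wb)) * i) * r3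
    + (2 * q * Z * i) * rb
    + (W * pa - W * pa * y ^ 2 - Z * e1 * pa * y + Z * e1 * sa - Z * e1 * sa * y ^ 2 - Z * e2 * pa * q * y
          + Z * e3 * pa * wa - Z * e3 * pa * wa * y ^ 2 - (1 / 2) * Z ^ 2 * d * e1 * pa
          + (1 / 2) * Z ^ 2 * d * e1 * pa * y ^ 2) * hi

end

end Claimed.Agent.R324.Core
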