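/-
Row 324 (S0582), PDE core, module NT.   File Struct2: the structure identity for the component `j = 2` (`nt_struct2_aux`), used by Core/NT/Struct.lean.
-/
import Claimed.Agent.R324.Core.NT.Defs
import Claimed.Agent.R324.Core.PR.Jet1

set_option autoImplicit false

namespace Claimed.Agent.R324.Core

open Set Filter Topology

noncomputable section

variable {q : ℝ} {g : Bg} {U : Tri} {t : ℝ}

theorem nt2_dY_Zd (hg : BgSm g) (ht : t < 0) (y : ℝ) :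
    dY (ntZd g) (t, y)
      = (2 * g.Z (t, y) * dY g.Z (t, y) * g.dd (t, y) + (g.Z (t, y)) ^ 2 * dY g.dd (t, y)) / 2 := by
  have hZ := hg.smZ.hasDerivAt_y ht y
  have hdd := hg.smdd.hasDerivAt_y ht y
  have H := ((hZ.pow 2).mul hdd).div_const 2
  refine (dY_of_hasDerivAt (f := ntZd g) H).trans ?_
  simp only [Pi.pow_apply]
  push_cast
  ring

theorem nt2_dY_Zw (hg : BgSm g) (ht : t < 0) (y : ℝ) :
    dY (ntZw g) (t, y) = dY g.Z (t, y) * g.wp (t, y) + g.Z (t, y) * g.wpp (t, y) := by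
  have hZ := hg.smZ.hasDerivAt_y ht y
  have hwp : HasDerivAt (fun z => g.wp (t, z)) (g.wpp (t, y)) y := hg.smwp.hasDerivAt_y ht y
  have H := hZ.mul hwp
  exact dY_of_hasDerivAt (f := ntZw g) H

theorem nt_struct2_aux (hq : 1 < q) (hg : BgSm g) (hU : ∀ j, Sm (U j)) (ht : t < 0) (y : ℝ) :
    uT (NN q g U) 2 (t, y)
      = ntF ((ntCF q g).sl t) (ntPs q U t) (sl (e1F q U) t) ((ntAF q g U).sl t) 2 y := by
  have hZt := (bgR_sm hq hg).Z_mul ht y
  have r1 := ph1_mul (h1F q U (t, y))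
  have r2 := ph1_mul (h2F q U (t, y))
  have r3 := ph1_mul (U 1 (t, y))
  have hq1 : q + 1 ≠ 0 := by linarith
  have rb1 := e1F_eq hq1 U (t, y)
  have rb2 := ph1_ph2 (beF U (t, y))
  have hZ := hg.Z_mul ht y
  have hd : g.dd (t, y) = -2 * y * g.B (t, y) + Xf y * g.Bp (t, y) := dY_X_mul hg.smB ht y
  simp only [ntF, ntB1, ntB5, ntB0, Fin.sum_univ_seven, Fin.sum_univ_six, Fin.sum_univ_four]
  simp only [ntCF, NTcF.sl, NTaF.sl, ntC1, ntC2, ntC5, ntC0, ntPs, ntPsF, ntAF, sl]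
  simp only [Matrix.cons_val_zero, Matrix.cons_val_one, Matrix.cons_val]
  simp only [zero_mul, add_zero, zero_add]
  have hch0 : ∀ (g' : Bg), ntCh q g' 2 0 (t, y) = Xf y * g'.cf q 2 0 (t, y) := by
    intro g'
    simp [ntCh]
  have hch1 : ∀ (g' : Bg), ntCh q g' 2 1 (t, y) = Xf y * g'.cf q 2 1 (t, y) := by
    intro g'
    simp [ntCh]
  have hch2 : ∀ (g' : Bg), ntCh q g' 2 2 (t, y) = g'.cf q 2 2 (t, y) := by
    intro g'
    simp [ntCh]
  simp only [hch0, hch1, hch2]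
  have hv : uT (Lt q g U) 2 (t, y) = Xf y * ((bgR q g).Z (t, y) * Xf y * dY (dY (U 2)) (t, y)
      + (-(q + 5) * y * (bgR q g).Z (t, y) + Xf y * (bgR q g).w1 (t, y)) * dY (U 2) (t, y)
      + ((bgR q g).cf q 2 0 (t, y) * U 0 (t, y) + (bgR q g).cf q 2 1 (t, y) * U 1 (t, y)
        + (bgR q g).cf q 2 2 (t, y) * U 2 (t, y))) := by
    simp [uT, Lt, Lop, Fin.sum_univ_three, facJ, dimJ, Xf]
  have hN : uT (NN q g U) 2 (t, y) = Xf y * RbF q g U (t, y) - uT (Lt q g U) 2 (t, y) := by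
    simp [uT, NN, Rhs]
    ring
  rw [hN, hv]
  have hu0 : uT U 0 (t, y) = U 0 (t, y) := by simp [uT]
  have hu1 : uT U 1 (t, y) = U 1 (t, y) := by simp [uT]
  have hu2 : uT U 2 (t, y) = Xf y * U 2 (t, y) := by simp [uT]
  have ht1 : ttF (uT U 1) (t, y) = -(Xf y) * dY (U 1) (t, y) := by
    rw [uT_one]; rfl
  have ht2 : ttF (uT U 2) (t, y) = 2 * y * Xf y * U 2 (t, y) - (Xf y) ^ 2 * dY (U 2) (t, y) := by
    rw [uT_two, ttF_X_mul (hU 2) ht y]
  simp only [hu0, hu1, hu2, ht1, ht2]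
  have c20 : g.cf q 2 0 (t, y) = -g.Z (t, y) * g.wp (t, y) ^ 2
      - (q - 1) * g.Z (t, y) ^ 2 * (y * g.Bp (t, y) + 2 * g.B (t, y) * (g.B (t, y) + 1)) := by
    simp [Bg.cf]
  have c21 : g.cf q 2 1 (t, y) = g.Z (t, y) * (-2 * g.wpp (t, y) + g.Z (t, y) * g.dd (t, y) * g.wp (t, y)) := by
    simp [Bg.cf]
  have c22 : g.cf q 2 2 (t, y) = (g.Z (t, y) * (2 * (q - 1) * g.B (t, y) - 4 * (q + 1))
      - q * g.Z (t, y) * Xf y * g.wp (t, y) ^ 2 + 2 * q * y * g.Z (t, y) ^ 2 * g.dd (t, y)) / (q + 1)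
        - 2 * y * g.w1 (t, y) := by
    simp [Bg.cf]
  rw [c20, c21, c22]
  have C0 : ntCC q g 2 0 (t, y) = Xf y * (g.Z (t, y) * (g.app (t, y) - g.ap (t, y) ^ 2 / 2 + g.wp (t, y) ^ 2)
      - g.Z (t, y) * g.dd (t, y) * ntZd g (t, y) - 2 * dY (ntZd g) (t, y)) := by
    simp [ntCC]
  have C1 : ntCC q g 2 1 (t, y) = Xf y * ((q - 1) * g.Z (t, y) ^ 2
      * (2 * g.B (t, y) * (g.B (t, y) + 1) + y * g.Bp (t, y))) := by
    simp [ntCC]
  have C2 : ntCC q g 2 2 (t, y) = Xf y * (g.Z (t, y) * g.dd (t, y) * ntZw g (t, y) + 2 * dY (ntZw g) (t, y)) := by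
    simp [ntCC]
  rw [C0, C1, C2]
  rw [nt2_dY_Zd hg ht y, nt2_dY_Zw hg ht y]
  simp only [RbF]
  rw [dY_ggF q hg hU ht y, dY_e1F q hU ht y, dY_e3F hU ht y, dY_h1F q hU ht y, dY_h2F q hU ht y,
    hg.app_eq ht y, hg.dY_Z ht y]
  simp only [GGF, ggF, Bg.w0, Bg.w1, Bg.ap, ntZe, ntZd, ntZw, bPh, beF] at *
  have he1 : Real.exp (-h1F q U (t, y)) = e1F q U (t, y) := rfl
  have he2 : Real.exp (-h2F q U (t, y)) = e2F q U (t, y) := rfl
  have he3 : Real.exp (-U 1 (t, y)) = e3F U (t, y) := rfl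
  rw [he1] at r1
  rw [he2] at r2
  rw [he3] at r3
  clear hN hv hch0 hch1 hch2 c20 c21 c22 C0 C1 C2 hu0 hu1 hu2 ht1 ht2 he1 he2 he3
  generalize e1F q U (t, y) = e1 at *
  generalize e2F q U (t, y) = e2 at *
  generalize e3F U (t, y) = e3 at *
  generalize Ph1 (h1F q U (t, y)) = P1 at *
  generalize Ph1 (h2F q U (t, y)) = P2 at *
  generalize Ph1 (U 1 (t, y)) = P3 at *
  generalize Ph1 (Xf (t, y).2 * U 2 (t, y)) = Pb at *
  generalize Ph2 (Xf (t, y).2 * U 2 (t, y)) = Qb at *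
  simp only [h1F, h2F] at r1 r2
  generalize U 0 (t, y) = s0 at *
  generalize U 1 (t, y) = s1 at *
  generalize U 2 (t, y) = b at *
  generalize dY (U 0) (t, y) = s0' at *
  generalize dY (U 1) (t, y) = s1' at *
  generalize dY (U 2) (t, y) = b' at *
  generalize dY (dY (U 2)) (t, y) = b'' at *
  generalize g.Z (t, y) = Z at *
  generalize g.B (t, y) = B at *
  generalize g.Bp (t, y) = Bp at *
  generalize g.dd (t, y) = d at *
  generalize dY g.dd (t, y) = d' at *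
  generalize g.wp (t, y) = w' at *
  generalize g.wpp (t, y) = w'' at *
  generalize g.W (t, y) = W at *
  generalize (bgR q g).Z (t, y) = Zt at *
  generalize (bgR q g).B (t, y) = Bt at *
  generalize (bgR q g).wp (t, y) = wt' at *
  generalize (bgR q g).dd (t, y) = dt at *
  generalize (bgR q g).W (t, y) = Wt at *
  generalize (bgR q g).cf q 2 0 (t, y) = ct0 at *
  generalize (bgR q g).cf q 2 1 (t, y) = ct1 at *
  generalize (bgR q g).cf q 2 2 (t, y) = ct2 at *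
  have rb3 : Pb = 1 - Xf y * b * Qb := by linarith
  subst rb3
  subst rb1
  clear rb2
  simp only [Xf] at *
  obtain ⟨s, rfl⟩ : ∃ s, q = s - 1 := ⟨q + 1, by ring⟩
  have hs1 : s - 1 + 1 = s := by ring
  simp only [hs1] at *
  field_simp at r1 r2 ⊢
  linear_combination (2 * s ^ 2 * (-(Z * (e2 * (1 - (1 - y ^ 2) * b * (1 - (1 - y ^ 2) * b * Qb))) * (1 - y ^ 2) * ((1 - y ^ 2) * b'' - (s + 4) * y * b')))) * hZt
    + (2 * s * ((1 - y ^ 2) * (Z * (-Z ^ 2 * d ^ 2 + Z * d' - (Z * d) ^ 2 / 2 + w' ^ 2) - Z * d * (Z ^ 2 * d / 2) -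
                              2 * ((2 * Z * (-Z ^ 2 * d) * d + Z ^ 2 * d') / 2)))) * r1
    + (2 * s * ((1 - y ^ 2) * ((s - 2) * Z ^ 2 * (2 * B * (B + 1) + y * Bp)))) * r2
    + (2 * s ^ 2 * ((1 - y ^ 2) * (Z * d * (Z * w') + 2 * (-Z ^ 2 * d * w' + Z * w'')))) * r3
    + (-2 * s * (s - 2) * (1 - y ^ 2) * b * y * Z ^ 2) * hd
    + (4 * s * (s - 2) * (1 - y ^ 2) * b * Z * B) * hZ

end

end Claimed.Agent.R324.Core
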