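/-
Row 324 (S0582), PDE core, module NT (term calculus of `NN`; architect helper762).   File Struct: THE STRUCTURE IDENTITY  (blueprint 7.5 (S1)-(S3), in one step)
      u-form of `NN q g U`  =  `ntF` (coefficients `ntCF q g`, multipliers `ntPs q U t`, `e₁`, atoms `ntAF q g U`),        for all `t < 0` and ALL real `y`.
The identity (with exactly the arrays of Core/NT/Defs.lean) was checked numerically with Taylor jets.
METHOD = the proof of `nt_struct1` below (complete; copy it):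
  1. expand the finite sums and evaluate the arrays   (the three `simp only` lines; then `zero_mul, add_zero, zero_add`);
  2. rewrite  `uT .. j (t,y)`, `ttF (uT U k) (t,y)`, `ntCh`, `ntCC`, the entries of `g.cf q` (ONLY for `g`; the entries of `(bgR q g).cf q` stay opaque, they cancel) by explicit formulas (`simp [..]`);
        `ttF (uT U 0) (t,y) = -(Xf y) * dY (U 0) (t,y)` (rfl after `uT_zero`),     `ttF (uT U 2) (t,y) = 2 y X U₂ - X² U₂'`  (`uT_two`, `ttF_X_mul (hU 2) ht y`, Core/PR/Jet0.lean);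
  3. unfold `R1F, R2F, RbF, GGF, ggF, Bg.w0, Bg.w1, Bg.ap, ntZe, ntZd, ntZw, DD` and insert the jets (Core/PR/Jet1.lean, all proved):
        `dY_h1F, dY_h2F, dY_dY_h1F, dY_dY_h2F, dY_GGF, dY_ggF, dY_e1F, dY_e2F, dY_e3F, hg.dY_Z, hg.app_eq`;
        `dY (ntZd g) (t,y) = (2 Z (dY Z) 𝖽 + Z² dY 𝖽)/2`,   `dY (ntZw g) (t,y) = dY Z · w' + Z w''`   (`dY_mul`, `Sm.pow`/`dY_mul` twice, `dY_const_mul`; prove them first as auxiliary lemmas `nt_dY_Zd`, `nt_dY_Zw`);
  4. `generalize` the exponentials and the values of `Ph1`, `Ph2`, then ONE `linear_combination` with the relations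
        hZt : Z̃ (1 + X B̃) = 1            coefficient  -(Z e₁ · (u-form of X U_j'' - d_j y U_j'))
        r_i : h_i Φ₁(h_i) = 1 - e_i        coefficient  `ntCC q g j i`  (explicit)
        rb  : X bPh = e₂ - e₁ (`X_mul_bPh`), i.e. with β = X b:  β e₂ Φ₁(β) = e₂ - e₁;      `ph1_ph2 β : 1 - Φ₁ β = β Φ₂ β`      (j = 0, 2; find the coefficients by collecting the terms with `bPh`, `Ph1 β`, `Ph2 β`);
     `Xf y = 1 - y²` (unfold `Xf` if `ring` needs it: `2 q Z bPh - 2 q y² Z bPh = 2 q Z X bPh`);   divide by `q + 1 ≠ 0` with `field_simp` BEFORE `linear_combination` if necessary.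
  If `linear_combination` is too slow:  split the identity (e.g. first prove (S1) `Rhs_j = Z e₁ DJ_j U_j + X (𝗐₁ - 𝗀 - q y Z bPh) U_j' + ZZ_j` of the blueprint, then the rest).
-/
import Claimed.Agent.R324.Core.NT.Defs
import Claimed.Agent.R324.Core.PR.Jet1
import Claimed.Agent.R324.Core.NT.Struct2
import Claimed.Agent.R324.Core.NT.Struct0

set_option autoImplicit false

namespace Claimed.Agent.R324.Core

open Set Filter Topology

noncomputable section

variable {q : ℝ} {g : Bg} {U : Tri} {t : ℝ}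

theorem nt_struct0 (hq : 1 < q) (hg : BgSm g) (hU : ∀ j, Sm (U j)) (ht : t < 0) (y : ℝ) :
    uT (NN q g U) 0 (t, y)
      = ntF ((ntCF q g).sl t) (ntPs q U t) (sl (e1F q U) t) ((ntAF q g U).sl t) 0 y :=
  nt_struct0_aux hq hg hU ht y

theorem nt_struct1 (hq : 1 < q) (hg : BgSm g) (ht : t < 0) (y : ℝ) :
    uT (NN q g U) 1 (t, y)
      = ntF ((ntCF q g).sl t) (ntPs q U t) (sl (e1F q U) t) ((ntAF q g U).sl t) 1 y := by
  have hZt := (bgR_sm hq hg).Z_mul ht y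
  have r1 := ph1_mul (h1F q U (t, y))
  have r2 := ph1_mul (h2F q U (t, y))
  have r3 := ph1_mul (U 1 (t, y))
  have hq1 : q + 1 ≠ 0 := by linarith
  simp only [ntF, ntB1, ntB5, ntB0, Fin.sum_univ_seven, Fin.sum_univ_six, Fin.sum_univ_four]
  simp only [ntCF, NTcF.sl, NTaF.sl, ntC1, ntC2, ntC5, ntC0, ntPs, ntPsF, ntAF, sl]
  simp only [Matrix.cons_val_zero, Matrix.cons_val_one, Matrix.cons_val]
  simp only [zero_mul, add_zero, zero_add]
  have hch : ∀ (g' : Bg) (k : Fin 3), ntCh q g' 1 k (t, y) = g'.cf q 1 k (t, y) := by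
    intro g' k
    simp [ntCh]
  simp only [hch]
  have hv : uT (Lt q g U) 1 (t, y) = (bgR q g).Z (t, y) * Xf y * dY (dY (U 1)) (t, y)
      + (-(q + 1) * y * (bgR q g).Z (t, y) + Xf y * (bgR q g).w1 (t, y)) * dY (U 1) (t, y)
      + ((bgR q g).cf q 1 0 (t, y) * U 0 (t, y) + (bgR q g).cf q 1 1 (t, y) * U 1 (t, y)
        + Xf y * (bgR q g).cf q 1 2 (t, y) * U 2 (t, y)) := by
    simp [uT, Lt, Lop, Fin.sum_univ_three, facJ, dimJ, Xf]
  have hN : uT (NN q g U) 1 (t, y) = R3F q g U (t, y) - uT (Lt q g U) 1 (t, y) := by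
    simp [uT, NN, Rhs]
  rw [hN, hv]
  have hu0 : uT U 0 (t, y) = U 0 (t, y) := by simp [uT]
  have hu1 : uT U 1 (t, y) = U 1 (t, y) := by simp [uT]
  have hu2 : uT U 2 (t, y) = Xf y * U 2 (t, y) := by simp [uT]
  have ht1 : ttF (uT U 1) (t, y) = -(Xf y) * dY (U 1) (t, y) := by
    rw [uT_one]; rfl
  rw [hu0, hu1, hu2, ht1]
  have c10 : g.cf q 1 0 (t, y) = g.Z (t, y) * ((q + 1) * y * g.wp (t, y) + Xf y * g.Z (t, y) * g.dd (t, y) * g.wp (t, y) / 2 - Xf y * g.wpp (t, y)) := by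
    simp [Bg.cf]
  have c11 : g.cf q 1 1 (t, y) = 2 * Real.exp (-g.w (t, y)) - g.Z (t, y) * Xf y * g.wp (t, y) ^ 2 := by
    simp [Bg.cf]
  have c12 : g.cf q 1 2 (t, y) = q / (q + 1) * Xf y * g.Z (t, y) * (g.Z (t, y) * g.dd (t, y) * g.wp (t, y) / 2 - g.wpp (t, y)) := by
    simp [Bg.cf]
  rw [c10, c11, c12]
  have C0 : ntCC q g 1 0 (t, y) = g.Z (t, y) * DD g.w (t, y) - Xf y * g.wp (t, y) * ntZd g (t, y) := by
    simp [ntCC]
  have C1 : ntCC q g 1 1 (t, y) = -q * y * ntZw g (t, y) := by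
    simp [ntCC]
  have C2 : ntCC q g 1 2 (t, y) = -2 * Real.exp (-g.w (t, y)) + Xf y * g.Z (t, y) * g.wp (t, y) ^ 2 := by
    simp [ntCC]
  rw [C0, C1, C2]
  simp only [R3F, GGF, ggF, Bg.w0, Bg.w1, ntZe, ntZd, ntZw, DD, e1F, e2F, e3F] at *
  simp only [h1F, h2F] at *
  have hwpp : dY (dY g.w) (t, y) = g.wpp (t, y) := rfl
  have hwp : dY g.w (t, y) = g.wp (t, y) := rfl
  rw [hwpp, hwp]
  generalize Real.exp (-(U 0 (t, y) + q / (q + 1) * (Xf (t, y).2 * U 2 (t, y)))) = e1 at *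
  generalize Real.exp (-(U 0 (t, y) - 1 / (q + 1) * (Xf (t, y).2 * U 2 (t, y)))) = e2 at *
  generalize Real.exp (-U 1 (t, y)) = e3 at *
  generalize Ph1 (U 0 (t, y) + q / (q + 1) * (Xf (t, y).2 * U 2 (t, y))) = P1 at *
  generalize Ph1 (U 0 (t, y) - 1 / (q + 1) * (Xf (t, y).2 * U 2 (t, y))) = P2 at *
  generalize Ph1 (U 1 (t, y)) = P3 at *
  clear hN hv hch c10 c11 c12 C0 C1 C2 hu0 hu1 hu2 ht1 hwpp hwp
  linear_combination (-(g.Z (t, y) * e1 * (Xf y * dY (dY (U 1)) (t, y) - (q + 1) * y * dY (U 1) (t, y)))) * hZt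
    + (g.Z (t, y) * (Xf y * g.wpp (t, y) - y * g.wp (t, y)) - Xf y * g.wp (t, y) * (g.Z (t, y) ^ 2 * g.dd (t, y) / 2)) * r1
    + (-q * y * (g.Z (t, y) * g.wp (t, y))) * r2
    + (-2 * Real.exp (-g.w (t, y)) + Xf y * g.Z (t, y) * g.wp (t, y) ^ 2) * r3


theorem nt_struct2 (hq : 1 < q) (hg : BgSm g) (hU : ∀ j, Sm (U j)) (ht : t < 0) (y : ℝ) :
    uT (NN q g U) 2 (t, y)
      = ntF ((ntCF q g).sl t) (ntPs q U t) (sl (e1F q U) t) ((ntAF q g U).sl t) 2 y :=
  nt_struct2_aux hq hg hU ht y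

/-- **the structure of the nonlinearity.** -/
theorem nt_struct (hq : 1 < q) (hg : BgSm g) (hU : ∀ j, Sm (U j)) (ht : t < 0) (y : ℝ) (j : Fin 3) :
    uT (NN q g U) j (t, y)
      = ntF ((ntCF q g).sl t) (ntPs q U t) (sl (e1F q U) t) ((ntAF q g U).sl t) j y := by
  fin_cases j
  · exact nt_struct0 hq hg hU ht y
  · exact nt_struct1 hq hg ht y
  · exact nt_struct2 hq hg hU ht y

end

end Claimed.Agent.R324.Core
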