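/-
Row 324 (S0582), PDE core, module NT (term calculus of `NN`; architect helper762).   File N0: **THE MASTER POINTWISE INEQUALITY N0** (blueprint 7.5) for differences.
   u-form: `uT S = (S₀, S₁, X S₂)`;   `ntS2 A y = A(y)² + (tt A)(y)²`;   `[[u]] = ntUb U t y = Σ_i (|u_i| + |tt u_i|)`, `u = uT U`;   `aa(U) = ntAaU q g U t y` the atom density (Core/NT/Defs.lean, Forms.lean):
        aa(U) = Σ_j ntS2 (uT (L̃ U) j) + r̂⁻⁴ Σ_i (ntS2 u_i + ntS2 (tt u_i)) + Σ_{p ∈ (σ', h₃', b, X b')} ntS2 p.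
   N0:   ntS2 (u-form of NN(U) - NN(V))_j ≤ 10¹¹ K² [ ([[u]] + [[v]] + Λ³)² aa(U - V) + [[u - v]]² (aa(U) + aa(V)) ]      if [[u]], [[v]] ≤ 1 at (t,y).
   `K, Λ₀` = the constants of `NTCoef q g K Λ₀` (`nt_coef_bd`, Core/NT/Cf.lean).
SKETCHES.
* `nt_struct hq hg hU ht y j`  (Core/NT/Struct.lean) = the structure identity.
* `nt_N0`:   t < 0 (`ht.2`);  ρ := rh2 q t y > 0  (`rh2_pos_dom` with `domOK_DW`, `mem_DW`, Core/W/SR.lean, Core/AP/Cal/ClsA.lean; Λ₀ ≤ 100/q ≤ 1);   κ := (-t)³ ≥ 0.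
     The function under `ntS2` equals  `fun z => ntF c Ps e a j z - ntF c Ps' e' a' j z`  (funext z; `nt_struct` twice),  c = (ntCF q g).sl t, Ps = ntPs q U t, e = sl (e1F q U) t, a = (ntAF q g U).sl t, primes: V.
     Apply `nt_diff` (Core/NT/FormD.lean) with  M = 50,  α = max [[u]] [[v]] (≤ 1, ≥ 0),  δ = [[u - v]] = ntUb (fun j p => U j p - V j p) t y:
        hc = (nt_sm_CF hq1 hg).df ht.2,  hP = nt_Ps_differentiable,  he = nt_sl_differentiable (sm_e1F ..),  ha = (nt_sm_AF hq1 hg hU).df ht.2     (Core/NT/Smooth.lean)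
        hb = hc.bd t ht y hy;     h1, h3: `nt_mult_bound`;   h2, h4: `nt_mult_diff`  (Core/NT/Mult.lean);    h5, h6: `nt_Xp_le`;    h7: `nt_atoms_sub` + `nt_Xp_le` for U - V  (Core/NT/Atoms.lean).
     `a.sub a' = (ntAF q g (U - V)).sl t` (`nt_atoms_sub`), so `ntAa ρ (a.sub a') y = ntAaU q g (U - V) t y` (unfold ntAaU).      Finally 10⁷ K² 50² = 2.5·10¹⁰ K² ≤ 10¹¹ K²,  (α + κ)² ≤ ([[u]] + [[v]] + κ)²  (`ntUb_nonneg`, `ntAa_nonneg`).
-/
import Claimed.Agent.R324.Core.NT.CfDefs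
import Claimed.Agent.R324.Core.NT.Struct
import Claimed.Agent.R324.Core.NT.FormD
import Claimed.Agent.R324.Core.NT.Mult
import Claimed.Agent.R324.Core.NT.Atoms
import Claimed.Agent.R324.Core.W.SR

set_option autoImplicit false

namespace Claimed.Agent.R324.Core

open Set Filter Topology

noncomputable section

variable {q : ℝ} {g : Bg} {U V : Tri} {t y K Λ₀ : ℝ}

theorem ntAaU_nonneg (q : ℝ) (g : Bg) (U : Tri) (t y : ℝ) : 0 ≤ ntAaU q g U t y := ntAa_nonneg _ _ _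

/-- **N0.** -/
theorem nt_N0 (hq : 100 ≤ q) (hg : BgSm g) (hc : NTCoef q g K Λ₀) (hU : ∀ j, Sm (U j)) (hV : ∀ j, Sm (V j))
    (ht : t ∈ Ico (-Λ₀) 0) (hy : y ∈ Icc (-1 : ℝ) 1) (h1 : ntUb U t y ≤ 1) (h2 : ntUb V t y ≤ 1) (j : Fin 3) :
    ntS2 (fun z => uT (NN q g U) j (t, z) - uT (NN q g V) j (t, z)) y
      ≤ 10 ^ 11 * K ^ 2 * ((ntUb U t y + ntUb V t y + (-t) ^ 3) ^ 2 * ntAaU q g (fun j p => U j p - V j p) t y
          + (ntUb (fun j p => U j p - V j p) t y) ^ 2 * (ntAaU q g U t y + ntAaU q g V t y)) := by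
  have hq1 : 1 < q := by linarith
  have hq0 : 0 ≤ q := by linarith
  have ht0 : t < 0 := ht.2
  have hΛ1 : Λ₀ ≤ 1 := hc.L1.trans (by rw [div_le_one (by linarith)]; exact hq)
  have hρ : 0 < rh2 q t y := rh2_pos_dom hq1 (domOK_DW hΛ1) (mem_DW ht hy)
  have hκ : 0 ≤ (-t) ^ 3 := by
    have : 0 ≤ -t := by linarith
    positivity
  have hW : ∀ j, Sm (fun p => U j p - V j p) := fun j => (hU j).sub (hV j)
  have hu := ntUb_nonneg U t y
  have hv := ntUb_nonneg V t y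
  have hδ := ntUb_nonneg (fun j p => U j p - V j p) t y
  have hfun : (fun z => uT (NN q g U) j (t, z) - uT (NN q g V) j (t, z))
      = fun z => ntF ((ntCF q g).sl t) (ntPs q U t) (sl (e1F q U) t) ((ntAF q g U).sl t) j z
        - ntF ((ntCF q g).sl t) (ntPs q V t) (sl (e1F q V) t) ((ntAF q g V).sl t) j z :=
    funext fun z => by rw [nt_struct hq1 hg hU ht0 z j, nt_struct hq1 hg hV ht0 z j]
  rw [hfun]
  obtain ⟨m1, m3⟩ := nt_mult_bound hq0 hU ht0 h1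
  obtain ⟨m2, m4⟩ := nt_mult_diff hq0 hU hV ht0 h1 h2
  have key := nt_diff (K := K) (κ := (-t) ^ 3) (ρ := rh2 q t y) (M := 50)
    (α := max (ntUb U t y) (ntUb V t y)) (δ := ntUb (fun j p => U j p - V j p) t y)
    ((nt_sm_CF hq1 hg).df ht0) (nt_Ps_differentiable q hU ht0) (nt_Ps_differentiable q hV ht0)
    (nt_sl_differentiable (sm_e1F q hU) ht0) (nt_sl_differentiable (sm_e1F q hV) ht0)
    ((nt_sm_AF hq1 hg hU).df ht0) ((nt_sm_AF hq1 hg hV).df ht0) hy hρ (by linarith [hc.K1]) hκ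
    (by norm_num) (le_max_of_le_left hu) (max_le h1 h2) hδ (hc.bd t ht y hy)
    (fun m => (m1 m).trans (mul_le_mul_of_nonneg_left (le_max_left _ _) (by norm_num))) m2 m3 m4
    (fun l => (nt_Xp_le q g hU ht0 hy l).trans
      (mul_le_mul_of_nonneg_left (le_max_left _ _) (by norm_num)))
    (fun l => (nt_Xp_le q g hV ht0 hy l).trans
      (mul_le_mul_of_nonneg_left (le_max_right _ _) (by norm_num)))
    (fun l => by rw [nt_atoms_sub hq1 hg hU hV ht0]; exact nt_Xp_le q g hW ht0 hy l) j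
  rw [nt_atoms_sub hq1 hg hU hV ht0] at key
  have hD := ntAaU_nonneg q g (fun j p => U j p - V j p) t y
  have hA := ntAaU_nonneg q g U t y
  have hA' := ntAaU_nonneg q g V t y
  have key' : ntS2 (fun z => ntF ((ntCF q g).sl t) (ntPs q U t) (sl (e1F q U) t) ((ntAF q g U).sl t) j z
        - ntF ((ntCF q g).sl t) (ntPs q V t) (sl (e1F q V) t) ((ntAF q g V).sl t) j z) y
      ≤ 10 ^ 7 * K ^ 2 * 50 ^ 2 * ((max (ntUb U t y) (ntUb V t y) + (-t) ^ 3) ^ 2
          * ntAaU q g (fun j p => U j p - V j p) t y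
        + (ntUb (fun j p => U j p - V j p) t y) ^ 2 * (ntAaU q g U t y + ntAaU q g V t y)) := key
  refine key'.trans ?_
  have hmax : max (ntUb U t y) (ntUb V t y) ≤ ntUb U t y + ntUb V t y :=
    max_le (by linarith) (by linarith)
  have hsq : (max (ntUb U t y) (ntUb V t y) + (-t) ^ 3) ^ 2 ≤ (ntUb U t y + ntUb V t y + (-t) ^ 3) ^ 2 :=
    pow_le_pow_left₀ (add_nonneg (le_max_of_le_left hu) hκ) (by linarith) 2
  have h3 : (max (ntUb U t y) (ntUb V t y) + (-t) ^ 3) ^ 2 * ntAaU q g (fun j p => U j p - V j p) t y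
        + (ntUb (fun j p => U j p - V j p) t y) ^ 2 * (ntAaU q g U t y + ntAaU q g V t y)
      ≤ (ntUb U t y + ntUb V t y + (-t) ^ 3) ^ 2 * ntAaU q g (fun j p => U j p - V j p) t y
        + (ntUb (fun j p => U j p - V j p) t y) ^ 2 * (ntAaU q g U t y + ntAaU q g V t y) :=
    add_le_add (mul_le_mul_of_nonneg_right hsq hD) le_rfl
  have h4 : 0 ≤ (ntUb U t y + ntUb V t y + (-t) ^ 3) ^ 2 * ntAaU q g (fun j p => U j p - V j p) t y
        + (ntUb (fun j p => U j p - V j p) t y) ^ 2 * (ntAaU q g U t y + ntAaU q g V t y) := by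
    positivity
  have h5 : (10 : ℝ) ^ 7 * K ^ 2 * 50 ^ 2 ≤ 10 ^ 11 * K ^ 2 := by nlinarith [sq_nonneg K]
  exact (mul_le_mul_of_nonneg_left h3 (by positivity)).trans (mul_le_mul_of_nonneg_right h5 h4)

end

end Claimed.Agent.R324.Core
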