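/-
Row 324 (S0582), PDE core, module NT (term calculus of `NN`; architect helper762).   File N0T: the pointwise inequality for the TIME DERIVATIVE of `NN(U)` (consumer: CL source estimate) and the commutator `[∂_t, L̃]`.
   Notation of Core/NT/N0.lean;   `U¹ = fun j => dT (U j)`,  Θ = Th t y,  Λ = -t.
   N0T:   ntS2 (∂_t (u-form of NN(U))_j) ≤ 10¹⁵ K⁴ [ ([[u]] + Λ³)² aa(U¹) + ([[u¹]]² + Θ⁻²) aa(U) ]        if [[u]] ≤ 1 at (t,y).
SKETCHES.   t < 0,  ρ = rh2 q t y > 0, Θ = Th t y > 0  (`rh2_pos_dom`, `Th_pos_dom` with `domOK_DW`, `mem_DW`; Λ₀ ≤ 100/q ≤ 1),   0 ≤ κ := (-t)³ ≤ 1.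
* `nt_dT_struct`:   `dT f (t,y) = deriv (fun s => f (s,y)) t` (rfl).   The functions `s ↦ uT (NN q g U) j (s,y)` and `s ↦ ntF ((ntCF q g).sl s) (ntPs q U s) (sl (e1F q U) s) ((ntAF q g U).sl s) j y` agree for s < 0 (`nt_struct`), i.e. near t
      (`Filter.EventuallyEq.deriv_eq`, `Iio_mem_nhds ht`);   `nt_F_hasDerivAt` (Core/NT/FormAlg.lean) `.deriv`.     Its hypotheses:  for a smooth `f : Fn`,  `(h : Sm f).hasDerivAt_t ht y : HasDerivAt (fun s => f (s,y)) (dT f (t,y)) t`  (Core/PR/Sm.lean)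
      with `nt_sm_CF`, `nt_sm_PsF`, `sm_e1F`  (all fields of `.sl`, `.dT` are rfl);   atoms: `nt_atoms_hasDerivAt`.
* `nt_comm_bound`:   by `nt_comm` the function under `ntS2` is `ntB0 ((ntCL q g).sl t) ((ntAF q g U).sl t) j` (funext);   `nt_B0_bound` with K := K/Θ, κ := 1, `hc.bdL`.
* `nt_Ad_aa`:   unfold `ntAa`, `ntAaU`;  the A- and p-parts of `ntAd` are those of the atoms of U¹ (rfl).     v-part:  `(ntAd q g U t).v j = fun z => uT (L̃ U¹) j (t,z) + ntB0 (..) (..) j z`  (funext, `nt_comm`);  `ntS2_add` (differentiability: `nt_sl_differentiable (sm_uT (sm_Lt ..) j)`, `nt_B0_differentiable`) and `nt_B0_bound`: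
            ntS2 (v_d j) ≤ 2 ntS2 (v(U¹) j) + 200 (K/Θ)² aa(U);     sum over j (`Fin.sum_univ_three`).
* `nt_N0T`:  `sl (dT (uT (NN q g U) j)) t = ntDF …` (funext z, `nt_dT_struct`);   `nt_DF_bound` (Core/NT/FormD.lean) with M = 50, K := K, Kd := K/Θ, α = [[u]], δ = [[u¹]] = ntUb (fun j => dT (U j)) t y:
        hb = hc.bd, hbd = hc.bdT;  h1, h3: `nt_mult_bound`;  h2, h4: `nt_mult_dT`;  h5: `nt_Xp_le`;  h6: `nt_Xp_le` for U¹ (the p-part of `ntAd` is rfl the one of U¹);   had = `nt_Ad_df`.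
      Result ≤ 10⁸·2500 [ (K²/Θ² + K² δ²) aa(U) + K² (α+κ)² (2 aa(U¹) + 600 K²/Θ² aa(U)) ],   (α+κ)² ≤ 4,  1 ≤ K:    ≤ 2.5·10¹¹ K⁴ [ (1/Θ² + δ²) aa(U) + 2 (α+κ)² aa(U¹) + 2400/Θ² aa(U) ] ≤ 10¹⁵ K⁴ [..].
-/
import Claimed.Agent.R324.Core.NT.N0
import Claimed.Agent.R324.Core.NT.FormAlg

set_option autoImplicit false

namespace Claimed.Agent.R324.Core

open Set Filter Topology

noncomputable section

variable {q : ℝ} {g : Bg} {U V : Tri} {t y K Λ₀ : ℝ}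

/-- the time derivative of the structure identity. -/
theorem nt_dT_struct (hq : 1 < q) (hg : BgSm g) (hU : ∀ j, Sm (U j)) (ht : t < 0) (j : Fin 3) (y : ℝ) :
    dT (uT (NN q g U) j) (t, y)
      = ntDF ((ntCF q g).sl t) ((ntCF q g).dT.sl t) (ntPs q U t) (fun m => sl (dT (ntPsF q U m)) t)
          (sl (e1F q U) t) (sl (dT (e1F q U)) t) ((ntAF q g U).sl t) (ntAd q g U t) j y := by
  have hev : (fun s => uT (NN q g U) j (s, y)) =ᶠ[𝓝 t]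
      fun s => ntF ((ntCF q g).sl s) (ntPs q U s) (sl (e1F q U) s) ((ntAF q g U).sl s) j y := by
    filter_upwards [Iio_mem_nhds ht] with s hs
    exact nt_struct hq hg hU hs y j
  have hC := nt_sm_CF hq hg
  obtain ⟨hA, hv, hp⟩ := nt_atoms_hasDerivAt hq hg hU ht y
  have hD := nt_F_hasDerivAt (c := fun s => (ntCF q g).sl s) (cd := (ntCF q g).dT.sl t)
    (Ps := fun s => ntPs q U s) (Pd := fun m => sl (dT (ntPsF q U m)) t)
    (e := fun s => sl (e1F q U) s) (ed := sl (dT (e1F q U)) t)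
    (a := fun s => (ntAF q g U).sl s) (ad := ntAd q g U t) (t := t) (y := y) j
    (fun m k => (hC.s1 j m k).hasDerivAt_t ht y)
    (fun m l => (hC.s2 j m l).hasDerivAt_t ht y)
    ((hC.s3 j).hasDerivAt_t ht y)
    (fun k l => (hC.s5 j k l).hasDerivAt_t ht y)
    (fun k => (hC.s0 j k).hasDerivAt_t ht y)
    ((hC.s0v j).hasDerivAt_t ht y)
    (fun m => (nt_sm_PsF q hU m).hasDerivAt_t ht y)
    ((sm_e1F q hU).hasDerivAt_t ht y)
    hA (hv j) hp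
  show deriv (fun s => uT (NN q g U) j (s, y)) t = _
  rw [hev.deriv_eq]
  exact hD.deriv

/-- the commutator `[∂_t, L̃] U` in u-form. -/
theorem nt_comm_bound (hq : 100 ≤ q) (hg : BgSm g) (hc : NTCoef q g K Λ₀) (hU : ∀ j, Sm (U j))
    (ht : t ∈ Ico (-Λ₀) 0) (hy : y ∈ Icc (-1 : ℝ) 1) (j : Fin 3) :
    ntS2 (fun z => dT (uT (Lt q g U) j) (t, z) - uT (Lt q g (fun j => dT (U j))) j (t, z)) y
      ≤ 100 * K ^ 2 / (Th t y) ^ 2 * ntAaU q g U t y := by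
  have hq1 : (1 : ℝ) < q := by linarith
  have hΛ : Λ₀ ≤ 1 := hc.L1.trans (by rw [div_le_one (by linarith)]; exact hq)
  have hρ : 0 < rh2 q t y := rh2_pos_dom hq1 (domOK_DW hΛ) (mem_DW ht hy)
  have hΘ : 0 < Th t y := Th_pos_dom (domOK_DW hΛ) (mem_DW ht hy)
  have hK0 : 0 ≤ K := by linarith [hc.K1]
  have e : (fun z => dT (uT (Lt q g U) j) (t, z) - uT (Lt q g (fun j => dT (U j))) j (t, z))
      = ntB0 ((ntCL q g).sl t) ((ntAF q g U).sl t) j := by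
    funext z
    rw [nt_comm hq1 hg hU ht.2 z j]
    ring
  rw [e]
  have h := nt_B0_bound ((nt_sm_CL hq1 hg).df ht.2) ((nt_sm_AF hq1 hg hU).df ht.2) hρ
    (div_nonneg hK0 hΘ.le) zero_le_one (hc.bdL t ht y hy) j
  have e2 : 100 * (K / Th t y) ^ 2 * 1 ^ 2 * ntAa (rh2 q t y) ((ntAF q g U).sl t) y
      = 100 * K ^ 2 / (Th t y) ^ 2 * ntAaU q g U t y := by
    unfold ntAaU
    rw [div_pow]
    ring
  rw [← e2]
  exact h

/-- the density of the time derivative of the atoms. -/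
theorem nt_Ad_aa (hq : 100 ≤ q) (hg : BgSm g) (hc : NTCoef q g K Λ₀) (hU : ∀ j, Sm (U j))
    (ht : t ∈ Ico (-Λ₀) 0) (hy : y ∈ Icc (-1 : ℝ) 1) :
    ntAa (rh2 q t y) (ntAd q g U t) y
      ≤ 2 * ntAaU q g (fun j => dT (U j)) t y + 600 * K ^ 2 / (Th t y) ^ 2 * ntAaU q g U t y := by
  have hq1 : (1 : ℝ) < q := by linarith
  have hΛ : Λ₀ ≤ 1 := hc.L1.trans (by rw [div_le_one (by linarith)]; exact hq)
  have hρ : 0 < rh2 q t y := rh2_pos_dom hq1 (domOK_DW hΛ) (mem_DW ht hy)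
  have hΘ : 0 < Th t y := Th_pos_dom (domOK_DW hΛ) (mem_DW ht hy)
  have hK0 : 0 ≤ K := by linarith [hc.K1]
  have hU1 : ∀ j, Sm (dT (U j)) := fun j => (hU j).dT
  have hcd := (nt_sm_CL hq1 hg).df ht.2
  have had := (nt_sm_AF hq1 hg hU).df ht.2
  have hv : ∀ j, ntS2 ((ntAd q g U t).v j) y
      ≤ 2 * ntS2 (((ntAF q g (fun j => dT (U j))).sl t).v j) y
        + 200 * K ^ 2 / (Th t y) ^ 2 * ntAaU q g U t y := by
    intro j
    have e : (ntAd q g U t).v j = fun z => (sl (uT (Lt q g (fun j => dT (U j))) j) t) z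
        + ntB0 ((ntCL q g).sl t) ((ntAF q g U).sl t) j z := by
      funext z
      exact nt_comm hq1 hg hU ht.2 z j
    rw [e]
    have h1 := ntS2_add (y := y) ((nt_sl_differentiable (sm_uT (sm_Lt hq1 hg hU1) j) ht.2) y)
      ((nt_B0_differentiable hcd had j) y)
    have h := nt_B0_bound hcd had hρ (div_nonneg hK0 hΘ.le) zero_le_one (hc.bdL t ht y hy) j
    have e2 : 100 * (K / Th t y) ^ 2 * 1 ^ 2 * ntAa (rh2 q t y) ((ntAF q g U).sl t) y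
        = 100 * K ^ 2 / (Th t y) ^ 2 * ntAaU q g U t y := by
      unfold ntAaU
      rw [div_pow]
      ring
    rw [e2] at h
    have e3 : ((ntAF q g (fun j => dT (U j))).sl t).v j = sl (uT (Lt q g (fun j => dT (U j))) j) t := rfl
    rw [e3]
    have e4 : 200 * K ^ 2 / (Th t y) ^ 2 * ntAaU q g U t y
        = 2 * (100 * K ^ 2 / (Th t y) ^ 2 * ntAaU q g U t y) := by ring
    rw [e4]
    linarith
  have hA : (ntAd q g U t).A = ((ntAF q g (fun j => dT (U j))).sl t).A := rfl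
  have hp : (ntAd q g U t).p = ((ntAF q g (fun j => dT (U j))).sl t).p := rfl
  have h2 : 0 ≤ (∑ k, ntS2 (((ntAF q g (fun j => dT (U j))).sl t).A k) y) / (rh2 q t y) ^ 2 :=
    div_nonneg (Finset.sum_nonneg fun j _ => ntS2_nonneg _ _) (sq_nonneg _)
  have h3 : 0 ≤ ∑ l, ntS2 (((ntAF q g (fun j => dT (U j))).sl t).p l) y :=
    Finset.sum_nonneg fun j _ => ntS2_nonneg _ _
  have e5 : ntAaU q g (fun j => dT (U j)) t y
      = (∑ j, ntS2 (((ntAF q g (fun j => dT (U j))).sl t).v j) y)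
        + (∑ k, ntS2 (((ntAF q g (fun j => dT (U j))).sl t).A k) y) / (rh2 q t y) ^ 2
        + ∑ l, ntS2 (((ntAF q g (fun j => dT (U j))).sl t).p l) y := rfl
  rw [e5]
  unfold ntAa
  rw [hA, hp, Fin.sum_univ_three, Fin.sum_univ_three]
  have e6 : 600 * K ^ 2 / (Th t y) ^ 2 * ntAaU q g U t y
      = 3 * (200 * K ^ 2 / (Th t y) ^ 2 * ntAaU q g U t y) := by ring
  rw [e6]
  linarith [hv 0, hv 1, hv 2]

/-- scalar arithmetic of `nt_N0T`. -/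
theorem nt_N0T_arith {K Θ α κ δ A A1 D : ℝ} (hK : 1 ≤ K) (hΘ : 0 < Θ) (hα0 : 0 ≤ α) (hα1 : α ≤ 1)
    (hκ0 : 0 ≤ κ) (hκ1 : κ ≤ 1) (hA : 0 ≤ A) (hA1 : 0 ≤ A1) (hD : D ≤ 2 * A1 + 600 * K ^ 2 / Θ ^ 2 * A) :
    10 ^ 8 * (50 : ℝ) ^ 2 * (((K / Θ) ^ 2 + K ^ 2 * δ ^ 2) * A + K ^ 2 * (α + κ) ^ 2 * D)
      ≤ 10 ^ 15 * K ^ 4 * ((α + κ) ^ 2 * A1 + (δ ^ 2 + 1 / Θ ^ 2) * A) := by
  obtain ⟨T, hT⟩ : ∃ T : ℝ, T = 1 / Θ ^ 2 := ⟨_, rfl⟩
  obtain ⟨s, hs⟩ : ∃ s : ℝ, s = (α + κ) ^ 2 := ⟨_, rfl⟩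
  obtain ⟨k, hk⟩ : ∃ k : ℝ, k = K ^ 2 := ⟨_, rfl⟩
  have hT0 : 0 ≤ T := by rw [hT]; positivity
  have e1 : (K / Θ) ^ 2 = k * T := by rw [hT, hk, div_pow]; ring
  have e2 : 600 * K ^ 2 / Θ ^ 2 = 600 * k * T := by rw [hT, hk]; ring
  have e3 : K ^ 4 = k ^ 2 := by rw [hk]; ring
  have hs0 : 0 ≤ s := by rw [hs]; positivity
  have hs4 : s ≤ 4 := by
    rw [hs]
    have : (α + κ) ^ 2 ≤ 2 ^ 2 := pow_le_pow_left₀ (by linarith) (by linarith) 2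
    linarith
  have hk1 : 1 ≤ k := by rw [hk]; exact one_le_pow₀ hK
  have hk0 : 0 ≤ k := by linarith
  have hkk : k ≤ k ^ 2 := by nlinarith
  rw [e1, e3, ← hs, ← hT, ← hk]
  rw [e2] at hD
  have x1 : 0 ≤ T * A := mul_nonneg hT0 hA
  have x2 : 0 ≤ δ ^ 2 * A := mul_nonneg (sq_nonneg _) hA
  have x3 : 0 ≤ s * A1 := mul_nonneg hs0 hA1
  have h1 : k * s * D ≤ k * s * (2 * A1 + 600 * k * T * A) :=
    mul_le_mul_of_nonneg_left hD (mul_nonneg hk0 hs0)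
  have p1 : k * (T * A) ≤ k ^ 2 * (T * A) := mul_le_mul_of_nonneg_right hkk x1
  have p2 : k * (δ ^ 2 * A) ≤ k ^ 2 * (δ ^ 2 * A) := mul_le_mul_of_nonneg_right hkk x2
  have p3 : k * (s * A1) ≤ k ^ 2 * (s * A1) := mul_le_mul_of_nonneg_right hkk x3
  have p4 : k ^ 2 * (s * (T * A)) ≤ k ^ 2 * (4 * (T * A)) :=
    mul_le_mul_of_nonneg_left (mul_le_mul_of_nonneg_right hs4 x1) (sq_nonneg _)
  have q1 : 0 ≤ k ^ 2 * (T * A) := mul_nonneg (sq_nonneg _) x1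
  have q2 : 0 ≤ k ^ 2 * (δ ^ 2 * A) := mul_nonneg (sq_nonneg _) x2
  have q3 : 0 ≤ k ^ 2 * (s * A1) := mul_nonneg (sq_nonneg _) x3
  have l1 : 10 ^ 8 * (50 : ℝ) ^ 2 * ((k * T + k * δ ^ 2) * A + k * s * D)
      = 250000000000 * (k * (T * A)) + 250000000000 * (k * (δ ^ 2 * A)) + 250000000000 * (k * s * D) := by
    ring
  have l2 : k * s * (2 * A1 + 600 * k * T * A) = 2 * (k * (s * A1)) + 600 * (k ^ 2 * (s * (T * A))) := by
    ring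
  have l3 : 10 ^ 15 * k ^ 2 * (s * A1 + (δ ^ 2 + T) * A)
      = 1000000000000000 * (k ^ 2 * (s * A1)) + 1000000000000000 * (k ^ 2 * (δ ^ 2 * A))
        + 1000000000000000 * (k ^ 2 * (T * A)) := by
    ring
  rw [l1, l3]
  rw [l2] at h1
  linarith

/-- **N0T.** -/
theorem nt_N0T (hq : 100 ≤ q) (hg : BgSm g) (hc : NTCoef q g K Λ₀) (hU : ∀ j, Sm (U j))
    (ht : t ∈ Ico (-Λ₀) 0) (hy : y ∈ Icc (-1 : ℝ) 1) (h1 : ntUb U t y ≤ 1) (j : Fin 3) :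
    ntS2 (sl (dT (uT (NN q g U) j)) t) y
      ≤ 10 ^ 15 * K ^ 4 * ((ntUb U t y + (-t) ^ 3) ^ 2 * ntAaU q g (fun j => dT (U j)) t y
          + ((ntUb (fun j => dT (U j)) t y) ^ 2 + 1 / (Th t y) ^ 2) * ntAaU q g U t y) := by
  have ht0 : t < 0 := ht.2
  have hq1 : 1 < q := by linarith
  have hq0 : 0 ≤ q := by linarith
  have hΛ1 : Λ₀ ≤ 1 := hc.L1.trans (by rw [div_le_one (by linarith)]; exact hq)
  have hD := domOK_DW hΛ1
  have hρ : 0 < rh2 q t y := rh2_pos_dom hq1 hD (mem_DW ht hy)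
  have hΘ : 0 < Th t y := Th_pos_dom hD (mem_DW ht hy)
  have hκ0 : 0 ≤ (-t) ^ 3 := pow_nonneg (by linarith) 3
  have hκ1 : (-t) ^ 3 ≤ 1 := pow_le_one₀ (by linarith) (by linarith [ht.1])
  have hK1 := hc.K1
  have hK0 : 0 ≤ K := by linarith
  have hfun : sl (dT (uT (NN q g U) j)) t
      = ntDF ((ntCF q g).sl t) ((ntCF q g).dT.sl t) (ntPs q U t) (fun m => sl (dT (ntPsF q U m)) t)
          (sl (e1F q U) t) (sl (dT (e1F q U)) t) ((ntAF q g U).sl t) (ntAd q g U t) j :=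
    funext fun z => nt_dT_struct hq1 hg hU ht0 j z
  rw [hfun]
  obtain ⟨m1, m3⟩ := nt_mult_bound (y := y) hq0 hU ht0 h1
  obtain ⟨m2, m4⟩ := nt_mult_dT (y := y) hq0 hU ht0 h1
  have hU1 : ∀ j, Sm (dT (U j)) := fun j => (hU j).dT
  have key := nt_DF_bound ((nt_sm_CF hq1 hg).df ht0) ((nt_sm_CF hq1 hg).dT.df ht0)
    (nt_Ps_differentiable q hU ht0) (fun m => nt_sl_differentiable (nt_sm_PsF q hU m).dT ht0)
    (nt_sl_differentiable (sm_e1F q hU) ht0) (nt_sl_differentiable (sm_e1F q hU).dT ht0)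
    ((nt_sm_AF hq1 hg hU).df ht0) (nt_Ad_df hq1 hg hU ht0) hy hρ hK0 (div_nonneg hK0 hΘ.le) hκ0
    (by norm_num : (1 : ℝ) ≤ 50) (ntUb_nonneg U t y) h1 (ntUb_nonneg (fun j => dT (U j)) t y)
    (hc.bd t ht y hy) (hc.bdT t ht y hy) m1 m2 m3 m4 (nt_Xp_le q g hU ht0 hy)
    (nt_Xp_le q g hU1 ht0 hy) j
  exact key.trans (nt_N0T_arith hK1 hΘ (ntUb_nonneg U t y) h1 hκ0 hκ1 (ntAaU_nonneg q g U t y)
    (ntAaU_nonneg q g (fun j => dT (U j)) t y) (nt_Ad_aa hq hg hc hU ht hy))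

end

end Claimed.Agent.R324.Core
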