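/-
Row 324 (S0582), PDE core, module NT (term calculus of `NN`; architect helper762).   File CfDefs: the INTERFACE between the coefficient bounds (Core/NT/Cf*.lean) and the pointwise inequalities N0, N0T, N0L (Core/NT/N0*.lean).
   `NTCoef q g K Λ₀`:   on `[-Λ₀,0) × [-1,1]`, with `ρ = r̂² = rh2 q t y`, `Θ = Th t y`, `Λ = -t`, `[[c]] = ntBk`:
      bd :   [[c1]] ≤ K/ρ,  [[c2]], [[c3]], [[c5]] ≤ K,   [[c0]] ≤ K Λ³/ρ,  [[c0v]] ≤ K Λ³          (coefficients `ntCF q g` of `NN`)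
      bdT:   the same for the time derivatives, with `K/Θ` instead of `K` and WITHOUT the smallness `Λ³`
      bdL:   [[c0]] ≤ K/(Θ ρ),  [[c0v]] ≤ K/Θ                                                        (coefficients `ntCL q g` of the commutator `[∂_t, L̃]`)
   `nt_coef_bd : 100 ≤ q → BgGood q g → ∃ K Λ₀, NTCoef q g K Λ₀`   is proved in Core/NT/Cf.lean.
-/
import Claimed.Agent.R324.Core.NT.Defs

set_option autoImplicit false

namespace Claimed.Agent.R324.Core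

open Set Filter Topology

noncomputable section

/-- the bounds of the coefficients. -/
structure NTCoef (q : ℝ) (g : Bg) (K Λ₀ : ℝ) : Prop where
  K1 : 1 ≤ K
  L0 : 0 < Λ₀
  L1 : Λ₀ ≤ 100 / q
  bd : ∀ t ∈ Ico (-Λ₀) 0, ∀ y ∈ Icc (-1 : ℝ) 1, ((ntCF q g).sl t).Bd K ((-t) ^ 3) (rh2 q t y) y
  bdT : ∀ t ∈ Ico (-Λ₀) 0, ∀ y ∈ Icc (-1 : ℝ) 1, ((ntCF q g).dT.sl t).Bd (K / Th t y) 1 (rh2 q t y) y
  bdL : ∀ t ∈ Ico (-Λ₀) 0, ∀ y ∈ Icc (-1 : ℝ) 1, ((ntCL q g).sl t).Bd (K / Th t y) 1 (rh2 q t y) y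

theorem NTCoef.mono {q : ℝ} {g : Bg} {K Λ₀ Λ₁ : ℝ} (h : NTCoef q g K Λ₀) (h0 : 0 < Λ₁) (h1 : Λ₁ ≤ Λ₀) :
    NTCoef q g K Λ₁ :=
  ⟨h.K1, h0, h1.trans h.L1, fun t ht => h.bd t ⟨by linarith [ht.1], ht.2⟩,
    fun t ht => h.bdT t ⟨by linarith [ht.1], ht.2⟩, fun t ht => h.bdL t ⟨by linarith [ht.1], ht.2⟩⟩

end

end Claimed.Agent.R324.Core
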